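import Vale.Agent.P201.MathlibUsed
import Vale.Agent.P201.GenDefs

set_option linter.all false

section

section

/-!
Malcev-Neumann series over a bi-ordered group.
-/

namespace Vale.Agent.P201

open Set Pointwise

section split
variable {C : Type*} [Group C] [LinearOrder C] [MulLeftMono C] [MulRightMono C]

theorem isPWO_mul' {s t : Set C} (hs : s.IsPWO) (ht : t.IsPWO) : (s * t).IsPWO := by
  rw [← image_mul_prod]
  exact (hs.prod ht).image_of_monotone (fun a b h => mul_le_mul' h.1 h.2)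

theorem finite_split {s t : Set C} (hs : s.IsPWO) (ht : t.IsPWO) (a : C) :
    {b | b ∈ s ∧ b⁻¹ * a ∈ t}.Finite := by
  by_contra h
  have h' : {b | b ∈ s ∧ b⁻¹ * a ∈ t}.Infinite := h
  let f := h'.natEmbedding
  obtain ⟨g, hg⟩ := hs.exists_monotone_subseq (f := fun n => (f n : C)) (fun n => (f n).2.1)
  obtain ⟨m, n, hmn, hle⟩ := ht (f := fun n => (⟨(f (g n) : C)⁻¹ * a, (f (g n)).2.2⟩ : t))
  have h1 : (f (g n) : C) ≤ f (g m) := by
    have := (mul_le_mul_iff_right a).1 hle
    exact inv_le_inv_iff.1 this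
  have h2 : (f (g m) : C) ≤ f (g n) := hg hmn.le
  have h3 : f (g m) = f (g n) := Subtype.ext (le_antisymm h2 h1)
  have h4 := g.injective (f.injective h3)
  omega

end split

/-- Malcev-Neumann series. -/
@[ext] structure MN (C K : Type*) [LinearOrder C] [Zero K] where
  coeff : C → K
  isPWO : (Function.support coeff).IsPWO

namespace MN

section basic
variable {C K : Type*} [LinearOrder C] [Ring K]

theorem coeff_injective : Function.Injective (coeff : MN C K → C → K) := fun x y h => by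
  cases x; cases y; simp at h; subst h; rfl

instance : Zero (MN C K) := ⟨⟨0, by simp⟩⟩
instance : Add (MN C K) := ⟨fun x y => ⟨x.coeff + y.coeff,
  (x.isPWO.union y.isPWO).mono (Function.support_add _ _)⟩⟩
instance : Neg (MN C K) := ⟨fun x => ⟨-x.coeff, by
  rw [Function.support_neg]; exact x.isPWO⟩⟩
instance : Sub (MN C K) := ⟨fun x y => ⟨x.coeff - y.coeff,
  (x.isPWO.union y.isPWO).mono (Function.support_sub _ _)⟩⟩
instance {S : Type*} [SMulZeroClass S K] : SMul S (MN C K) := ⟨fun k x => ⟨k • x.coeff,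
  x.isPWO.mono (Function.support_const_smul_subset _ _)⟩⟩

@[simp] theorem coeff_zero : (0 : MN C K).coeff = 0 := rfl
@[simp] theorem coeff_add (x y : MN C K) : (x + y).coeff = x.coeff + y.coeff := rfl
@[simp] theorem coeff_neg (x : MN C K) : (-x).coeff = -x.coeff := rfl
@[simp] theorem coeff_sub (x y : MN C K) : (x - y).coeff = x.coeff - y.coeff := rfl
@[simp] theorem coeff_smul {S : Type*} [SMulZeroClass S K] (k : S) (x : MN C K) :
    (k • x).coeff = k • x.coeff := rfl

instance : AddCommGroup (MN C K) :=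
  coeff_injective.addCommGroup _ coeff_zero coeff_add coeff_neg coeff_sub
    (fun _ _ => rfl) (fun _ _ => rfl)

/-- Coefficients as an additive hom. -/
def coeffHom : MN C K →+ (C → K) where
  toFun := coeff
  map_zero' := rfl
  map_add' _ _ := rfl

instance : Module K (MN C K) :=
  coeff_injective.module K coeffHom (fun _ _ => rfl)

/-- The monomial `k • g`. -/
def single (g : C) (k : K) : MN C K :=
  ⟨fun a => if a = g then k else 0, (Set.finite_singleton g).isPWO.mono (fun a ha => by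
    by_contra h
    simp only [mem_singleton_iff] at h
    simp [h] at ha)⟩

theorem coeff_single (g : C) (k : K) (a : C) :
    (single g k).coeff a = if a = g then k else 0 := rfl

@[simp] theorem coeff_single_same (g : C) (k : K) : (single g k).coeff g = k := by
  simp [coeff_single]

theorem eq_zero_iff (x : MN C K) : x = 0 ↔ ∀ a, x.coeff a = 0 := by
  constructor
  · rintro rfl a; rfl
  · intro h; ext a; exact h a

end basic

section mul
variable {C K : Type*} [Group C] [LinearOrder C] [MulLeftMono C] [MulRightMono C] [Ring K]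

/-- The finite set of splittings `a = b * (b⁻¹ * a)`. -/
noncomputable def spl (x y : MN C K) (a : C) : Finset C :=
  (finite_split x.isPWO y.isPWO a).toFinset

theorem mem_spl {x y : MN C K} {a b : C} :
    b ∈ spl x y a ↔ x.coeff b ≠ 0 ∧ y.coeff (b⁻¹ * a) ≠ 0 := by
  simp [spl]

noncomputable instance : Mul (MN C K) := ⟨fun x y =>
  ⟨fun a => ∑ b ∈ spl x y a, x.coeff b * y.coeff (b⁻¹ * a),
    (isPWO_mul' x.isPWO y.isPWO).mono (by
      intro a ha
      simp only [Function.mem_support, ne_eq] at ha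
      obtain ⟨b, hb, -⟩ := Finset.exists_ne_zero_of_sum_ne_zero ha
      rw [mem_spl] at hb
      exact ⟨b, hb.1, b⁻¹ * a, hb.2, by simp⟩)⟩⟩

theorem coeff_mul_def (x y : MN C K) (a : C) :
    (x * y).coeff a = ∑ b ∈ spl x y a, x.coeff b * y.coeff (b⁻¹ * a) := rfl

/-- compute the product over any large enough finite set -/
theorem coeff_mul_eq (x y : MN C K) (a : C) (B : Finset C)
    (hB : ∀ b, x.coeff b ≠ 0 → y.coeff (b⁻¹ * a) ≠ 0 → b ∈ B) :
    (x * y).coeff a = ∑ b ∈ B, x.coeff b * y.coeff (b⁻¹ * a) := by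
  rw [coeff_mul_def]
  apply Finset.sum_subset
  · intro b hb
    rw [mem_spl] at hb
    exact hB b hb.1 hb.2
  · intro b _ hb
    rw [mem_spl] at hb
    by_contra h
    exact hb ⟨left_ne_zero_of_mul h, right_ne_zero_of_mul h⟩

/-- shifted version -/
theorem coeff_mul_shift (x y : MN C K) (a c : C) (B : Finset C)
    (hB : ∀ b, x.coeff (c⁻¹ * b) ≠ 0 → y.coeff (b⁻¹ * a) ≠ 0 → b ∈ B) :
    (x * y).coeff (c⁻¹ * a) = ∑ b ∈ B, x.coeff (c⁻¹ * b) * y.coeff (b⁻¹ * a) := by
  classical
  rw [coeff_mul_eq x y (c⁻¹ * a) (B.image (fun b => c⁻¹ * b))]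
  · rw [Finset.sum_image]
    · apply Finset.sum_congr rfl
      intro b _
      simp [mul_assoc]
    · intro b _ b' _ h
      simpa using h
  · intro b h1 h2
    rw [Finset.mem_image]
    refine ⟨c * b, hB _ (by simpa using h1) ?_, by simp⟩
    have : (c * b)⁻¹ * a = b⁻¹ * (c⁻¹ * a) := by group
    rwa [this]

theorem support_mul_mem {x y : MN C K} {a : C} (h : (x * y).coeff a ≠ 0) :
    ∃ b, x.coeff b ≠ 0 ∧ y.coeff (b⁻¹ * a) ≠ 0 := by
  rw [coeff_mul_def] at h
  obtain ⟨b, hb, -⟩ := Finset.exists_ne_zero_of_sum_ne_zero h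
  exact ⟨b, mem_spl.1 hb⟩

theorem mul_assoc' (x y z : MN C K) : x * y * z = x * (y * z) := by
  classical
  ext a
  set B : Finset C := (finite_split (isPWO_mul' x.isPWO y.isPWO) z.isPWO a).toFinset with hBdef
  set D : Finset C := (finite_split x.isPWO (isPWO_mul' y.isPWO z.isPWO) a).toFinset with hDdef
  have hL : (x * y * z).coeff a = ∑ b ∈ B, (∑ c ∈ D, x.coeff c * y.coeff (c⁻¹ * b)) *
      z.coeff (b⁻¹ * a) := by
    rw [coeff_mul_eq (x * y) z a B]
    · apply Finset.sum_congr rfl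
      intro b hb
      by_cases hz : z.coeff (b⁻¹ * a) = 0
      · simp [hz]
      congr 1
      apply coeff_mul_eq
      intro c hc1 hc2
      rw [hDdef, Set.Finite.mem_toFinset]
      exact ⟨hc1, c⁻¹ * b, hc2, b⁻¹ * a, hz, by group⟩
    · intro b hb1 hb2
      rw [hBdef, Set.Finite.mem_toFinset]
      obtain ⟨c, hc1, hc2⟩ := support_mul_mem hb1
      exact ⟨⟨c, hc1, c⁻¹ * b, hc2, by group⟩, hb2⟩
  have hR : (x * (y * z)).coeff a = ∑ c ∈ D, x.coeff c * ∑ b ∈ B, y.coeff (c⁻¹ * b) *
      z.coeff (b⁻¹ * a) := by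
    rw [coeff_mul_eq x (y * z) a D]
    · apply Finset.sum_congr rfl
      intro c hc
      by_cases hx : x.coeff c = 0
      · simp [hx]
      congr 1
      apply coeff_mul_shift
      intro b hb1 hb2
      rw [hBdef, Set.Finite.mem_toFinset]
      exact ⟨⟨c, hx, c⁻¹ * b, hb1, by group⟩, hb2⟩
    · intro c hc1 hc2
      rw [hDdef, Set.Finite.mem_toFinset]
      obtain ⟨d, hd1, hd2⟩ := support_mul_mem hc2
      exact ⟨hc1, ⟨d, hd1, d⁻¹ * (c⁻¹ * a), hd2, by group⟩⟩
  rw [hL, hR]
  simp_rw [Finset.sum_mul, Finset.mul_sum, mul_assoc]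
  rw [Finset.sum_comm]

noncomputable instance : One (MN C K) := ⟨single 1 1⟩

omit [MulLeftMono C] [MulRightMono C] in
theorem one_def : (1 : MN C K) = single 1 1 := rfl

theorem single_mul_coeff (g : C) (k : K) (x : MN C K) (a : C) :
    (single g k * x).coeff a = k * x.coeff (g⁻¹ * a) := by
  rw [coeff_mul_eq _ _ a {g}]
  · simp
  · intro b hb _
    rw [coeff_single] at hb
    split_ifs at hb with h
    · simp [h]
    · exact absurd rfl hb

theorem mul_single_coeff (g : C) (k : K) (x : MN C K) (a : C) :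
    (x * single g k).coeff a = x.coeff (a * g⁻¹) * k := by
  rw [coeff_mul_eq _ _ a {a * g⁻¹}]
  · simp [coeff_single]
  · intro b _ hb
    rw [coeff_single] at hb
    split_ifs at hb with h
    · simp [← h]
    · exact absurd rfl hb

noncomputable instance : Ring (MN C K) where
  __ := (inferInstance : AddCommGroup (MN C K))
  mul_assoc := mul_assoc'
  one_mul x := by
    ext a
    rw [one_def, single_mul_coeff]; simp
  mul_one x := by
    ext a
    rw [one_def, mul_single_coeff]; simp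
  left_distrib x y z := by
    classical
    ext a
    rw [coeff_add, Pi.add_apply, coeff_mul_eq x (y + z) a (spl x y a ∪ spl x z a),
      coeff_mul_eq x y a (spl x y a ∪ spl x z a), coeff_mul_eq x z a (spl x y a ∪ spl x z a),
      ← Finset.sum_add_distrib]
    · simp [mul_add]
    · intro b h1 h2
      rw [Finset.mem_union, mem_spl, mem_spl]
      exact Or.inr ⟨h1, h2⟩
    · intro b h1 h2
      rw [Finset.mem_union, mem_spl, mem_spl]
      exact Or.inl ⟨h1, h2⟩
    · intro b h1 h2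
      rw [Finset.mem_union, mem_spl, mem_spl]
      by_cases h3 : y.coeff (b⁻¹ * a) = 0
      · refine Or.inr ⟨h1, ?_⟩
        intro h4
        simp [h3, h4] at h2
      · exact Or.inl ⟨h1, h3⟩
  right_distrib x y z := by
    classical
    ext a
    rw [coeff_add, Pi.add_apply, coeff_mul_eq (x + y) z a (spl x z a ∪ spl y z a),
      coeff_mul_eq x z a (spl x z a ∪ spl y z a), coeff_mul_eq y z a (spl x z a ∪ spl y z a),
      ← Finset.sum_add_distrib]
    · simp [add_mul]
    · intro b h1 h2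
      rw [Finset.mem_union, mem_spl, mem_spl]
      exact Or.inr ⟨h1, h2⟩
    · intro b h1 h2
      rw [Finset.mem_union, mem_spl, mem_spl]
      exact Or.inl ⟨h1, h2⟩
    · intro b h1 h2
      rw [Finset.mem_union, mem_spl, mem_spl]
      by_cases h3 : x.coeff b = 0
      · refine Or.inr ⟨?_, h2⟩
        intro h4
        simp [h3, h4] at h1
      · exact Or.inl ⟨h3, h2⟩
  zero_mul x := by
    ext a
    rw [coeff_mul_eq 0 x a ∅] <;> simp
  mul_zero x := by
    ext a
    rw [coeff_mul_eq x 0 a ∅] <;> simp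

theorem single_mul_single (g h : C) (k l : K) :
    single g k * single h l = (single (g * h) (k * l) : MN C K) := by
  ext a
  rw [single_mul_coeff, coeff_single, coeff_single]
  by_cases ha : a = g * h
  · subst ha; simp
  · have : g⁻¹ * a ≠ h := fun h' => ha (by rw [← h']; group)
    simp [ha, this]

end mul

section divring
variable {C K : Type*} [Group C] [LinearOrder C] [MulLeftMono C] [MulRightMono C] [DivisionRing K]

instance : Nontrivial (MN C K) := ⟨⟨0, 1, fun h => by
  have := congrArg (fun x => x.coeff 1) h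
  simp [one_def] at this⟩⟩

theorem closure_isPWO {s : Set C} (hs : s.IsPWO) (h1 : ∀ x ∈ s, 1 ≤ x) :
    (Submonoid.closure s : Set C).IsPWO := by
  rw [Submonoid.closure_eq_image_prod]
  refine (hs.partiallyWellOrderedOn_sublistForall₂ (· ≤ ·)).image_of_monotone_on ?_
  exact fun l1 _ l2 hl2 h12 => h12.prod_le_prod' fun x hx => h1 x <| hl2 x hx

theorem exists_right_inv_aux (ε : MN C K) (hε : ∀ a, ε.coeff a ≠ 0 → 1 < a) :
    ∃ y : MN C K, (1 - ε) * y = 1 := by
  classical
  set S : Submonoid C := Submonoid.closure (Function.support ε.coeff) with hSdef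
  have hS : (S : Set C).IsPWO := closure_isPWO ε.isPWO (fun x hx => (hε x hx).le)
  have hwf : WellFounded (fun a b : ↥(S : Set C) => (a : C) < b) := hS.isWF
  let F : (a : ↥(S : Set C)) → ((b : ↥(S : Set C)) → (b : C) < a → K) → K := fun a ih =>
    (if (a : C) = 1 then 1 else 0) +
      ∑ b ∈ (finite_split ε.isPWO hS (a : C)).toFinset,
        ε.coeff b * (if h : b⁻¹ * (a : C) ∈ S ∧ b⁻¹ * (a : C) < a then ih ⟨b⁻¹ * a, h.1⟩ h.2 else 0)
  let y0 : ↥(S : Set C) → K := hwf.fix F
  have hy0 : ∀ a : ↥(S : Set C), y0 a = (if (a : C) = 1 then 1 else 0) +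
      ∑ b ∈ (finite_split ε.isPWO hS (a : C)).toFinset,
        ε.coeff b * (if h : b⁻¹ * (a : C) ∈ S ∧ b⁻¹ * (a : C) < a then
          y0 ⟨b⁻¹ * a, h.1⟩ else 0) := fun a => hwf.fix_eq F a
  let y : MN C K := ⟨fun a => if h : a ∈ S then y0 ⟨a, h⟩ else 0, hS.mono (fun a ha => by
    by_contra h
    exact ha (dif_neg h))⟩
  have hy : ∀ a, y.coeff a = if h : a ∈ S then y0 ⟨a, h⟩ else 0 := fun a => rfl
  refine ⟨y, ?_⟩
  rw [sub_mul, one_mul]
  ext a
  rw [coeff_sub, Pi.sub_apply, one_def, coeff_single]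
  rw [coeff_mul_eq ε y a (finite_split ε.isPWO hS a).toFinset]
  · by_cases ha : a ∈ S
    · rw [hy a, dif_pos ha, hy0 ⟨a, ha⟩]
      have : ∀ b ∈ (finite_split ε.isPWO hS a).toFinset,
          ε.coeff b * (if h : b⁻¹ * a ∈ S ∧ b⁻¹ * a < a then y0 ⟨b⁻¹ * a, h.1⟩ else 0) =
          ε.coeff b * y.coeff (b⁻¹ * a) := by
        intro b hb
        rw [Set.Finite.mem_toFinset] at hb
        have h1 : b⁻¹ * a < a := by
          have := hε b hb.1
          calc b⁻¹ * a < 1 * a := by
                apply mul_lt_mul_left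
                exact Left.inv_lt_one_iff.2 this
            _ = a := one_mul a
        have h2 : b⁻¹ * a ∈ S := hb.2
        rw [dif_pos ⟨h2, h1⟩, hy, dif_pos h2]
      simp only
      rw [Finset.sum_congr rfl this]
      abel
    · rw [hy a, dif_neg ha]
      have h1 : a ≠ 1 := fun h => ha (h ▸ S.one_mem)
      rw [if_neg h1]
      have : ∀ b ∈ (finite_split ε.isPWO hS a).toFinset, ε.coeff b * y.coeff (b⁻¹ * a) = 0 := by
        intro b hb
        rw [Set.Finite.mem_toFinset] at hb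
        exfalso
        apply ha
        have h2 : b ∈ S := Submonoid.subset_closure hb.1
        have h3 : b⁻¹ * a ∈ S := hb.2
        have := S.mul_mem h2 h3
        rwa [mul_inv_cancel_left] at this
      rw [Finset.sum_eq_zero this, sub_zero]
  · intro b h1 h2
    rw [Set.Finite.mem_toFinset]
    refine ⟨h1, ?_⟩
    by_contra h
    exact h2 (by rw [hy]; exact dif_neg h)

/-- `g` is the least support element of `x`. -/
def IsLead (x : MN C K) (g : C) : Prop := x.coeff g ≠ 0 ∧ ∀ a < g, x.coeff a = 0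

omit [Group C] [MulLeftMono C] [MulRightMono C] in
theorem exists_isLead {x : MN C K} (hx : x ≠ 0) : ∃ g, IsLead x g := by
  have hne : (Function.support x.coeff).Nonempty := by
    rw [Function.support_nonempty_iff]
    intro h
    exact hx (coeff_injective h)
  refine ⟨x.isPWO.isWF.min hne, x.isPWO.isWF.min_mem hne, fun a ha => ?_⟩
  by_contra h
  exact x.isPWO.isWF.not_lt_min hne h ha

theorem exists_right_inv {x : MN C K} (hx : x ≠ 0) : ∃ y, x * y = 1 := by
  obtain ⟨g, hg⟩ := exists_isLead hx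
  set c := x.coeff g with hc
  have hc0 : c ≠ 0 := hg.1
  have key : ∀ a, (1 - single g⁻¹ c⁻¹ * x).coeff a = (if a = 1 then 1 else 0) -
      c⁻¹ * x.coeff (g * a) := by
    intro a
    rw [coeff_sub, Pi.sub_apply, one_def, coeff_single, single_mul_coeff, inv_inv]
  obtain ⟨y, hy⟩ := exists_right_inv_aux (1 - single g⁻¹ c⁻¹ * x) (by
    intro a ha
    rw [key] at ha
    rcases lt_trichotomy a 1 with h | h | h
    · exfalso
      apply ha
      rw [hg.2 (g * a) (by simpa using mul_lt_mul_right h g), if_neg h.ne]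
      simp
    · exfalso
      apply ha
      subst h
      simp [← hc, hc0]
    · exact h)
  rw [sub_sub_cancel] at hy
  refine ⟨y * single g⁻¹ c⁻¹, ?_⟩
  have h1 : x * y = single g c := by
    calc x * y = single g c * single g⁻¹ c⁻¹ * (x * y) := by
          rw [single_mul_single, mul_inv_cancel, mul_inv_cancel₀ hc0, ← one_def, one_mul]
      _ = single g c * (single g⁻¹ c⁻¹ * x * y) := by simp only [mul_assoc]
      _ = single g c := by rw [hy, mul_one]
  rw [← mul_assoc, h1, single_mul_single, mul_inv_cancel, mul_inv_cancel₀ hc0, ← one_def]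

theorem isUnit_or_eq_zero (x : MN C K) : IsUnit x ∨ x = 0 := by
  by_cases hx : x = 0
  · exact Or.inr hx
  left
  obtain ⟨y, hy⟩ := exists_right_inv hx
  have hy0 : y ≠ 0 := by
    rintro rfl
    rw [mul_zero] at hy
    exact zero_ne_one hy
  obtain ⟨z, hz⟩ := exists_right_inv hy0
  have hxz : x = z := by
    calc x = x * (y * z) := by rw [hz, mul_one]
      _ = z := by rw [← mul_assoc, hy, one_mul]
  exact ⟨⟨x, y, hy, hxz ▸ hz⟩, rfl⟩

noncomputable instance : DivisionRing (MN C K) :=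
  DivisionRing.ofIsUnitOrEqZero isUnit_or_eq_zero

end divring

section field
variable {C K : Type*} [Group C] [LinearOrder C] [MulLeftMono C] [MulRightMono C] [Field K]

noncomputable instance : Algebra K (MN C K) := Algebra.ofModule
  (fun k x y => by
    ext a
    rw [coeff_smul, Pi.smul_apply, coeff_mul_eq (k • x) y a (spl x y a), coeff_mul_def,
      Finset.smul_sum]
    · apply Finset.sum_congr rfl
      intro b _
      simp [mul_assoc]
    · intro b h1 h2
      rw [mem_spl]
      refine ⟨fun h => h1 (by simp [h]), h2⟩)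
  (fun k x y => by
    ext a
    rw [coeff_smul, Pi.smul_apply, coeff_mul_eq x (k • y) a (spl x y a), coeff_mul_def,
      Finset.smul_sum]
    · apply Finset.sum_congr rfl
      intro b _
      simp only [coeff_smul, Pi.smul_apply, smul_eq_mul]
      ring
    · intro b h1 h2
      rw [mem_spl]
      refine ⟨h1, fun h => h2 (by simp [h])⟩)

omit [Group C] [MulLeftMono C] [MulRightMono C] in
theorem smul_single (k l : K) (g : C) : k • single g l = single g (k * l) := by
  ext a
  simp only [coeff_smul, Pi.smul_apply, coeff_single, smul_eq_mul]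
  split_ifs <;> simp


end field

end MN

end Vale.Agent.P201
end
end

section

section

/-!
Laurent series in one central variable over a division ring.
-/

namespace Vale.Agent.P201

/-- Laurent series over a division ring with a central variable. -/
abbrev Lau (D : Type*) [DivisionRing D] := MN (Multiplicative ℤ) D

namespace Lau

variable {D : Type*} [DivisionRing D]

/-- coefficient -/
def cf (x : Lau D) (n : ℤ) : D := x.coeff (Multiplicative.ofAdd n)

/-- monomial -/
def mon (a : D) (n : ℤ) : Lau D := MN.single (Multiplicative.ofAdd n) a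

theorem ext' {x y : Lau D} (h : ∀ n, cf x n = cf y n) : x = y := by
  apply MN.coeff_injective
  funext n
  exact h (Multiplicative.toAdd n)

theorem eq_zero_iff {x : Lau D} : x = 0 ↔ ∀ n, cf x n = 0 := by
  constructor
  · rintro rfl n; rfl
  · intro h; exact ext' h

@[simp] theorem cf_zero (n : ℤ) : cf (0 : Lau D) n = 0 := rfl

@[simp] theorem cf_add (x y : Lau D) (n : ℤ) : cf (x + y) n = cf x n + cf y n := rfl

@[simp] theorem cf_neg (x : Lau D) (n : ℤ) : cf (-x) n = -cf x n := rfl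

theorem cf_mon (a : D) (n m : ℤ) : cf (mon a n) m = if m = n then a else 0 := by
  unfold cf mon
  rw [MN.coeff_single]
  simp

@[simp] theorem cf_mon_same (a : D) (n : ℤ) : cf (mon a n) n = a := by
  rw [cf_mon, if_pos rfl]

theorem mon_mul_mon (a b : D) (n m : ℤ) : mon a n * mon b m = mon (a * b) (n + m) := by
  unfold mon
  rw [MN.single_mul_single, ofAdd_add]

theorem mon_add (a b : D) (n : ℤ) : mon (a + b) n = mon a n + mon b n := by
  apply ext'
  intro m
  rw [cf_add, cf_mon, cf_mon, cf_mon]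
  split_ifs <;> simp

theorem mon_neg (a : D) (n : ℤ) : mon (-a) n = -mon a n := by
  apply ext'
  intro m
  rw [cf_neg, cf_mon, cf_mon]
  split_ifs <;> simp

@[simp] theorem mon_zero (n : ℤ) : mon (0 : D) n = 0 := by
  apply ext'
  intro m
  rw [cf_mon]
  split_ifs <;> simp

theorem one_eq : (1 : Lau D) = mon 1 0 := rfl

theorem mon_inv (a : D) (n : ℤ) : (mon a n)⁻¹ = mon a⁻¹ (-n) := by
  by_cases ha : a = 0
  · subst ha
    rw [mon_zero, inv_zero, inv_zero, mon_zero]
  · symm
    apply eq_inv_of_mul_eq_one_left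
    rw [mon_mul_mon, inv_mul_cancel₀ ha, neg_add_cancel, one_eq]

theorem cf_mul_mon (x : Lau D) (a : D) (m n : ℤ) : cf (x * mon a m) n = cf x (n - m) * a := by
  unfold cf mon
  rw [MN.mul_single_coeff, ← ofAdd_neg, ← ofAdd_add, sub_eq_add_neg]

theorem cf_mon_mul (x : Lau D) (a : D) (m n : ℤ) : cf (mon a m * x) n = a * cf x (n - m) := by
  unfold cf mon
  rw [MN.single_mul_coeff, ← ofAdd_neg, ← ofAdd_add]
  congr 3
  ring

theorem exists_low {x : Lau D} (hx : x ≠ 0) : ∃ m, cf x m ≠ 0 ∧ ∀ n < m, cf x n = 0 := by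
  obtain ⟨g, hg1, hg2⟩ := MN.exists_isLead hx
  exact ⟨Multiplicative.toAdd g, hg1, fun n hn => hg2 _ hn⟩

theorem exists_bound (x : Lau D) : ∃ m, ∀ n < m, cf x n = 0 := by
  by_cases hx : x = 0
  · exact ⟨0, fun n _ => by rw [hx]; rfl⟩
  · obtain ⟨m, _, hm⟩ := exists_low hx
    exact ⟨m, hm⟩

theorem cf_mul {x y : Lau D} {a b : ℤ} (hx : ∀ n < a, cf x n = 0) (hy : ∀ n < b, cf y n = 0)
    (n : ℤ) : cf (x * y) n = ∑ k ∈ Finset.Icc a (n - b), cf x k * cf y (n - k) := by
  unfold cf
  rw [MN.coeff_mul_eq x y _ ((Finset.Icc a (n - b)).map Multiplicative.ofAdd.toEmbedding)]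
  · rw [Finset.sum_map]
    apply Finset.sum_congr rfl
    intro k _
    congr 2
    rw [Equiv.coe_toEmbedding, ← ofAdd_neg, ← ofAdd_add]
    congr 1
    ring
  · intro g h1 h2
    rw [Finset.mem_map_equiv, Finset.mem_Icc]
    constructor
    · by_contra h
      push Not at h
      exact h1 (hx _ h)
    · by_contra h
      push Not at h
      apply h2
      have h3 : g⁻¹ * Multiplicative.ofAdd n =
          Multiplicative.ofAdd (n - Multiplicative.ofAdd.symm g) := by
        rw [sub_eq_neg_add, ofAdd_add, ofAdd_neg]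
        rfl
      rw [h3]
      exact hy _ (by omega)

end Lau

end Vale.Agent.P201
end
end

section

section

/-!
Rational closures in products of division rings.
-/

namespace Vale.Agent.P201

/-- The smallest subset containing `s` that is closed under the ring operations and under the
inverse operation. -/
inductive RC {P : Type*} [Ring P] [Inv P] (s : Set P) : P → Prop
  | base {x : P} : x ∈ s → RC s x
  | zero : RC s 0
  | one : RC s 1
  | add {x y : P} : RC s x → RC s y → RC s (x + y)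
  | mul {x y : P} : RC s x → RC s y → RC s (x * y)
  | neg {x : P} : RC s x → RC s (-x)
  | inv {x : P} : RC s x → RC s x⁻¹

namespace RC

variable {P Q : Type*} [Ring P] [Inv P] [Ring Q] [Inv Q]

theorem mono {s t : Set P} (h : s ⊆ t) {x : P} (hx : RC s x) : RC t x := by
  induction hx with
  | base hx => exact RC.base (h hx)
  | zero => exact RC.zero
  | one => exact RC.one
  | add _ _ h1 h2 => exact RC.add h1 h2
  | mul _ _ h1 h2 => exact RC.mul h1 h2
  | neg _ h1 => exact RC.neg h1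
  | inv _ h1 => exact RC.inv h1

theorem map (f : P →+* Q) (hf : ∀ x, f x⁻¹ = (f x)⁻¹) {s : Set P} {t : Set Q}
    (h : ∀ x ∈ s, f x ∈ t) {x : P} (hx : RC s x) : RC t (f x) := by
  induction hx with
  | base hx => exact RC.base (h _ hx)
  | zero => rw [map_zero]; exact RC.zero
  | one => rw [map_one]; exact RC.one
  | add _ _ h1 h2 => rw [map_add]; exact RC.add h1 h2
  | mul _ _ h1 h2 => rw [map_mul]; exact RC.mul h1 h2
  | neg _ h1 => rw [map_neg]; exact RC.neg h1
  | inv _ h1 => rw [hf]; exact RC.inv h1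

theorem sum {ι : Type*} {s : Set P} (t : Finset ι) (f : ι → P) (h : ∀ i ∈ t, RC s (f i)) :
    RC s (∑ i ∈ t, f i) := by
  classical
  induction t using Finset.induction_on with
  | empty => rw [Finset.sum_empty]; exact RC.zero
  | insert a t ha ih =>
    rw [Finset.sum_insert ha]
    exact RC.add (h a (by simp)) (ih fun i hi => h i (by simp [hi]))

end RC

section Field

variable {D : Type*} [DivisionRing D]

theorem rc_iff_mem_closure {s : Set D} {x : D} : RC s x ↔ x ∈ Subfield.closure s := by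
  constructor
  · intro h
    induction h with
    | base hx => exact Subfield.subset_closure hx
    | zero => exact zero_mem _
    | one => exact one_mem _
    | add _ _ h1 h2 => exact add_mem h1 h2
    | mul _ _ h1 h2 => exact mul_mem h1 h2
    | neg _ h1 => exact neg_mem h1
    | inv _ h1 => exact inv_mem h1
  · intro h
    induction h using Subfield.closure_induction with
    | mem x hx => exact RC.base hx
    | one => exact RC.one
    | add x y _ _ h1 h2 => exact RC.add h1 h2
    | neg x _ h1 => exact RC.neg h1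
    | inv x _ h1 => exact RC.inv h1
    | mul x y _ _ h1 h2 => exact RC.mul h1 h2

end Field

section Ore

variable {D M : Type*} [DivisionRing D] [DivisionRing M]

theorem prod_mul_inv {z : D × M} (h1 : z.1 ≠ 0) (h2 : z.2 ≠ 0) : z * z⁻¹ = 1 :=
  Prod.ext (mul_inv_cancel₀ h1) (mul_inv_cancel₀ h2)

theorem prod_inv_mul {z : D × M} (h1 : z.1 ≠ 0) (h2 : z.2 ≠ 0) : z⁻¹ * z = 1 :=
  Prod.ext (inv_mul_cancel₀ h1) (inv_mul_cancel₀ h2)

/-- If the elements of an Ore subring of a product of two division rings are balanced (one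
coordinate vanishes iff the other one does) then so are the elements of its rational closure. -/
theorem ore_balanced (Λ : Subring (D × M)) (hbal : ∀ z ∈ Λ, z.1 = 0 ↔ z.2 = 0)
    (hore : ∀ a ∈ Λ, ∀ b ∈ Λ, b ≠ 0 → ∃ u ∈ Λ, ∃ v ∈ Λ, u ≠ 0 ∧ u * a = v * b)
    {z : D × M} (hz : RC (Λ : Set (D × M)) z) : z.1 = 0 ↔ z.2 = 0 := by
  have hne : ∀ q ∈ Λ, q ≠ 0 → q.1 ≠ 0 ∧ q.2 ≠ 0 := by
    intro q hq hq0
    constructor
    · intro h
      exact hq0 (Prod.ext h ((hbal q hq).1 h))
    · intro h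
      exact hq0 (Prod.ext ((hbal q hq).2 h) h)
  have hmul : ∀ q ∈ Λ, ∀ u ∈ Λ, q ≠ 0 → u ≠ 0 → u * q ≠ 0 := by
    intro q hq u hu hq0 hu0 h
    have h1 := congrArg Prod.fst h
    exact mul_ne_zero (hne u hu hu0).1 (hne q hq hq0).1 h1
  have key : ∃ q ∈ Λ, ∃ p ∈ Λ, q ≠ 0 ∧ q * z = p := by
    have h1ne : (1 : D × M) ≠ 0 := fun h => one_ne_zero (congrArg Prod.fst h)
    induction hz with
    | @base x hx => exact ⟨1, one_mem _, x, hx, h1ne, one_mul _⟩
    | zero => exact ⟨1, one_mem _, 0, zero_mem _, h1ne, one_mul _⟩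
    | one => exact ⟨1, one_mem _, 1, one_mem _, h1ne, one_mul _⟩
    | @add x y _ _ h1 h2 =>
      obtain ⟨q, hq, p, hp, hq0, hqp⟩ := h1
      obtain ⟨q', hq', p', hp', hq0', hqp'⟩ := h2
      obtain ⟨u, hu, v, hv, hu0, huv⟩ := hore q hq q' hq' hq0'
      refine ⟨u * q, mul_mem hu hq, u * p + v * p', add_mem (mul_mem hu hp) (mul_mem hv hp'),
        hmul q hq u hu hq0 hu0, ?_⟩
      rw [mul_add, mul_assoc, hqp, huv, mul_assoc, hqp']
    | @mul x y _ _ h1 h2 =>
      obtain ⟨q, hq, p, hp, hq0, hqp⟩ := h1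
      obtain ⟨q', hq', p', hp', hq0', hqp'⟩ := h2
      obtain ⟨u, hu, v, hv, hu0, huv⟩ := hore p hp q' hq' hq0'
      refine ⟨u * q, mul_mem hu hq, v * p', mul_mem hv hp', hmul q hq u hu hq0 hu0, ?_⟩
      rw [← mul_assoc, mul_assoc u q x, hqp, huv, mul_assoc, hqp']
    | @neg x _ h1 =>
      obtain ⟨q, hq, p, hp, hq0, hqp⟩ := h1
      exact ⟨q, hq, -p, neg_mem hp, hq0, by rw [mul_neg, hqp]⟩
    | @inv x _ h1 =>
      obtain ⟨q, hq, p, hp, hq0, hqp⟩ := h1
      by_cases hp0 : p = 0
      · have h1 : x = 0 := by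
          rw [hp0] at hqp
          have h2 := congrArg Prod.fst hqp
          have h3 := congrArg Prod.snd hqp
          exact Prod.ext ((mul_eq_zero.1 h2).resolve_left (hne q hq hq0).1)
            ((mul_eq_zero.1 h3).resolve_left (hne q hq hq0).2)
        refine ⟨1, one_mem _, 0, zero_mem _, h1ne, ?_⟩
        rw [h1, one_mul]
        exact Prod.ext inv_zero inv_zero
      · refine ⟨p, hp, q, hq, hp0, ?_⟩
        have hp1 := hne p hp hp0
        have hx1 : x.1 ≠ 0 := by
          intro h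
          apply hp1.1
          rw [← hqp]
          change q.1 * x.1 = 0
          rw [h, mul_zero]
        have hx2 : x.2 ≠ 0 := by
          intro h
          apply hp1.2
          rw [← hqp]
          change q.2 * x.2 = 0
          rw [h, mul_zero]
        rw [← hqp, mul_assoc, prod_mul_inv hx1 hx2, mul_one]
  obtain ⟨q, hq, p, hp, hq0, hqp⟩ := key
  have hq1 := hne q hq hq0
  have h1 : q.1 * z.1 = p.1 := congrArg Prod.fst hqp
  have h2 : q.2 * z.2 = p.2 := congrArg Prod.snd hqp
  constructor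
  · intro h
    rw [h, mul_zero] at h1
    have h3 := (hbal p hp).1 h1.symm
    rw [h3] at h2
    exact (mul_eq_zero.1 h2).resolve_left hq1.2
  · intro h
    rw [h, mul_zero] at h2
    have h3 := (hbal p hp).2 h2.symm
    rw [h3] at h1
    exact (mul_eq_zero.1 h1).resolve_left hq1.1

end Ore

end Vale.Agent.P201
end
end

section

section

/-!
Laurent expansions of the elements of the division closure of a group ring.
-/

namespace Vale.Agent.P201

open Finsupp

/-- `f` is a homomorphism on `H` -/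
def IsHomOn {C : Type*} [Group C] (H : Subgroup C) (f : C → ℤ) : Prop :=
  ∀ a ∈ H, ∀ b ∈ H, f (a * b) = f a + f b

namespace IsHomOn

variable {C : Type*} [Group C] {H : Subgroup C} {f : C → ℤ}

theorem map_one (hf : IsHomOn H f) : f 1 = 0 := by
  have := hf 1 H.one_mem 1 H.one_mem
  rw [mul_one] at this
  omega

theorem map_inv (hf : IsHomOn H f) {a : C} (ha : a ∈ H) : f a⁻¹ = -f a := by
  have := hf a ha a⁻¹ (H.inv_mem ha)
  rw [mul_inv_cancel, hf.map_one] at this
  omega

theorem map_zpow (hf : IsHomOn H f) {a : C} (ha : a ∈ H) (n : ℤ) : f (a ^ n) = n * f a := by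
  induction n using Int.induction_on with
  | zero => simp [hf.map_one]
  | succ n ih =>
    rw [zpow_add_one, hf _ (H.zpow_mem ha _) _ ha, ih]
    ring
  | pred n ih =>
    rw [zpow_sub_one, hf _ (H.zpow_mem ha _) _ (H.inv_mem ha), ih, hf.map_inv ha]
    ring

theorem mono (hf : IsHomOn H f) {L : Subgroup C} (h : L ≤ H) : IsHomOn L f :=
  fun a ha b hb => hf a (h ha) b (h hb)

end IsHomOn

/-- the kernel of a homomorphism on `H` -/
def kerOn {C : Type*} [Group C] (H : Subgroup C) (f : C → ℤ) (hf : IsHomOn H f) : Subgroup C where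
  carrier := {a | a ∈ H ∧ f a = 0}
  one_mem' := ⟨H.one_mem, hf.map_one⟩
  mul_mem' {a b} ha hb := ⟨H.mul_mem ha.1 hb.1, by rw [hf a ha.1 b hb.1, ha.2, hb.2, add_zero]⟩
  inv_mem' {a} ha := ⟨H.inv_mem ha.1, by rw [hf.map_inv ha.1, ha.2, neg_zero]⟩

theorem mem_kerOn {C : Type*} [Group C] {H : Subgroup C} {f : C → ℤ} {hf : IsHomOn H f} {a : C} :
    a ∈ kerOn H f hf ↔ a ∈ H ∧ f a = 0 := Iff.rfl

section Gamma

variable {C E D : Type*} [Group C] [DivisionRing E] [DivisionRing D]
  (ψ : MonoidAlgebra E C →+* D)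

open MonoidAlgebra in
/-- monomials in `E[H]` -/
def gens (H : Subgroup C) : Set D := {x | ∃ h ∈ H, ∃ e : E, x = ψ (MonoidAlgebra.single h e)}

/-- the division closure of `E[H]` -/
def KK (H : Subgroup C) : Subfield D := Subfield.closure (gens ψ H)

theorem gens_mono {H L : Subgroup C} (h : H ≤ L) : gens ψ H ⊆ gens ψ L := by
  rintro x ⟨a, ha, e, rfl⟩
  exact ⟨a, h ha, e, rfl⟩

theorem KK_mono {H L : Subgroup C} (h : H ≤ L) : KK ψ H ≤ KK ψ L :=
  Subfield.closure_mono (gens_mono ψ h)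

theorem single_mem_KK {H : Subgroup C} {h : C} (hh : h ∈ H) (e : E) :
    ψ (MonoidAlgebra.single h e) ∈ KK ψ H :=
  Subfield.subset_closure ⟨h, hh, e, rfl⟩

/-- the unit of `D` attached to a group element -/
noncomputable def gu (g : C) : D := ψ (MonoidAlgebra.single g 1)

theorem gu_one : gu ψ 1 = 1 := by
  unfold gu
  rw [← MonoidAlgebra.one_def, map_one]

theorem gu_mul (g h : C) : gu ψ (g * h) = gu ψ g * gu ψ h := by
  unfold gu
  rw [← map_mul, MonoidAlgebra.single_mul_single, one_mul]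

theorem gu_inv_mul (g : C) : gu ψ g⁻¹ * gu ψ g = 1 := by
  rw [← gu_mul, inv_mul_cancel, gu_one]

theorem gu_mul_inv (g : C) : gu ψ g * gu ψ g⁻¹ = 1 := by
  rw [← gu_mul, mul_inv_cancel, gu_one]

theorem gu_ne_zero (g : C) : gu ψ g ≠ 0 := by
  intro h
  have := gu_mul_inv ψ g
  rw [h, zero_mul] at this
  exact zero_ne_one this

theorem gu_mem {H : Subgroup C} {h : C} (hh : h ∈ H) : gu ψ h ∈ KK ψ H := single_mem_KK ψ hh 1

theorem gu_inv (g : C) : gu ψ g⁻¹ = (gu ψ g)⁻¹ :=
  eq_inv_of_mul_eq_one_left (gu_inv_mul ψ g)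

/-- conjugation by a group element -/
theorem conj_mem_KK {H L : Subgroup C} (u : C) (h : ∀ a ∈ H, u * a * u⁻¹ ∈ L) {x : D}
    (hx : x ∈ KK ψ H) : gu ψ u * x * gu ψ u⁻¹ ∈ KK ψ L := by
  unfold KK at hx
  have hu := gu_mul_inv ψ u
  have hu' := gu_inv_mul ψ u
  induction hx using Subfield.closure_induction with
  | mem x hx =>
    obtain ⟨a, ha, e, rfl⟩ := hx
    have : gu ψ u * ψ (MonoidAlgebra.single a e) * gu ψ u⁻¹ =
        ψ (MonoidAlgebra.single (u * a * u⁻¹) e) := by
      unfold gu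
      rw [← map_mul, ← map_mul, MonoidAlgebra.single_mul_single, MonoidAlgebra.single_mul_single,
        one_mul, mul_one]
    rw [this]
    exact single_mem_KK ψ (h a ha) e
  | one =>
    rw [mul_one, hu]
    exact one_mem _
  | add x y _ _ h1 h2 =>
    rw [mul_add, add_mul]
    exact add_mem h1 h2
  | neg x _ h1 =>
    rw [mul_neg, neg_mul]
    exact neg_mem h1
  | inv x _ h1 =>
    have : gu ψ u * x⁻¹ * gu ψ u⁻¹ = (gu ψ u * x * gu ψ u⁻¹)⁻¹ := by
      rw [mul_inv_rev, mul_inv_rev, gu_inv, inv_inv, mul_assoc]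
    rw [this]
    exact inv_mem h1
  | mul x y _ _ h1 h2 =>
    have : gu ψ u * (x * y) * gu ψ u⁻¹ =
        (gu ψ u * x * gu ψ u⁻¹) * (gu ψ u * y * gu ψ u⁻¹) := by
      calc gu ψ u * (x * y) * gu ψ u⁻¹ = gu ψ u * x * 1 * y * gu ψ u⁻¹ := by
            rw [mul_one]; simp only [mul_assoc]
        _ = _ := by rw [← hu']; simp only [mul_assoc]
    rw [this]
    exact mul_mem h1 h2

/-- generators of the graph of the Laurent expansion -/
def GG (H : Subgroup C) (f : C → ℤ) : Set (D × Lau D) :=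
  {z | ∃ h ∈ H, ∃ e : E, z = (ψ (MonoidAlgebra.single h e),
    Lau.mon (ψ (MonoidAlgebra.single h e)) (f h))}

/-- the graph of the Laurent expansion -/
def Gam (H : Subgroup C) (f : C → ℤ) (z : D × Lau D) : Prop := RC (GG ψ H f) z

theorem Gam_mono {H L : Subgroup C} (h : H ≤ L) {f : C → ℤ} {z : D × Lau D}
    (hz : Gam ψ H f z) : Gam ψ L f z := by
  refine RC.mono ?_ hz
  rintro x ⟨a, ha, e, rfl⟩
  exact ⟨a, h ha, e, rfl⟩

theorem Gam_single {H : Subgroup C} {f : C → ℤ} {h : C} (hh : h ∈ H) (e : E) :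
    Gam ψ H f (ψ (MonoidAlgebra.single h e), Lau.mon (ψ (MonoidAlgebra.single h e)) (f h)) :=
  RC.base ⟨h, hh, e, rfl⟩

theorem Gam_gu {H : Subgroup C} {f : C → ℤ} {h : C} (hh : h ∈ H) :
    Gam ψ H f (gu ψ h, Lau.mon (gu ψ h) (f h)) := Gam_single ψ hh 1

/-- elements of the closure of `E[H]` are constants if `f` vanishes on `H` -/
theorem Gam_const {H L : Subgroup C} (h : H ≤ L) {f : C → ℤ} (hf : ∀ a ∈ H, f a = 0) {x : D}
    (hx : x ∈ KK ψ H) : Gam ψ L f (x, Lau.mon x 0) := by
  unfold KK at hx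
  induction hx using Subfield.closure_induction with
  | mem x hx =>
    obtain ⟨a, ha, e, rfl⟩ := hx
    have := Gam_single ψ (f := f) (h ha) e
    rwa [hf a ha] at this
  | one => exact RC.one
  | add x y _ _ h1 h2 =>
    rw [Lau.mon_add]
    exact RC.add h1 h2
  | neg x _ h1 =>
    rw [Lau.mon_neg]
    exact RC.neg h1
  | inv x _ h1 =>
    have h2 := RC.inv h1
    have h3 : ((x, Lau.mon x 0) : D × Lau D)⁻¹ = (x⁻¹, Lau.mon x⁻¹ 0) := by
      refine Prod.ext rfl ?_
      change (Lau.mon x 0)⁻¹ = _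
      rw [Lau.mon_inv, neg_zero]
    rw [h3] at h2
    exact h2
  | mul x y _ _ h1 h2 =>
    have h3 := RC.mul h1 h2
    have h4 : ((x, Lau.mon x 0) : D × Lau D) * (y, Lau.mon y 0) =
        (x * y, Lau.mon (x * y) 0) := by
      refine Prod.ext rfl ?_
      change Lau.mon x 0 * Lau.mon y 0 = _
      rw [Lau.mon_mul_mon, add_zero]
    rw [h4] at h3
    exact h3

/-- freeness in the sense of Hughes -/
def HughesFree : Prop :=
  ∀ (H : Subgroup C) (f : C → ℤ) (hf : IsHomOn H f) (t : C), t ∈ H → f t ≠ 0 →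
    ∀ (s : Finset ℤ) (a : ℤ → D), (∀ m ∈ s, a m ∈ KK ψ (kerOn H f hf)) →
      ∑ m ∈ s, a m * gu ψ (t ^ m) = 0 → ∀ m ∈ s, a m = 0

end Gamma

end Vale.Agent.P201
end
end

section

section

/-!
The Laurent expansion is injective: the graph `Gam` is balanced.
-/

namespace Vale.Agent.P201

open Finsupp

section Nf

variable {C E D : Type*} [Group C] [DivisionRing E] [DivisionRing D]
  (ψ : MonoidAlgebra E C →+* D) {H : Subgroup C} {f : C → ℤ} (hf : IsHomOn H f) (t : C)

/-- Laurent polynomials, as elements of the graph -/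
noncomputable def nf : (ℤ →₀ KK ψ (kerOn H f hf)) →+ D × Lau D :=
  Finsupp.liftAddHom fun m =>
    { toFun := fun a => ((a : D) * gu ψ (t ^ m), Lau.mon ((a : D) * gu ψ (t ^ m)) (m * f t))
      map_zero' := by simp
      map_add' := fun a b => by
        refine Prod.ext ?_ ?_
        · simp [add_mul]
        · change Lau.mon (((a + b : KK ψ (kerOn H f hf)) : D) * gu ψ (t ^ m)) (m * f t) =
            Lau.mon ((a : D) * gu ψ (t ^ m)) (m * f t) + Lau.mon ((b : D) * gu ψ (t ^ m)) (m * f t)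
          rw [← Lau.mon_add, ← add_mul]
          rfl }

theorem nf_single (m : ℤ) (a : KK ψ (kerOn H f hf)) :
    nf ψ hf t (single m a) =
      ((a : D) * gu ψ (t ^ m), Lau.mon ((a : D) * gu ψ (t ^ m)) (m * f t)) := by
  rw [nf, Finsupp.liftAddHom_apply_single]
  rfl

theorem nf_fst (a : ℤ →₀ KK ψ (kerOn H f hf)) :
    (nf ψ hf t a).1 = ∑ m ∈ a.support, (a m : D) * gu ψ (t ^ m) := by
  have h : nf ψ hf t a = ∑ m ∈ a.support, nf ψ hf t (single m (a m)) := by
    conv_lhs => rw [← Finsupp.sum_single a, Finsupp.sum, map_sum]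
  rw [h, Prod.fst_sum]
  apply Finset.sum_congr rfl
  intro m _
  rw [nf_single]

theorem nf_snd_cf (hd : f t ≠ 0) (a : ℤ →₀ KK ψ (kerOn H f hf)) (m : ℤ) :
    Lau.cf (nf ψ hf t a).2 (m * f t) = (a m : D) * gu ψ (t ^ m) := by
  classical
  induction a using Finsupp.induction_linear with
  | zero => simp
  | add x y hx hy =>
    rw [map_add, Prod.snd_add, Lau.cf_add, hx, hy, Finsupp.add_apply]
    simp [add_mul]
  | single n x =>
    rw [nf_single, Lau.cf_mon, Finsupp.single_apply]
    by_cases h : n = m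
    · subst h
      simp
    · rw [if_neg, if_neg h]
      · simp
      · intro h'
        exact h (mul_right_cancel₀ hd h').symm

variable (ht : t ∈ H) (hd : f t ≠ 0)

include ht hd in
theorem nf_fst_zero (hψ : HughesFree ψ) {a : ℤ →₀ KK ψ (kerOn H f hf)}
    (h : (nf ψ hf t a).1 = 0) : a = 0 := by
  rw [nf_fst] at h
  have h1 := hψ H f hf t ht hd a.support (fun m => (a m : D)) (fun m _ => (a m).2) h
  ext m
  by_cases hm : m ∈ a.support
  · rw [h1 m hm]; rfl
  · rw [Finsupp.notMem_support_iff.1 hm]; rfl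

include hd in
theorem nf_snd_zero {a : ℤ →₀ KK ψ (kerOn H f hf)}
    (h : (nf ψ hf t a).2 = 0) : a = 0 := by
  ext m
  have h1 := nf_snd_cf ψ hf t hd a m
  rw [h] at h1
  have h2 : (a m : D) * gu ψ (t ^ m) = 0 := h1.symm
  rw [(mul_eq_zero.1 h2).resolve_right (gu_ne_zero ψ _)]
  rfl

theorem gu_zpow_add (m n : ℤ) : gu ψ (t ^ (m + n)) = gu ψ (t ^ m) * gu ψ (t ^ n) := by
  rw [zpow_add, gu_mul]

theorem conj_ker {h : C} (hh : h ∈ H) {x : D} (hx : x ∈ KK ψ (kerOn H f hf)) :
    gu ψ h * x * gu ψ h⁻¹ ∈ KK ψ (kerOn H f hf) := by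
  refine conj_mem_KK ψ h (fun a ha => ?_) hx
  rw [mem_kerOn] at ha ⊢
  refine ⟨H.mul_mem (H.mul_mem hh ha.1) (H.inv_mem hh), ?_⟩
  rw [hf _ (H.mul_mem hh ha.1) _ (H.inv_mem hh), hf _ hh _ ha.1, hf.map_inv hh, ha.2]
  ring

include ht in
theorem nf_mul_single (m n : ℤ) (a b : KK ψ (kerOn H f hf)) :
    ∃ c, nf ψ hf t (single m a) * nf ψ hf t (single n b) = nf ψ hf t (single (m + n) c) := by
  refine ⟨a * ⟨gu ψ (t ^ m) * b * gu ψ (t ^ m)⁻¹, conj_ker ψ hf (H.zpow_mem ht m) b.2⟩, ?_⟩
  have key : (a : D) * gu ψ (t ^ m) * ((b : D) * gu ψ (t ^ n)) =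
      (a : D) * (gu ψ (t ^ m) * b * gu ψ (t ^ m)⁻¹) * gu ψ (t ^ (m + n)) := by
    rw [gu_zpow_add]
    calc (a : D) * gu ψ (t ^ m) * ((b : D) * gu ψ (t ^ n)) =
        (a : D) * gu ψ (t ^ m) * b * 1 * gu ψ (t ^ n) := by
          rw [mul_one]; simp only [mul_assoc]
      _ = _ := by rw [← gu_inv_mul ψ (t ^ m)]; simp only [mul_assoc]
  rw [nf_single, nf_single, nf_single]
  refine Prod.ext key ?_
  change Lau.mon _ _ * Lau.mon _ _ = Lau.mon _ _
  rw [Lau.mon_mul_mon, key, ← add_mul]
  rfl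

include ht in
theorem nf_mul (a b : ℤ →₀ KK ψ (kerOn H f hf)) :
    ∃ c, nf ψ hf t a * nf ψ hf t b = nf ψ hf t c := by
  induction a using Finsupp.induction_linear with
  | zero => exact ⟨0, by simp⟩
  | add x y hx hy =>
    obtain ⟨c, hc⟩ := hx
    obtain ⟨c', hc'⟩ := hy
    exact ⟨c + c', by rw [map_add, add_mul, hc, hc', map_add]⟩
  | single m x =>
    induction b using Finsupp.induction_linear with
    | zero => exact ⟨0, by simp⟩
    | add z y hx hy =>
      obtain ⟨c, hc⟩ := hx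
      obtain ⟨c', hc'⟩ := hy
      exact ⟨c + c', by rw [map_add, mul_add, hc, hc', map_add]⟩
    | single n y =>
      obtain ⟨c, hc⟩ := nf_mul_single ψ hf t ht m n x y
      exact ⟨_, hc⟩

/-- The ring of Laurent polynomials. -/
noncomputable def Lam : Subring (D × Lau D) where
  carrier := Set.range (nf ψ hf t)
  zero_mem' := ⟨0, map_zero _⟩
  one_mem' := ⟨single 0 1, by
    rw [nf_single]
    refine Prod.ext ?_ ?_
    · simp [gu_one]
    · simp [gu_one, Lau.one_eq]⟩
  add_mem' := by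
    rintro _ _ ⟨a, rfl⟩ ⟨b, rfl⟩
    exact ⟨a + b, map_add _ _ _⟩
  neg_mem' := by
    rintro _ ⟨a, rfl⟩
    exact ⟨-a, (nf ψ hf t).map_neg a⟩
  mul_mem' := by
    rintro _ _ ⟨a, rfl⟩ ⟨b, rfl⟩
    obtain ⟨c, hc⟩ := nf_mul ψ hf t ht a b
    exact ⟨c, hc.symm⟩

include hd in
theorem Lam_balanced (hψ : HughesFree ψ) {z : D × Lau D} (hz : z ∈ Lam ψ hf t ht) :
    z.1 = 0 ↔ z.2 = 0 := by
  obtain ⟨a, rfl⟩ := hz
  constructor
  · intro h
    rw [nf_fst_zero ψ hf t ht hd hψ h, map_zero]
    rfl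
  · intro h
    rw [nf_snd_zero ψ hf t hd h, map_zero]
    rfl

theorem GG_subset_Lam (hgen : ∀ h ∈ H, ∃ m : ℤ, f h = m * f t) :
    GG ψ H f ⊆ (Lam ψ hf t ht : Set (D × Lau D)) := by
  rintro _ ⟨h, hh, e, rfl⟩
  obtain ⟨m, hm⟩ := hgen h hh
  have hk : h * t ^ (-m) ∈ kerOn H f hf := by
    rw [mem_kerOn]
    refine ⟨H.mul_mem hh (H.zpow_mem ht _), ?_⟩
    rw [hf _ hh _ (H.zpow_mem ht _), hf.map_zpow ht, hm]
    ring
  refine ⟨single m ⟨ψ (MonoidAlgebra.single (h * t ^ (-m)) e), single_mem_KK ψ hk e⟩, ?_⟩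
  have key : ψ (MonoidAlgebra.single (h * t ^ (-m)) e) * gu ψ (t ^ m) =
      ψ (MonoidAlgebra.single h e) := by
    unfold gu
    rw [← map_mul, MonoidAlgebra.single_mul_single, mul_one]
    congr 2
    group
  rw [nf_single, key, hm]

open Classical in
include ht in
/-- powers of `t` times a Laurent polynomial lie in a finite dimensional space -/
theorem mul_mem_span (a : ℤ →₀ KK ψ (kerOn H f hf)) (r : ℕ)
    (har : ∀ m ∈ a.support, -(r : ℤ) ≤ m ∧ m ≤ r) (M : ℕ) (i : ℕ) (hi : i ≤ M) :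
    gu ψ (t ^ (i : ℤ)) * (nf ψ hf t a).1 ∈ Submodule.span (KK ψ (kerOn H f hf))
      (((Finset.Icc (-(r : ℤ)) (r + M)).image fun m : ℤ => gu ψ (t ^ m) : Finset D) : Set D) := by
  rw [nf_fst, Finset.mul_sum]
  refine Submodule.sum_mem _ fun m hm => ?_
  have h1 : gu ψ (t ^ (i : ℤ)) * ((a m : D) * gu ψ (t ^ m)) =
      (⟨gu ψ (t ^ (i : ℤ)) * (a m : D) * gu ψ (t ^ (i : ℤ))⁻¹,
        conj_ker ψ hf (H.zpow_mem ht _) (a m).2⟩ : KK ψ (kerOn H f hf)) •
        gu ψ (t ^ ((i : ℤ) + m)) := by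
    rw [gu_zpow_add]
    change _ = gu ψ (t ^ (i : ℤ)) * (a m : D) * gu ψ (t ^ (i : ℤ))⁻¹ * _
    calc gu ψ (t ^ (i : ℤ)) * ((a m : D) * gu ψ (t ^ m)) =
        gu ψ (t ^ (i : ℤ)) * (a m : D) * 1 * gu ψ (t ^ m) := by
          rw [mul_one]; simp only [mul_assoc]
      _ = _ := by rw [← gu_inv_mul ψ (t ^ (i : ℤ))]; simp only [mul_assoc]
  rw [h1]
  refine Submodule.smul_mem _ _ (Submodule.subset_span ?_)
  rw [Finset.coe_image]
  refine ⟨(i : ℤ) + m, ?_, rfl⟩
  have := har m hm
  simp only [Finset.coe_Icc, Set.mem_Icc]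
  omega

include ht hd in
theorem Lam_ore (hψ : HughesFree ψ) {x y : D × Lau D} (hx : x ∈ Lam ψ hf t ht)
    (hy : y ∈ Lam ψ hf t ht) (hy0 : y ≠ 0) :
    ∃ u ∈ Lam ψ hf t ht, ∃ v ∈ Lam ψ hf t ht, u ≠ 0 ∧ u * x = v * y := by
  classical
  obtain ⟨a, rfl⟩ := hx
  obtain ⟨b, rfl⟩ := hy
  obtain ⟨r, hr⟩ : ∃ r : ℕ, (∀ m ∈ a.support, -(r : ℤ) ≤ m ∧ m ≤ r) ∧
      (∀ m ∈ b.support, -(r : ℤ) ≤ m ∧ m ≤ r) := by
    refine ⟨(a.support ∪ b.support).sup Int.natAbs, ?_, ?_⟩
    · intro m hm
      have := Finset.le_sup (f := Int.natAbs) (Finset.mem_union_left b.support hm)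
      omega
    · intro m hm
      have := Finset.le_sup (f := Int.natAbs) (Finset.mem_union_right a.support hm)
      omega
  obtain ⟨M, hM⟩ : ∃ M, M = 2 * r := ⟨_, rfl⟩
  let w : Fin (M + 1) ⊕ Fin (M + 1) → D := Sum.elim
    (fun i => gu ψ (t ^ ((i : ℕ) : ℤ)) * (nf ψ hf t a).1)
    (fun i => gu ψ (t ^ ((i : ℕ) : ℤ)) * (nf ψ hf t b).1)
  have hdep : ¬ LinearIndependent (KK ψ (kerOn H f hf)) w := by
    intro hli
    have h1 := finrank_span_eq_card hli
    rw [Fintype.card_sum, Fintype.card_fin] at h1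
    have h2 : Submodule.span (KK ψ (kerOn H f hf)) (Set.range w) ≤ Submodule.span (KK ψ (kerOn H f hf))
      (((Finset.Icc (-(r : ℤ)) (r + M)).image fun m : ℤ => gu ψ (t ^ m) : Finset D) : Set D) := by
      rw [Submodule.span_le]
      rintro _ ⟨i | i, rfl⟩
      · exact mul_mem_span ψ hf t ht a r hr.1 M i (by omega)
      · exact mul_mem_span ψ hf t ht b r hr.2 M i (by omega)
    have h3 := Submodule.finrank_mono h2
    have h4 := finrank_span_finset_le_card (R := KK ψ (kerOn H f hf))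
      ((Finset.Icc (-(r : ℤ)) (r + M)).image fun m : ℤ => gu ψ (t ^ m))
    have h5 := Finset.card_image_le (s := Finset.Icc (-(r : ℤ)) (r + M))
      (f := fun m : ℤ => gu ψ (t ^ m))
    rw [Int.card_Icc] at h5
    rw [Set.finrank] at h4
    omega
  rw [Fintype.not_linearIndependent_iff] at hdep
  obtain ⟨g, hg1, i0, hi0⟩ := hdep
  rw [Fintype.sum_sum_type] at hg1
  set u : ℤ →₀ KK ψ (kerOn H f hf) := ∑ i : Fin (M + 1), single ((i : ℕ) : ℤ) (g (Sum.inl i)) with hu
  set v : ℤ →₀ KK ψ (kerOn H f hf) := ∑ i : Fin (M + 1), single ((i : ℕ) : ℤ) (-g (Sum.inr i)) with hv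
  have hinj : ∀ i j : Fin (M + 1), ((i : ℕ) : ℤ) = ((j : ℕ) : ℤ) → i = j := by
    intro i j h
    exact Fin.ext (by exact_mod_cast h)
  have hua : ∀ i : Fin (M + 1), u ((i : ℕ) : ℤ) = g (Sum.inl i) := by
    intro i
    rw [hu, Finsupp.finsetSum_apply, Finset.sum_eq_single i]
    · simp
    · intro j _ hj
      rw [Finsupp.single_apply, if_neg (fun h => hj (hinj _ _ h))]
    · intro h; exact absurd (Finset.mem_univ _) h
  have hva : ∀ i : Fin (M + 1), v ((i : ℕ) : ℤ) = -g (Sum.inr i) := by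
    intro i
    rw [hv, Finsupp.finsetSum_apply, Finset.sum_eq_single i]
    · simp
    · intro j _ hj
      rw [Finsupp.single_apply, if_neg (fun h => hj (hinj _ _ h))]
    · intro h; exact absurd (Finset.mem_univ _) h
  have hu1 : (nf ψ hf t u).1 = ∑ i : Fin (M + 1), (g (Sum.inl i) : D) *
      gu ψ (t ^ ((i : ℕ) : ℤ)) := by
    rw [hu, map_sum, Prod.fst_sum]
    apply Finset.sum_congr rfl
    intro i _
    rw [nf_single]
  have hv1 : (nf ψ hf t v).1 = -∑ i : Fin (M + 1), (g (Sum.inr i) : D) *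
      gu ψ (t ^ ((i : ℕ) : ℤ)) := by
    rw [hv, map_sum, Prod.fst_sum, ← Finset.sum_neg_distrib]
    apply Finset.sum_congr rfl
    intro i _
    rw [nf_single]
    simp
  have hbal := fun z => Lam_balanced ψ hf t ht hd hψ (z := z)
  have heq : nf ψ hf t u * nf ψ hf t a = nf ψ hf t v * nf ψ hf t b := by
    have h1 : nf ψ hf t u * nf ψ hf t a - nf ψ hf t v * nf ψ hf t b ∈ Lam ψ hf t ht :=
      sub_mem (mul_mem ⟨u, rfl⟩ ⟨a, rfl⟩) (mul_mem ⟨v, rfl⟩ ⟨b, rfl⟩)
    have h2 : (nf ψ hf t u * nf ψ hf t a - nf ψ hf t v * nf ψ hf t b).1 = 0 := by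
      rw [Prod.fst_sub, Prod.fst_mul, Prod.fst_mul, hu1, hv1, neg_mul, sub_neg_eq_add,
        Finset.sum_mul, Finset.sum_mul, ← hg1]
      congr 1
      · apply Finset.sum_congr rfl
        intro i _
        rw [mul_assoc]
        rfl
      · apply Finset.sum_congr rfl
        intro i _
        rw [mul_assoc]
        rfl
    have h3 := (hbal _ h1).1 h2
    exact sub_eq_zero.1 (Prod.ext h2 h3)
  refine ⟨nf ψ hf t u, ⟨u, rfl⟩, nf ψ hf t v, ⟨v, rfl⟩, ?_, heq⟩
  intro hu0
  have hu00 : u = 0 := nf_fst_zero ψ hf t ht hd hψ (by rw [hu0]; rfl)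
  have hv00 : v = 0 := by
    apply nf_fst_zero ψ hf t ht hd hψ
    have h1 := congrArg Prod.fst heq
    rw [hu0, zero_mul, Prod.fst_mul] at h1
    have h2 : (nf ψ hf t b).1 ≠ 0 := by
      intro h
      exact hy0 (Prod.ext h ((hbal _ ⟨b, rfl⟩).1 h))
    exact (mul_eq_zero.1 h1.symm).resolve_right h2
  apply hi0
  rcases i0 with i | i
  · rw [← hua, hu00]; rfl
  · have := hva i
    rw [hv00] at this
    exact neg_eq_zero.1 this.symm

end Nf

section Main

variable {C E D : Type*} [Group C] [DivisionRing E] [DivisionRing D]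
  (ψ : MonoidAlgebra E C →+* D)

theorem gam_balanced (hψ : HughesFree ψ) {H : Subgroup C} {f : C → ℤ} (hf : IsHomOn H f)
    (hne : ∃ h ∈ H, f h ≠ 0) {z : D × Lau D} (hz : Gam ψ H f z) : z.1 = 0 ↔ z.2 = 0 := by
  let im : AddSubgroup ℤ :=
    { carrier := {n | ∃ h ∈ H, f h = n}
      zero_mem' := ⟨1, H.one_mem, hf.map_one⟩
      add_mem' := by
        rintro _ _ ⟨a, ha, rfl⟩ ⟨b, hb, rfl⟩
        exact ⟨a * b, H.mul_mem ha hb, hf a ha b hb⟩
      neg_mem' := by
        rintro _ ⟨a, ha, rfl⟩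
        exact ⟨a⁻¹, H.inv_mem ha, hf.map_inv ha⟩ }
  obtain ⟨d, hd⟩ := Int.subgroup_cyclic im
  have hdm : d ∈ im := by
    rw [hd]
    exact AddSubgroup.mem_closure_singleton_self d
  obtain ⟨t, ht, rfl⟩ := hdm
  have hgen : ∀ h ∈ H, ∃ m : ℤ, f h = m * f t := by
    intro h hh
    have h1 : f h ∈ im := ⟨h, hh, rfl⟩
    rw [hd, AddSubgroup.mem_closure_singleton] at h1
    obtain ⟨m, hm⟩ := h1
    exact ⟨m, by rw [← hm, smul_eq_mul]⟩
  have hd0 : f t ≠ 0 := by
    intro h0
    obtain ⟨h, hh, hh0⟩ := hne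
    obtain ⟨m, hm⟩ := hgen h hh
    rw [h0, mul_zero] at hm
    exact hh0 hm
  refine ore_balanced (Lam ψ hf t ht) (fun z hz => Lam_balanced ψ hf t ht hd0 hψ hz)
    (fun a ha b hb hb0 => Lam_ore ψ hf t ht hd0 hψ ha hb hb0) ?_
  exact RC.mono (GG_subset_Lam ψ hf t ht hgen) hz

end Main

end Vale.Agent.P201
end
end

section

section

/-!
The inductive predicate used for the uniqueness of free division rings of fractions.
-/

namespace Vale.Agent.P201

section Fg

variable {C : Type*} [Group C]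

theorem fg_zpowers (g : C) : (Subgroup.zpowers g).FG := by
  classical
  exact ⟨{g}, by rw [Finset.coe_singleton, Subgroup.zpowers_eq_closure]⟩

end Fg

section Pair

variable {C E D1 D2 : Type*} [Group C] [DivisionRing E] [DivisionRing D1] [DivisionRing D2]
  (ψ1 : MonoidAlgebra E C →+* D1) (ψ2 : MonoidAlgebra E C →+* D2)

/-- coefficients of pairs of Laurent series -/
def cf2 (c : Lau D1 × Lau D2) (n : ℤ) : D1 × D2 := (Lau.cf c.1 n, Lau.cf c.2 n)

/-- pairs of monomials -/
noncomputable def mon2 (z : D1 × D2) (n : ℤ) : Lau D1 × Lau D2 := (Lau.mon z.1 n, Lau.mon z.2 n)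

theorem cf2_add (c d : Lau D1 × Lau D2) (n : ℤ) : cf2 (c + d) n = cf2 c n + cf2 d n := rfl

theorem cf2_mon2_same (z : D1 × D2) (n : ℤ) : cf2 (mon2 z n) n = z :=
  Prod.ext (Lau.cf_mon_same _ _) (Lau.cf_mon_same _ _)

theorem cf2_mon2_ne (z : D1 × D2) {n m : ℤ} (h : m ≠ n) : cf2 (mon2 z n) m = 0 := by
  refine Prod.ext ?_ ?_
  · change Lau.cf (Lau.mon z.1 n) m = 0
    rw [Lau.cf_mon, if_neg h]
  · change Lau.cf (Lau.mon z.2 n) m = 0
    rw [Lau.cf_mon, if_neg h]

theorem cf2_mul_mon2 (c : Lau D1 × Lau D2) (z : D1 × D2) (m n : ℤ) :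
    cf2 (c * mon2 z m) n = cf2 c (n - m) * z :=
  Prod.ext (Lau.cf_mul_mon _ _ _ _) (Lau.cf_mul_mon _ _ _ _)

theorem cf2_mon2_mul (c : Lau D1 × Lau D2) (z : D1 × D2) (m n : ℤ) :
    cf2 (mon2 z m * c) n = z * cf2 c (n - m) :=
  Prod.ext (Lau.cf_mon_mul _ _ _ _) (Lau.cf_mon_mul _ _ _ _)

theorem mon2_mul_mon2 (z w : D1 × D2) (m n : ℤ) :
    mon2 z m * mon2 w n = mon2 (z * w) (m + n) :=
  Prod.ext (Lau.mon_mul_mon _ _ _ _) (Lau.mon_mul_mon _ _ _ _)

/-- the pair of units attached to a group element -/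
noncomputable def gu2 (g : C) : D1 × D2 := (gu ψ1 g, gu ψ2 g)

theorem gu2_one : gu2 ψ1 ψ2 1 = 1 := Prod.ext (gu_one _) (gu_one _)

theorem gu2_mul (g h : C) : gu2 ψ1 ψ2 (g * h) = gu2 ψ1 ψ2 g * gu2 ψ1 ψ2 h :=
  Prod.ext (gu_mul _ _ _) (gu_mul _ _ _)

theorem gu2_mul_inv (g : C) : gu2 ψ1 ψ2 g * gu2 ψ1 ψ2 g⁻¹ = 1 := by
  rw [← gu2_mul, mul_inv_cancel, gu2_one]

theorem gu2_inv_mul (g : C) : gu2 ψ1 ψ2 g⁻¹ * gu2 ψ1 ψ2 g = 1 := by
  rw [← gu2_mul, inv_mul_cancel, gu2_one]

/-- the pair of scalars -/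
noncomputable def sc2 (e : E) : D1 × D2 :=
  (ψ1 (MonoidAlgebra.single 1 e), ψ2 (MonoidAlgebra.single 1 e))

/-- pairs in the closures of `E[H]` -/
def KK2 (H : Subgroup C) (z : D1 × D2) : Prop := z.1 ∈ KK ψ1 H ∧ z.2 ∈ KK ψ2 H

/-- pairs of expansions -/
def Gam2 (H : Subgroup C) (f : C → ℤ) (z : D1 × D2) (c : Lau D1 × Lau D2) : Prop :=
  Gam ψ1 H f (z.1, c.1) ∧ Gam ψ2 H f (z.2, c.2)

variable {ψ1 ψ2}

theorem KK2.mono {H L : Subgroup C} (h : H ≤ L) {z : D1 × D2} (hz : KK2 ψ1 ψ2 H z) :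
    KK2 ψ1 ψ2 L z := ⟨KK_mono ψ1 h hz.1, KK_mono ψ2 h hz.2⟩

theorem KK2.add {H : Subgroup C} {z w : D1 × D2} (hz : KK2 ψ1 ψ2 H z) (hw : KK2 ψ1 ψ2 H w) :
    KK2 ψ1 ψ2 H (z + w) := ⟨add_mem hz.1 hw.1, add_mem hz.2 hw.2⟩

theorem KK2.mul {H : Subgroup C} {z w : D1 × D2} (hz : KK2 ψ1 ψ2 H z) (hw : KK2 ψ1 ψ2 H w) :
    KK2 ψ1 ψ2 H (z * w) := ⟨mul_mem hz.1 hw.1, mul_mem hz.2 hw.2⟩

theorem KK2.inv {H : Subgroup C} {z : D1 × D2} (hz : KK2 ψ1 ψ2 H z) :
    KK2 ψ1 ψ2 H z⁻¹ := ⟨inv_mem hz.1, inv_mem hz.2⟩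

theorem KK2_gu2 {H : Subgroup C} {h : C} (hh : h ∈ H) : KK2 ψ1 ψ2 H (gu2 ψ1 ψ2 h) :=
  ⟨gu_mem ψ1 hh, gu_mem ψ2 hh⟩

theorem Gam2.mono {H L : Subgroup C} (h : H ≤ L) {f : C → ℤ} {z : D1 × D2}
    {c : Lau D1 × Lau D2} (hz : Gam2 ψ1 ψ2 H f z c) : Gam2 ψ1 ψ2 L f z c :=
  ⟨Gam_mono ψ1 h hz.1, Gam_mono ψ2 h hz.2⟩

theorem Gam2.add {H : Subgroup C} {f : C → ℤ} {z w : D1 × D2} {c d : Lau D1 × Lau D2}
    (hz : Gam2 ψ1 ψ2 H f z c) (hw : Gam2 ψ1 ψ2 H f w d) : Gam2 ψ1 ψ2 H f (z + w) (c + d) :=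
  ⟨RC.add hz.1 hw.1, RC.add hz.2 hw.2⟩

theorem Gam2.mul {H : Subgroup C} {f : C → ℤ} {z w : D1 × D2} {c d : Lau D1 × Lau D2}
    (hz : Gam2 ψ1 ψ2 H f z c) (hw : Gam2 ψ1 ψ2 H f w d) : Gam2 ψ1 ψ2 H f (z * w) (c * d) :=
  ⟨RC.mul hz.1 hw.1, RC.mul hz.2 hw.2⟩

theorem Gam2.inv {H : Subgroup C} {f : C → ℤ} {z : D1 × D2} {c : Lau D1 × Lau D2}
    (hz : Gam2 ψ1 ψ2 H f z c) : Gam2 ψ1 ψ2 H f z⁻¹ c⁻¹ :=
  ⟨RC.inv hz.1, RC.inv hz.2⟩

theorem Gam2_gu2 {H : Subgroup C} {f : C → ℤ} {h : C} (hh : h ∈ H) :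
    Gam2 ψ1 ψ2 H f (gu2 ψ1 ψ2 h) (mon2 (gu2 ψ1 ψ2 h) (f h)) :=
  ⟨Gam_gu ψ1 hh, Gam_gu ψ2 hh⟩

theorem Gam2_const {H L : Subgroup C} (h : H ≤ L) {f : C → ℤ} (hf : ∀ a ∈ H, f a = 0)
    {z : D1 × D2} (hz : KK2 ψ1 ψ2 H z) : Gam2 ψ1 ψ2 L f z (mon2 z 0) :=
  ⟨Gam_const ψ1 h hf hz.1, Gam_const ψ2 h hf hz.2⟩

variable (ψ1 ψ2)

/-- The good pairs. -/
inductive Good : Subgroup C → D1 × D2 → Prop
  | mk (H : Subgroup C) (z : D1 × D2) (hfg : H.FG) (hz : KK2 ψ1 ψ2 H z)
      (hbot : H = ⊥ → ∃ e : E, z = sc2 ψ1 ψ2 e)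
      (c : (C → ℤ) → Lau D1 × Lau D2) (g : (C → ℤ) → ℤ → C) (N : (C → ℤ) → ℤ → Subgroup C)
      (hc : ∀ f, IsHomOn H f → (∃ h ∈ H, f h ≠ 0) → Gam2 ψ1 ψ2 H f z (c f))
      (hg : ∀ f, IsHomOn H f → (∃ h ∈ H, f h ≠ 0) → ∀ n, g f n ∈ H)
      (hN : ∀ f, IsHomOn H f → (∃ h ∈ H, f h ≠ 0) → ∀ n, N f n ≤ H)
      (hN' : ∀ f, IsHomOn H f → (∃ h ∈ H, f h ≠ 0) → ∀ n, ∀ l ∈ N f n, f l = 0)
      (hd : ∀ f, IsHomOn H f → (∃ h ∈ H, f h ≠ 0) → ∀ n, f (g f n) = -n ∨ cf2 (c f) n = 0)
      (child : ∀ f, IsHomOn H f → (∃ h ∈ H, f h ≠ 0) → ∀ n,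
        Good (N f n) (cf2 (c f) n * gu2 ψ1 ψ2 (g f n))) : Good H z

/-- Homogeneous elements of degree `n` that satisfy `Q` after translation. -/
def HomP (Q : Subgroup C → D1 × D2 → Prop) (H : Subgroup C) (f : C → ℤ) (n : ℤ)
    (x : D1 × D2) : Prop :=
  ∃ g ∈ H, ∃ N ≤ H, (∀ l ∈ N, f l = 0) ∧ (f g = -n ∨ x = 0) ∧ Q N (x * gu2 ψ1 ψ2 g)

variable {ψ1 ψ2}

theorem HomP.imp {Q Q' : Subgroup C → D1 × D2 → Prop} (h : ∀ N w, Q N w → Q' N w)
    {H : Subgroup C} {f : C → ℤ} {n : ℤ} {x : D1 × D2} (hx : HomP ψ1 ψ2 Q H f n x) :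
    HomP ψ1 ψ2 Q' H f n x := by
  obtain ⟨g, hg, N, hN, hN', hd, hq⟩ := hx
  exact ⟨g, hg, N, hN, hN', hd, h _ _ hq⟩

theorem HomP.mono {Q : Subgroup C → D1 × D2 → Prop} {H L : Subgroup C} (hHL : H ≤ L)
    {f : C → ℤ} {n : ℤ} {x : D1 × D2} (hx : HomP ψ1 ψ2 Q H f n x) :
    HomP ψ1 ψ2 Q L f n x := by
  obtain ⟨g, hg, N, hN, hN', hd, hq⟩ := hx
  exact ⟨g, hHL hg, N, hN.trans hHL, hN', hd, hq⟩

theorem Good.intro {H : Subgroup C} {z : D1 × D2} (hfg : H.FG) (hz : KK2 ψ1 ψ2 H z)
    (hbot : H = ⊥ → ∃ e : E, z = sc2 ψ1 ψ2 e)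
    (h : ∀ f, IsHomOn H f → (∃ h ∈ H, f h ≠ 0) → ∃ c, Gam2 ψ1 ψ2 H f z c ∧
      ∀ n, HomP ψ1 ψ2 (Good ψ1 ψ2) H f n (cf2 c n)) : Good ψ1 ψ2 H z := by
  classical
  have h' : ∀ f, ∃ c : Lau D1 × Lau D2, IsHomOn H f → (∃ h ∈ H, f h ≠ 0) →
      Gam2 ψ1 ψ2 H f z c ∧ ∀ n, HomP ψ1 ψ2 (Good ψ1 ψ2) H f n (cf2 c n) := by
    intro f
    by_cases h1 : IsHomOn H f ∧ (∃ h ∈ H, f h ≠ 0)
    · obtain ⟨c, hc⟩ := h f h1.1 h1.2
      exact ⟨c, fun _ _ => hc⟩
    · exact ⟨0, fun h2 h3 => absurd ⟨h2, h3⟩ h1⟩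
  choose c hc using h'
  have h'' : ∀ f n, ∃ g : C, ∃ N : Subgroup C, IsHomOn H f → (∃ h ∈ H, f h ≠ 0) →
      g ∈ H ∧ N ≤ H ∧ (∀ l ∈ N, f l = 0) ∧ (f g = -n ∨ cf2 (c f) n = 0) ∧
        Good ψ1 ψ2 N (cf2 (c f) n * gu2 ψ1 ψ2 g) := by
    intro f n
    by_cases h1 : IsHomOn H f ∧ (∃ h ∈ H, f h ≠ 0)
    · obtain ⟨g, hg, N, hN, hN', hd, hq⟩ := (hc f h1.1 h1.2).2 n
      exact ⟨g, N, fun _ _ => ⟨hg, hN, hN', hd, hq⟩⟩
    · exact ⟨1, ⊥, fun h2 h3 => absurd ⟨h2, h3⟩ h1⟩
  choose g N hgN using h''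
  exact Good.mk H z hfg hz hbot c g N (fun f h1 h2 => (hc f h1 h2).1)
    (fun f h1 h2 n => (hgN f n h1 h2).1) (fun f h1 h2 n => (hgN f n h1 h2).2.1)
    (fun f h1 h2 n => (hgN f n h1 h2).2.2.1) (fun f h1 h2 n => (hgN f n h1 h2).2.2.2.1)
    (fun f h1 h2 n => (hgN f n h1 h2).2.2.2.2)

/-- Induction principle for good pairs. -/
theorem Good.induct {motive : Subgroup C → D1 × D2 → Prop}
    (step : ∀ (H : Subgroup C) (z : D1 × D2), Good ψ1 ψ2 H z → H.FG → KK2 ψ1 ψ2 H z →
      (H = ⊥ → ∃ e : E, z = sc2 ψ1 ψ2 e) →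
      (∀ f, IsHomOn H f → (∃ h ∈ H, f h ≠ 0) → ∃ c, Gam2 ψ1 ψ2 H f z c ∧
        ∀ n, HomP ψ1 ψ2 (fun N w => Good ψ1 ψ2 N w ∧ motive N w) H f n (cf2 c n)) → motive H z)
    {H : Subgroup C} {z : D1 × D2} (h : Good ψ1 ψ2 H z) : motive H z := by
  induction h with
  | mk H z hfg hz hbot c g N hc hg hN hN' hd child ih =>
    refine step H z (Good.mk H z hfg hz hbot c g N hc hg hN hN' hd child) hfg hz hbot ?_
    intro f h1 h2
    exact ⟨c f, hc f h1 h2, fun n => ⟨g f n, hg f h1 h2 n, N f n, hN f h1 h2 n, hN' f h1 h2 n,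
      hd f h1 h2 n, child f h1 h2 n, ih f h1 h2 n⟩⟩

theorem Good.out {H : Subgroup C} {z : D1 × D2} (h : Good ψ1 ψ2 H z) :
    H.FG ∧ KK2 ψ1 ψ2 H z ∧ (H = ⊥ → ∃ e : E, z = sc2 ψ1 ψ2 e) ∧
    ∀ f, IsHomOn H f → (∃ h ∈ H, f h ≠ 0) → ∃ c, Gam2 ψ1 ψ2 H f z c ∧
      ∀ n, HomP ψ1 ψ2 (Good ψ1 ψ2) H f n (cf2 c n) := by
  refine Good.induct (motive := fun H z => H.FG ∧ KK2 ψ1 ψ2 H z ∧
    (H = ⊥ → ∃ e : E, z = sc2 ψ1 ψ2 e) ∧
    ∀ f, IsHomOn H f → (∃ h ∈ H, f h ≠ 0) → ∃ c, Gam2 ψ1 ψ2 H f z c ∧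
      ∀ n, HomP ψ1 ψ2 (Good ψ1 ψ2) H f n (cf2 c n)) ?_ h
  intro H z _ h1 h2 h3 h4
  refine ⟨h1, h2, h3, fun f hf hf' => ?_⟩
  obtain ⟨c, hc, hn⟩ := h4 f hf hf'
  exact ⟨c, hc, fun n => (hn n).imp fun _ _ h => h.1⟩

theorem Good.scalar (e : E) : Good ψ1 ψ2 ⊥ (sc2 ψ1 ψ2 e) := by
  refine Good.intro Subgroup.FG.bot ⟨single_mem_KK ψ1 (Subgroup.one_mem _) e,
    single_mem_KK ψ2 (Subgroup.one_mem _) e⟩ (fun _ => ⟨e, rfl⟩) ?_
  intro f hf hf'
  obtain ⟨h, hh, hh'⟩ := hf'
  rw [Subgroup.mem_bot] at hh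
  subst hh
  exact absurd hf.map_one hh'

theorem sc2_zero : sc2 ψ1 ψ2 (0 : E) = 0 := by
  unfold sc2
  rw [MonoidAlgebra.single_zero, map_zero, map_zero]
  rfl

theorem sc2_one : sc2 ψ1 ψ2 (1 : E) = 1 := by
  unfold sc2
  rw [← MonoidAlgebra.one_def, map_one, map_one]
  rfl

theorem Good.zero : Good ψ1 ψ2 ⊥ 0 := by
  have h : sc2 ψ1 ψ2 (0 : E) = 0 := sc2_zero
  rw [← h]
  exact Good.scalar 0

theorem HomP_zero (H : Subgroup C) (f : C → ℤ) (n : ℤ) (hf : IsHomOn H f) :
    HomP ψ1 ψ2 (Good ψ1 ψ2) H f n 0 := by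
  refine ⟨1, H.one_mem, ⊥, bot_le, ?_, Or.inr rfl, ?_⟩
  · intro l hl
    rw [Subgroup.mem_bot] at hl
    subst hl
    exact hf.map_one
  · rw [zero_mul]
    exact Good.zero

/-- Enlarging the subgroup and translating by a group element. -/
theorem Good.trans {H L : Subgroup C} {z : D1 × D2} (hz : Good ψ1 ψ2 H z) (hHL : H ≤ L)
    (hL : L.FG) {g : C} (hg : g ∈ L) : Good ψ1 ψ2 L (z * gu2 ψ1 ψ2 g) := by
  obtain ⟨hfg, hKK, hbot, hexp⟩ := hz.out
  refine Good.intro hL ((hKK.mono hHL).mul (KK2_gu2 hg)) ?_ ?_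
  · rintro rfl
    rw [Subgroup.mem_bot] at hg
    subst hg
    rw [gu2_one, mul_one]
    exact hbot (le_bot_iff.1 hHL)
  · intro f hf hf'
    by_cases hH : ∃ h ∈ H, f h ≠ 0
    · obtain ⟨c, hc, hcn⟩ := hexp f (hf.mono hHL) hH
      refine ⟨c * mon2 (gu2 ψ1 ψ2 g) (f g), (hc.mono hHL).mul (Gam2_gu2 hg), fun n => ?_⟩
      rw [cf2_mul_mon2]
      obtain ⟨h, hh, N, hN, hN', hd, hq⟩ := hcn (n - f g)
      rcases hd with hd | hd
      · refine ⟨g⁻¹ * h, L.mul_mem (L.inv_mem hg) (hHL hh), N, hN.trans hHL, hN', Or.inl ?_, ?_⟩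
        · rw [hf _ (L.inv_mem hg) _ (hHL hh), hf.map_inv hg, hd]
          ring
        · rw [mul_assoc, ← gu2_mul, mul_inv_cancel_left]
          exact hq
      · rw [hd, zero_mul]
        exact HomP_zero L f n hf
    · push Not at hH
      refine ⟨mon2 z 0 * mon2 (gu2 ψ1 ψ2 g) (f g),
        (Gam2_const hHL hH hKK).mul (Gam2_gu2 hg), fun n => ?_⟩
      rw [mon2_mul_mon2, zero_add]
      by_cases hn : n = f g
      · subst hn
        rw [cf2_mon2_same]
        refine ⟨g⁻¹, L.inv_mem hg, H, hHL, hH, Or.inl (hf.map_inv hg), ?_⟩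
        rw [mul_assoc, gu2_mul_inv, mul_one]
        exact hz
      · rw [cf2_mon2_ne _ hn]
        exact HomP_zero L f n hf

theorem Good.mono {H L : Subgroup C} {z : D1 × D2} (hz : Good ψ1 ψ2 H z) (hHL : H ≤ L)
    (hL : L.FG) : Good ψ1 ψ2 L z := by
  have := hz.trans hHL hL L.one_mem
  rwa [gu2_one, mul_one] at this

end Pair

end Vale.Agent.P201
end
end

section

section

/-!
Good pairs are closed under conjugation and addition.
-/

namespace Vale.Agent.P201

section Conj

variable {C : Type*} [Group C]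

/-- conjugate subgroup -/
def cj (u : C) (H : Subgroup C) : Subgroup C := H.map (MulAut.conj u).toMonoidHom

theorem mem_cj {u : C} {H : Subgroup C} {a : C} : a ∈ cj u H ↔ ∃ h ∈ H, u * h * u⁻¹ = a := by
  rfl

theorem cj_mono {u : C} {H L : Subgroup C} (h : H ≤ L) : cj u H ≤ cj u L := Subgroup.map_mono h

theorem cj_le {u : C} {H L : Subgroup C} (hu : u ∈ L) (h : H ≤ L) : cj u H ≤ L := by
  rintro a ha
  obtain ⟨x, hx, rfl⟩ := mem_cj.1 ha
  exact L.mul_mem (L.mul_mem hu (h hx)) (L.inv_mem hu)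

theorem fg_map {C' : Type*} [Group C'] {H : Subgroup C} (hH : H.FG) (φ : C →* C') :
    (H.map φ).FG := by
  rw [Subgroup.fg_iff_submonoid_fg] at hH ⊢
  exact Submonoid.FG.map hH φ

theorem cj_fg {u : C} {H : Subgroup C} (hH : H.FG) : (cj u H).FG := fg_map hH _

theorem isHomOn_conj {u : C} {H : Subgroup C} {f : C → ℤ} (hf : IsHomOn (cj u H) f) :
    IsHomOn H (fun a => f (u * a * u⁻¹)) := by
  intro a ha b hb
  have := hf _ (mem_cj.2 ⟨a, ha, rfl⟩) _ (mem_cj.2 ⟨b, hb, rfl⟩)
  rw [← this]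
  group

theorem cj_eq_bot {u : C} {H : Subgroup C} (h : cj u H = ⊥) : H = ⊥ := by
  rw [eq_bot_iff] at h ⊢
  intro x hx
  have h1 := h (mem_cj.2 ⟨x, hx, rfl⟩)
  rw [Subgroup.mem_bot] at h1 ⊢
  have : x = u⁻¹ * (u * x * u⁻¹) * u := by group
  rw [this, h1]
  group

/-- vanishing on a join -/
theorem vanish_sup {L : Subgroup C} {f : C → ℤ} (hf : IsHomOn L f) {H H' : Subgroup C}
    (hH : H ≤ L) (hH' : H' ≤ L) (h : ∀ a ∈ H, f a = 0) (h' : ∀ a ∈ H', f a = 0) :
    ∀ a ∈ H ⊔ H', f a = 0 := by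
  have h1 : H ⊔ H' ≤ kerOn L f hf := by
    refine sup_le (fun a ha => ?_) (fun a ha => ?_)
    · exact ⟨hH ha, h a ha⟩
    · exact ⟨hH' ha, h' a ha⟩
  intro a ha
  exact (h1 ha).2

theorem vanish_zpowers {L : Subgroup C} {f : C → ℤ} (hf : IsHomOn L f) {g : C} (hg : g ∈ L)
    (h : f g = 0) : ∀ a ∈ Subgroup.zpowers g, f a = 0 := by
  rintro _ ⟨n, rfl⟩
  change f (g ^ n) = 0
  rw [hf.map_zpow hg, h, mul_zero]

end Conj

theorem neg_conj_ring {R : Type*} [Ring R] (a b y : R) : -(a * y * b) = a * -y * b := by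
  rw [mul_neg, neg_mul]

section Pair

variable {C E D1 D2 : Type*} [Group C] [DivisionRing E] [DivisionRing D1] [DivisionRing D2]
  {ψ1 : MonoidAlgebra E C →+* D1} {ψ2 : MonoidAlgebra E C →+* D2}

variable (ψ1 ψ2) in
/-- conjugation of pairs -/
noncomputable def cz (u : C) (z : D1 × D2) : D1 × D2 := gu2 ψ1 ψ2 u * z * gu2 ψ1 ψ2 u⁻¹

theorem cz_one (z : D1 × D2) : cz ψ1 ψ2 1 z = z := by
  unfold cz
  rw [inv_one, gu2_one, one_mul, mul_one]

theorem cz_zero (u : C) : cz ψ1 ψ2 u 0 = 0 := by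
  unfold cz
  rw [mul_zero, zero_mul]

theorem cz_mul (u : C) (z w : D1 × D2) : cz ψ1 ψ2 u (z * w) = cz ψ1 ψ2 u z * cz ψ1 ψ2 u w := by
  unfold cz
  calc gu2 ψ1 ψ2 u * (z * w) * gu2 ψ1 ψ2 u⁻¹ =
      gu2 ψ1 ψ2 u * z * 1 * w * gu2 ψ1 ψ2 u⁻¹ := by rw [mul_one]; simp only [mul_assoc]
    _ = _ := by rw [← gu2_inv_mul ψ1 ψ2 u]; simp only [mul_assoc]

theorem cz_gu2 (u g : C) : cz ψ1 ψ2 u (gu2 ψ1 ψ2 g) = gu2 ψ1 ψ2 (u * g * u⁻¹) := by
  unfold cz
  rw [gu2_mul, gu2_mul]

theorem cz_sc2 (u : C) (e : E) : cz ψ1 ψ2 u (sc2 ψ1 ψ2 e) = sc2 ψ1 ψ2 e := by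
  unfold cz sc2 gu2 gu
  refine Prod.ext ?_ ?_
  · change ψ1 _ * ψ1 _ * ψ1 _ = ψ1 _
    rw [← map_mul, ← map_mul, MonoidAlgebra.single_mul_single, MonoidAlgebra.single_mul_single]
    simp
  · change ψ2 _ * ψ2 _ * ψ2 _ = ψ2 _
    rw [← map_mul, ← map_mul, MonoidAlgebra.single_mul_single, MonoidAlgebra.single_mul_single]
    simp

theorem Gam_conj {D : Type*} [DivisionRing D] (ψ : MonoidAlgebra E C →+* D) {H : Subgroup C}
    {u : C} {f : C → ℤ} {z : D × Lau D} (hz : Gam ψ H (fun a => f (u * a * u⁻¹)) z) :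
    Gam ψ (cj u H) f (gu ψ u * z.1 * gu ψ u⁻¹, Lau.mon (gu ψ u) 0 * z.2 * Lau.mon (gu ψ u⁻¹) 0) := by
  have hl : Lau.mon (gu ψ u⁻¹) 0 * Lau.mon (gu ψ u) 0 = 1 := by
    rw [Lau.mon_mul_mon, gu_inv_mul, add_zero, Lau.one_eq]
  have hl' : Lau.mon (gu ψ u) 0 * Lau.mon (gu ψ u⁻¹) 0 = 1 := by
    rw [Lau.mon_mul_mon, gu_mul_inv, add_zero, Lau.one_eq]
  unfold Gam at hz
  induction hz with
  | base hx =>
    obtain ⟨a, ha, e, rfl⟩ := hx
    have h1 := Gam_single ψ (H := cj u H) (f := f) (mem_cj.2 ⟨a, ha, rfl⟩) e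
    have h2 : gu ψ u * ψ (MonoidAlgebra.single a e) * gu ψ u⁻¹ =
        ψ (MonoidAlgebra.single (u * a * u⁻¹) e) := by
      unfold gu
      rw [← map_mul, ← map_mul, MonoidAlgebra.single_mul_single, MonoidAlgebra.single_mul_single,
        one_mul, mul_one]
    simp only
    rw [Lau.mon_mul_mon, Lau.mon_mul_mon, h2, zero_add, add_zero]
    exact h1
  | zero =>
    rw [Prod.fst_zero, Prod.snd_zero, mul_zero, zero_mul, mul_zero, zero_mul]
    exact RC.zero
  | one =>
    rw [Prod.fst_one, Prod.snd_one, mul_one, mul_one, gu_mul_inv, hl']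
    exact RC.one
  | add _ _ h1 h2 =>
    rw [Prod.fst_add, Prod.snd_add, mul_add, add_mul, mul_add, add_mul]
    exact RC.add h1 h2
  | @mul x y _ _ h1 h2 =>
    have h3 := RC.mul h1 h2
    rw [Prod.mk_mul_mk] at h3
    have h4 : gu ψ u * x.1 * gu ψ u⁻¹ * (gu ψ u * y.1 * gu ψ u⁻¹) =
        gu ψ u * (x.1 * y.1) * gu ψ u⁻¹ := by
      calc _ = gu ψ u * x.1 * (gu ψ u⁻¹ * gu ψ u) * y.1 * gu ψ u⁻¹ := by simp only [mul_assoc]
        _ = _ := by rw [gu_inv_mul, mul_one]; simp only [mul_assoc]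
    have h5 : Lau.mon (gu ψ u) 0 * x.2 * Lau.mon (gu ψ u⁻¹) 0 *
        (Lau.mon (gu ψ u) 0 * y.2 * Lau.mon (gu ψ u⁻¹) 0) =
        Lau.mon (gu ψ u) 0 * (x.2 * y.2) * Lau.mon (gu ψ u⁻¹) 0 := by
      calc _ = Lau.mon (gu ψ u) 0 * x.2 * (Lau.mon (gu ψ u⁻¹) 0 * Lau.mon (gu ψ u) 0) * y.2 *
            Lau.mon (gu ψ u⁻¹) 0 := by simp only [mul_assoc]
        _ = _ := by rw [hl, mul_one]; simp only [mul_assoc]
    rw [h4, h5] at h3
    exact h3
  | @neg x _ h1 =>
    have h3 := RC.neg h1
    have h4 : -((gu ψ u * x.1 * gu ψ u⁻¹,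
        Lau.mon (gu ψ u) 0 * x.2 * Lau.mon (gu ψ u⁻¹) 0) : D × Lau D) =
        (gu ψ u * (-x).1 * gu ψ u⁻¹, Lau.mon (gu ψ u) 0 * (-x).2 * Lau.mon (gu ψ u⁻¹) 0) := by
      refine Prod.ext ?_ ?_
      · change -(gu ψ u * x.1 * gu ψ u⁻¹) = gu ψ u * -x.1 * gu ψ u⁻¹
        rw [mul_neg, neg_mul]
      · exact neg_conj_ring _ _ _
    rw [h4] at h3
    exact h3
  | @inv x _ h1 =>
    have h3 := RC.inv h1
    have h4 : ((gu ψ u * x.1 * gu ψ u⁻¹,
        Lau.mon (gu ψ u) 0 * x.2 * Lau.mon (gu ψ u⁻¹) 0) : D × Lau D)⁻¹ =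
        (gu ψ u * x⁻¹.1 * gu ψ u⁻¹, Lau.mon (gu ψ u) 0 * x⁻¹.2 * Lau.mon (gu ψ u⁻¹) 0) := by
      refine Prod.ext ?_ ?_
      · change (gu ψ u * x.1 * gu ψ u⁻¹)⁻¹ = gu ψ u * x.1⁻¹ * gu ψ u⁻¹
        rw [mul_inv_rev, mul_inv_rev, gu_inv, inv_inv, mul_assoc]
      · change (Lau.mon (gu ψ u) 0 * x.2 * Lau.mon (gu ψ u⁻¹) 0)⁻¹ =
          Lau.mon (gu ψ u) 0 * x.2⁻¹ * Lau.mon (gu ψ u⁻¹) 0
        rw [mul_inv_rev, mul_inv_rev, ← eq_inv_of_mul_eq_one_right hl,
          ← eq_inv_of_mul_eq_one_left hl, mul_assoc]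
    rw [h4] at h3
    exact h3

theorem Gam2.conj {H : Subgroup C} {u : C} {f : C → ℤ} {z : D1 × D2} {c : Lau D1 × Lau D2}
    (hz : Gam2 ψ1 ψ2 H (fun a => f (u * a * u⁻¹)) z c) :
    Gam2 ψ1 ψ2 (cj u H) f (cz ψ1 ψ2 u z)
      (mon2 (gu2 ψ1 ψ2 u) 0 * c * mon2 (gu2 ψ1 ψ2 u⁻¹) 0) :=
  ⟨Gam_conj ψ1 hz.1, Gam_conj ψ2 hz.2⟩

theorem KK2.conj {H : Subgroup C} {u : C} {z : D1 × D2} (hz : KK2 ψ1 ψ2 H z) :
    KK2 ψ1 ψ2 (cj u H) (cz ψ1 ψ2 u z) :=
  ⟨conj_mem_KK ψ1 u (fun a ha => mem_cj.2 ⟨a, ha, rfl⟩) hz.1,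
    conj_mem_KK ψ2 u (fun a ha => mem_cj.2 ⟨a, ha, rfl⟩) hz.2⟩

theorem cf2_conj (u : C) (c : Lau D1 × Lau D2) (n : ℤ) :
    cf2 (mon2 (gu2 ψ1 ψ2 u) 0 * c * mon2 (gu2 ψ1 ψ2 u⁻¹) 0) n = cz ψ1 ψ2 u (cf2 c n) := by
  rw [cf2_mul_mon2, cf2_mon2_mul, sub_zero, sub_zero]
  rfl

theorem Good.conj {H : Subgroup C} {z : D1 × D2} (hz : Good ψ1 ψ2 H z) (u : C) :
    Good ψ1 ψ2 (cj u H) (cz ψ1 ψ2 u z) := by
  refine Good.induct (motive := fun H z => Good ψ1 ψ2 (cj u H) (cz ψ1 ψ2 u z)) ?_ hz
  intro H z _ hfg hKK hbot hexp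
  refine Good.intro (cj_fg hfg) hKK.conj ?_ ?_
  · intro h
    obtain ⟨e, he⟩ := hbot (cj_eq_bot h)
    exact ⟨e, by rw [he, cz_sc2]⟩
  · intro f hf hf'
    obtain ⟨c, hc, hcn⟩ := hexp (fun a => f (u * a * u⁻¹)) (isHomOn_conj hf) (by
      obtain ⟨h, hh, hh'⟩ := hf'
      obtain ⟨a, ha, rfl⟩ := mem_cj.1 hh
      exact ⟨a, ha, hh'⟩)
    refine ⟨_, hc.conj, fun n => ?_⟩
    rw [cf2_conj]
    obtain ⟨g, hg, N, hN, hN', hd, hq⟩ := hcn n
    refine ⟨u * g * u⁻¹, mem_cj.2 ⟨g, hg, rfl⟩, cj u N, cj_mono hN, ?_, ?_, ?_⟩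
    · intro l hl
      obtain ⟨a, ha, rfl⟩ := mem_cj.1 hl
      exact hN' a ha
    · rcases hd with hd | hd
      · exact Or.inl hd
      · right
        rw [hd, cz_zero]
    · rw [← cz_gu2, ← cz_mul]
      exact hq.2

/-- Closure under addition, with a translation built in. -/
theorem Good.add_aux {H : Subgroup C} {z : D1 × D2} (hz : Good ψ1 ψ2 H z) :
    ∀ (H' : Subgroup C) (z' : D1 × D2), Good ψ1 ψ2 H' z' → ∀ g : C,
      Good ψ1 ψ2 (H ⊔ Subgroup.zpowers g ⊔ H') (z * gu2 ψ1 ψ2 g + z') := by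
  refine Good.induct (motive := fun H z => ∀ (H' : Subgroup C) (z' : D1 × D2),
    Good ψ1 ψ2 H' z' → ∀ g : C,
      Good ψ1 ψ2 (H ⊔ Subgroup.zpowers g ⊔ H') (z * gu2 ψ1 ψ2 g + z')) ?_ hz
  intro H z hz hfg hKK hbot hexp H' z' hz'
  refine Good.induct (motive := fun H' z' => ∀ g : C,
      Good ψ1 ψ2 (H ⊔ Subgroup.zpowers g ⊔ H') (z * gu2 ψ1 ψ2 g + z')) ?_ hz'
  intro H' z' hz' hfg' hKK' hbot' hexp' g
  obtain ⟨L, hL⟩ : ∃ L, L = H ⊔ Subgroup.zpowers g ⊔ H' := ⟨_, rfl⟩
  rw [← hL]
  have hHL : H ≤ L := by rw [hL]; exact le_sup_left.trans le_sup_left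
  have hHL' : H' ≤ L := by rw [hL]; exact le_sup_right
  have hgL : g ∈ L := by
    rw [hL]
    exact Subgroup.mem_sup_left (Subgroup.mem_sup_right (Subgroup.mem_zpowers g))
  have hLfg : L.FG := by rw [hL]; exact (hfg.sup (fg_zpowers g)).sup hfg'
  refine Good.intro hLfg
    (((hKK.mono hHL).mul (KK2_gu2 hgL)).add (hKK'.mono hHL')) ?_ ?_
  · intro h
    rw [h] at hHL hHL' hgL
    rw [Subgroup.mem_bot] at hgL
    subst hgL
    obtain ⟨e, he⟩ := hbot (le_bot_iff.1 hHL)
    obtain ⟨e', he'⟩ := hbot' (le_bot_iff.1 hHL')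
    refine ⟨e + e', ?_⟩
    rw [he, he', gu2_one, mul_one]
    unfold sc2
    rw [MonoidAlgebra.single_add, map_add, map_add]
    rfl
  · intro f hf hf'
    by_cases hA : ∃ h ∈ H, f h ≠ 0
    · -- case A
      obtain ⟨c, hc, hcn⟩ := hexp f (hf.mono hHL) hA
      obtain ⟨c', hc', hcn'⟩ := (hz'.mono hHL' hLfg).out.2.2.2 f hf hf'
      refine ⟨c * mon2 (gu2 ψ1 ψ2 g) (f g) + c',
        ((hc.mono hHL).mul (Gam2_gu2 hgL)).add hc', fun n => ?_⟩
      rw [cf2_add, cf2_mul_mon2]
      obtain ⟨h, hh, N, hN, hN', hd, hq⟩ := hcn (n - f g)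
      rcases hd with hd | hd
      · obtain ⟨g', hg', N', hN'', hN''', hd', hq'⟩ := hcn' n
        rcases hd' with hd' | hd'
        · have hk : h⁻¹ * g * g' ∈ L :=
            L.mul_mem (L.mul_mem (L.inv_mem (hHL hh)) hgL) hg'
          have hfk : f (h⁻¹ * g * g') = 0 := by
            rw [hf _ (L.mul_mem (L.inv_mem (hHL hh)) hgL) _ hg', hf _ (L.inv_mem (hHL hh)) _ hgL,
              hf.map_inv (hHL hh), hd, hd']
            ring
          have hkL : Subgroup.zpowers (h⁻¹ * g * g') ≤ L := by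
            rw [Subgroup.zpowers_le]; exact hk
          refine ⟨g', hg', N ⊔ Subgroup.zpowers (h⁻¹ * g * g') ⊔ N',
            sup_le (sup_le (hN.trans hHL) hkL) hN'', ?_, Or.inl hd', ?_⟩
          · refine vanish_sup hf (sup_le (hN.trans hHL) hkL) hN''
              (vanish_sup hf (hN.trans hHL) hkL hN' (vanish_zpowers hf hk hfk)) hN'''
          · have := hq.2 _ _ hq' (h⁻¹ * g * g')
            have e1 : cf2 c (n - f g) * gu2 ψ1 ψ2 h * gu2 ψ1 ψ2 (h⁻¹ * g * g') =
                cf2 c (n - f g) * gu2 ψ1 ψ2 g * gu2 ψ1 ψ2 g' := by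
              rw [mul_assoc, ← gu2_mul, mul_assoc (cf2 c (n - f g)), ← gu2_mul]
              congr 2
              group
            rw [e1, ← add_mul] at this
            exact this
        · refine ⟨g⁻¹ * h, L.mul_mem (L.inv_mem hgL) (hHL hh), N, hN.trans hHL, hN', Or.inl ?_, ?_⟩
          · rw [hf _ (L.inv_mem hgL) _ (hHL hh), hf.map_inv hgL, hd]
            ring
          · rw [hd', add_zero, mul_assoc, ← gu2_mul, mul_inv_cancel_left]
            exact hq.1
      · rw [hd, zero_mul, zero_add]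
        exact hcn' n
    · push Not at hA
      have hzero : Gam2 ψ1 ψ2 L f (z * gu2 ψ1 ψ2 g) (mon2 (z * gu2 ψ1 ψ2 g) (f g)) := by
        have h1 := (Gam2_const hHL hA hKK).mul (Gam2_gu2 (ψ1 := ψ1) (ψ2 := ψ2) (f := f) hgL)
        rwa [mon2_mul_mon2, zero_add] at h1
      have htz : HomP ψ1 ψ2 (Good ψ1 ψ2) L f (f g) (z * gu2 ψ1 ψ2 g) := by
        refine ⟨g⁻¹, L.inv_mem hgL, H, hHL, hA, Or.inl (hf.map_inv hgL), ?_⟩
        rw [mul_assoc, gu2_mul_inv, mul_one]
        exact hz
      by_cases hB : ∃ h ∈ H', f h ≠ 0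
      · obtain ⟨c', hc', hcn'⟩ := hexp' f (hf.mono hHL') hB
        refine ⟨mon2 (z * gu2 ψ1 ψ2 g) (f g) + c', hzero.add (hc'.mono hHL'), fun n => ?_⟩
        rw [cf2_add]
        by_cases hn : n = f g
        · subst hn
          rw [cf2_mon2_same]
          obtain ⟨h, hh, N, hN, hN', hd, hq⟩ := hcn' (f g)
          rcases hd with hd | hd
          · have hk : g * h ∈ L := L.mul_mem hgL (hHL' hh)
            have hfk : f (g * h) = 0 := by
              rw [hf _ hgL _ (hHL' hh), hd]
              ring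
            have hkL : Subgroup.zpowers (g * h) ≤ L := by
              rw [Subgroup.zpowers_le]; exact hk
            refine ⟨h, hHL' hh, H ⊔ Subgroup.zpowers (g * h) ⊔ N,
              sup_le (sup_le hHL hkL) (hN.trans hHL'), ?_, Or.inl hd, ?_⟩
            · exact vanish_sup hf (sup_le hHL hkL) (hN.trans hHL')
                (vanish_sup hf hHL hkL hA (vanish_zpowers hf hk hfk)) hN'
            · have := hq.2 (g * h)
              rw [gu2_mul, ← mul_assoc, ← add_mul] at this
              exact this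
          · rw [hd, add_zero]
            exact htz
        · rw [cf2_mon2_ne _ hn, zero_add]
          exact ((hcn' n).imp fun _ _ h => h.1).mono hHL'
      · push Not at hB
        have hfg0 : f g ≠ 0 := by
          intro h0
          obtain ⟨x, hx, hx'⟩ := hf'
          apply hx'
          have hgle : Subgroup.zpowers g ≤ L := by
            rw [Subgroup.zpowers_le]; exact hgL
          rw [hL] at hx
          exact vanish_sup hf (sup_le hHL hgle) hHL'
            (vanish_sup hf hHL hgle hA (vanish_zpowers hf hgL h0)) hB x hx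
        refine ⟨mon2 (z * gu2 ψ1 ψ2 g) (f g) + mon2 z' 0,
          hzero.add (Gam2_const hHL' hB hKK'), fun n => ?_⟩
        rw [cf2_add]
        by_cases hn : n = f g
        · subst hn
          rw [cf2_mon2_same, cf2_mon2_ne _ hfg0, add_zero]
          exact htz
        · rw [cf2_mon2_ne _ hn, zero_add]
          by_cases hn0 : n = 0
          · subst hn0
            rw [cf2_mon2_same]
            refine ⟨1, L.one_mem, H', hHL', hB, Or.inl (by rw [hf.map_one, neg_zero]), ?_⟩
            rw [gu2_one, mul_one]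
            exact hz'
          · rw [cf2_mon2_ne _ hn0]
            exact HomP_zero L f n hf

end Pair

end Vale.Agent.P201
end
end

section

section

/-!
Good pairs are closed under multiplication and inversion, and are balanced.
-/

namespace Vale.Agent.P201

section Pair

variable {C E D1 D2 : Type*} [Group C] [DivisionRing E] [DivisionRing D1] [DivisionRing D2]
  {ψ1 : MonoidAlgebra E C →+* D1} {ψ2 : MonoidAlgebra E C →+* D2}

theorem cj_one (H : Subgroup C) : cj 1 H = H := by
  ext a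
  rw [mem_cj]
  simp

theorem HomP_add {L : Subgroup C} {f : C → ℤ} (hf : IsHomOn L f) {n : ℤ} {x y : D1 × D2}
    (hx : HomP ψ1 ψ2 (Good ψ1 ψ2) L f n x) (hy : HomP ψ1 ψ2 (Good ψ1 ψ2) L f n y) :
    HomP ψ1 ψ2 (Good ψ1 ψ2) L f n (x + y) := by
  obtain ⟨g, hg, N, hN, hN', hd, hq⟩ := id hx
  obtain ⟨g', hg', M, hM, hM', hd', hq'⟩ := id hy
  rcases hd with hd | hd
  swap
  · rw [hd, zero_add]; exact hy
  rcases hd' with hd' | hd'
  swap
  · rw [hd', add_zero]; exact hx
  have hk : g⁻¹ * g' ∈ L := L.mul_mem (L.inv_mem hg) hg'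
  have hfk : f (g⁻¹ * g') = 0 := by
    rw [hf _ (L.inv_mem hg) _ hg', hf.map_inv hg, hd, hd']
    ring
  have hkL : Subgroup.zpowers (g⁻¹ * g') ≤ L := by
    rw [Subgroup.zpowers_le]; exact hk
  refine ⟨g', hg', N ⊔ Subgroup.zpowers (g⁻¹ * g') ⊔ M, sup_le (sup_le hN hkL) hM, ?_,
    Or.inl hd', ?_⟩
  · exact vanish_sup hf (sup_le hN hkL) hM
      (vanish_sup hf hN hkL hN' (vanish_zpowers hf hk hfk)) hM'
  · have := hq.add_aux M _ hq' (g⁻¹ * g')
    have e1 : x * gu2 ψ1 ψ2 g * gu2 ψ1 ψ2 (g⁻¹ * g') = x * gu2 ψ1 ψ2 g' := by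
      rw [mul_assoc, ← gu2_mul, mul_inv_cancel_left]
    rw [e1, ← add_mul] at this
    exact this

theorem HomP_sum {L : Subgroup C} {f : C → ℤ} (hf : IsHomOn L f) {n : ℤ} {ι : Type*}
    (s : Finset ι) (x : ι → D1 × D2) (h : ∀ i ∈ s, HomP ψ1 ψ2 (Good ψ1 ψ2) L f n (x i)) :
    HomP ψ1 ψ2 (Good ψ1 ψ2) L f n (∑ i ∈ s, x i) := by
  classical
  induction s using Finset.induction_on with
  | empty => rw [Finset.sum_empty]; exact HomP_zero L f n hf
  | insert a s ha ih =>
    rw [Finset.sum_insert ha]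
    exact HomP_add hf (h a (by simp)) (ih fun i hi => h i (by simp [hi]))

theorem cf2_mul (c d : Lau D1 × Lau D2) {a b : ℤ} (hc : ∀ n < a, cf2 c n = 0)
    (hd : ∀ n < b, cf2 d n = 0) (n : ℤ) :
    cf2 (c * d) n = ∑ k ∈ Finset.Icc a (n - b), cf2 c k * cf2 d (n - k) := by
  refine Prod.ext ?_ ?_
  · rw [Prod.fst_sum]
    exact Lau.cf_mul (fun k hk => congrArg Prod.fst (hc k hk))
      (fun k hk => congrArg Prod.fst (hd k hk)) n
  · rw [Prod.snd_sum]
    exact Lau.cf_mul (fun k hk => congrArg Prod.snd (hc k hk))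
      (fun k hk => congrArg Prod.snd (hd k hk)) n

theorem cf2_bound (c : Lau D1 × Lau D2) : ∃ a : ℤ, ∀ n < a, cf2 c n = 0 := by
  obtain ⟨a, ha⟩ := Lau.exists_bound c.1
  obtain ⟨b, hb⟩ := Lau.exists_bound c.2
  exact ⟨min a b, fun n hn => Prod.ext (ha n (lt_of_lt_of_le hn (min_le_left _ _)))
    (hb n (lt_of_lt_of_le hn (min_le_right _ _)))⟩

theorem vanish_cj {L : Subgroup C} {f : C → ℤ} (hf : IsHomOn L f) {H : Subgroup C} (hH : H ≤ L)
    {u : C} (hu : u ∈ L) (h : ∀ a ∈ H, f a = 0) : ∀ a ∈ cj u H, f a = 0 := by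
  intro b hb
  obtain ⟨a, ha, rfl⟩ := mem_cj.1 hb
  rw [hf _ (L.mul_mem hu (hH ha)) _ (L.inv_mem hu), hf _ hu _ (hH ha), hf.map_inv hu, h a ha]
  ring

theorem Good.mul_aux {H : Subgroup C} {z : D1 × D2} (hz : Good ψ1 ψ2 H z) :
    ∀ (H' : Subgroup C) (z' : D1 × D2), Good ψ1 ψ2 H' z' → ∀ u : C,
      Good ψ1 ψ2 (H ⊔ cj u H') (z * cz ψ1 ψ2 u z') := by
  refine Good.induct (motive := fun H z => ∀ (H' : Subgroup C) (z' : D1 × D2),
    Good ψ1 ψ2 H' z' → ∀ u : C, Good ψ1 ψ2 (H ⊔ cj u H') (z * cz ψ1 ψ2 u z')) ?_ hz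
  intro H z hz hfg hKK hbot hexp H' z' hz'
  refine Good.induct (motive := fun H' z' => ∀ u : C,
      Good ψ1 ψ2 (H ⊔ cj u H') (z * cz ψ1 ψ2 u z')) ?_ hz'
  intro H' z' hz' hfg' hKK' hbot' hexp' u
  obtain ⟨L, hL⟩ : ∃ L, L = H ⊔ cj u H' := ⟨_, rfl⟩
  rw [← hL]
  have hHL : H ≤ L := by rw [hL]; exact le_sup_left
  have hHL' : cj u H' ≤ L := by rw [hL]; exact le_sup_right
  have hLfg : L.FG := by rw [hL]; exact hfg.sup (cj_fg hfg')
  refine Good.intro hLfg ((hKK.mono hHL).mul (hKK'.conj.mono hHL')) ?_ ?_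
  · intro h
    rw [h] at hHL hHL'
    obtain ⟨e, he⟩ := hbot (le_bot_iff.1 hHL)
    obtain ⟨e', he'⟩ := hbot' (cj_eq_bot (le_bot_iff.1 hHL'))
    refine ⟨e * e', ?_⟩
    rw [he, he', cz_sc2]
    unfold sc2
    refine Prod.ext ?_ ?_
    · change ψ1 _ * ψ1 _ = ψ1 _
      rw [← map_mul, MonoidAlgebra.single_mul_single, mul_one]
    · change ψ2 _ * ψ2 _ = ψ2 _
      rw [← map_mul, MonoidAlgebra.single_mul_single, mul_one]
  · intro f hf hf'
    by_cases hA : ∃ h ∈ H, f h ≠ 0
    · obtain ⟨c, hc, hcn⟩ := hexp f (hf.mono hHL) hA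
      obtain ⟨c', hc', hcn'⟩ := ((hz'.conj u).mono hHL' hLfg).out.2.2.2 f hf hf'
      refine ⟨c * c', (hc.mono hHL).mul hc', fun n => ?_⟩
      obtain ⟨a, ha⟩ := cf2_bound c
      obtain ⟨b, hb⟩ := cf2_bound c'
      rw [cf2_mul c c' ha hb]
      refine HomP_sum hf _ _ fun k _ => ?_
      obtain ⟨h, hh, N, hN, hN', hd, hq⟩ := hcn k
      obtain ⟨g', hg', N', hN'', hN''', hd', hq'⟩ := hcn' (n - k)
      rcases hd with hd | hd
      swap
      · rw [hd, zero_mul]; exact HomP_zero L f n hf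
      rcases hd' with hd' | hd'
      swap
      · rw [hd', mul_zero]; exact HomP_zero L f n hf
      have hhi : h⁻¹ ∈ L := L.inv_mem (hHL hh)
      refine ⟨g' * h, L.mul_mem hg' (hHL hh), N ⊔ cj h⁻¹ N',
        sup_le (hN.trans hHL) (cj_le hhi hN''), ?_, Or.inl ?_, ?_⟩
      · exact vanish_sup hf (hN.trans hHL) (cj_le hhi hN'') hN'
          (vanish_cj hf hN'' hhi hN''')
      · rw [hf _ hg' _ (hHL hh), hd, hd']
        ring
      · have := hq.2 _ _ hq' h⁻¹
        have e1 : cf2 c k * gu2 ψ1 ψ2 h * cz ψ1 ψ2 h⁻¹ (cf2 c' (n - k) * gu2 ψ1 ψ2 g') =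
            cf2 c k * cf2 c' (n - k) * gu2 ψ1 ψ2 (g' * h) := by
          unfold cz
          calc _ = cf2 c k * (gu2 ψ1 ψ2 h * gu2 ψ1 ψ2 h⁻¹) * cf2 c' (n - k) *
                (gu2 ψ1 ψ2 g' * gu2 ψ1 ψ2 h⁻¹⁻¹) := by simp only [mul_assoc]
            _ = _ := by rw [gu2_mul_inv, mul_one, inv_inv, gu2_mul]
        rw [e1] at this
        exact this
    · push Not at hA
      have hB : ∃ h ∈ H', f (u * h * u⁻¹) ≠ 0 := by
        by_contra hcon
        push Not at hcon
        obtain ⟨x, hx, hx'⟩ := hf'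
        apply hx'
        rw [hL] at hx
        refine vanish_sup hf hHL hHL' hA ?_ x hx
        intro b hb
        obtain ⟨a, ha, rfl⟩ := mem_cj.1 hb
        exact hcon a ha
      obtain ⟨c', hc', hcn'⟩ := hexp' (fun a => f (u * a * u⁻¹))
        (isHomOn_conj (hf.mono hHL')) hB
      refine ⟨mon2 z 0 * (mon2 (gu2 ψ1 ψ2 u) 0 * c' * mon2 (gu2 ψ1 ψ2 u⁻¹) 0),
        (Gam2_const hHL hA hKK).mul (hc'.conj.mono hHL'), fun n => ?_⟩
      rw [cf2_mon2_mul, sub_zero, cf2_conj]
      obtain ⟨h, hh, N, hN, hN', hd, hq⟩ := hcn' n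
      rcases hd with hd | hd
      swap
      · rw [hd, cz_zero, mul_zero]; exact HomP_zero L f n hf
      have hcjN : cj u N ≤ L := (cj_mono hN).trans hHL'
      refine ⟨u * h * u⁻¹, hHL' (mem_cj.2 ⟨h, hh, rfl⟩), H ⊔ cj u N, sup_le hHL hcjN, ?_,
        Or.inl hd, ?_⟩
      · refine vanish_sup hf hHL hcjN hA ?_
        intro b hb
        obtain ⟨a, ha, rfl⟩ := mem_cj.1 hb
        exact hN' a ha
      · have := hq.2 u
        rw [cz_mul, cz_gu2, ← mul_assoc] at this
        exact this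

theorem Good.mul {H H' : Subgroup C} {z z' : D1 × D2} (hz : Good ψ1 ψ2 H z)
    (hz' : Good ψ1 ψ2 H' z') : Good ψ1 ψ2 (H ⊔ H') (z * z') := by
  have := hz.mul_aux H' z' hz' 1
  rwa [cz_one, cj_one] at this

end Pair

section Scalar

variable {C E D : Type*} [Group C] [DivisionRing E] [DivisionRing D]
  (ψ : MonoidAlgebra E C →+* D)

theorem scalar_zero_iff (e : E) : ψ (MonoidAlgebra.single 1 e) = 0 ↔ e = 0 := by
  constructor
  · intro h
    by_contra he
    have h3 : ψ (MonoidAlgebra.single 1 e) * ψ (MonoidAlgebra.single 1 e⁻¹) = 1 := by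
      rw [← map_mul, MonoidAlgebra.single_mul_single, mul_one, mul_inv_cancel₀ he,
        ← MonoidAlgebra.one_def, map_one]
    rw [h, zero_mul] at h3
    exact zero_ne_one h3
  · rintro rfl
    rw [MonoidAlgebra.single_zero, map_zero]

end Scalar

section Bal

variable {C E D1 D2 : Type*} [Group C] [DivisionRing E] [DivisionRing D1] [DivisionRing D2]
  {ψ1 : MonoidAlgebra E C →+* D1} {ψ2 : MonoidAlgebra E C →+* D2}
  (h1 : HughesFree ψ1) (h2 : HughesFree ψ2)
  (hLI : ∀ H : Subgroup C, H.FG → H ≠ ⊥ → ∃ f : C → ℤ, IsHomOn H f ∧ ∃ h ∈ H, f h ≠ 0)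

theorem low_inv {D : Type*} [DivisionRing D] {x y : Lau D} (hxy : x * y = 1) {m : ℤ}
    (hm : Lau.cf x m ≠ 0) (hm' : ∀ n < m, Lau.cf x n = 0) : ∀ n < -m, Lau.cf y n = 0 := by
  have hy0 : y ≠ 0 := by
    rintro rfl
    rw [mul_zero] at hxy
    exact zero_ne_one hxy
  obtain ⟨k, hk, hk'⟩ := Lau.exists_low hy0
  intro n hn
  apply hk'
  refine lt_of_lt_of_le hn ?_
  by_contra hcon
  push Not at hcon
  have h1 := Lau.cf_mul hm' hk' (m + k)
  rw [hxy, Lau.one_eq, Lau.cf_mon, if_neg (by omega), add_sub_cancel_right, Finset.Icc_self,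
    Finset.sum_singleton, add_sub_cancel_left] at h1
  exact mul_ne_zero hm hk h1.symm

end Bal

end Vale.Agent.P201
end
end

section

section

/-!
The inductive predicate used for the uniqueness of free division rings of fractions, in the
presence of a family of subgroups for which uniqueness is already known.
-/

namespace Vale.Agent.P201

section Pair

variable {C E D1 D2 : Type*} [Group C] [DivisionRing E] [DivisionRing D1] [DivisionRing D2]
  (ψ1 : MonoidAlgebra E C →+* D1) (ψ2 : MonoidAlgebra E C →+* D2) (P : Subgroup C → Prop)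

/-- The diagonal rational closure of the group ring of a subgroup. -/
def DR (H : Subgroup C) (z : D1 × D2) : Prop :=
  RC {z | ∃ g ∈ H, ∃ e : E, z = (ψ1 (MonoidAlgebra.single g e), ψ2 (MonoidAlgebra.single g e))} z

variable {ψ1 ψ2}

theorem DR.mono {H L : Subgroup C} (h : H ≤ L) {z : D1 × D2} (hz : DR ψ1 ψ2 H z) :
    DR ψ1 ψ2 L z := by
  refine RC.mono ?_ hz
  rintro _ ⟨g, hg, e, rfl⟩
  exact ⟨g, h hg, e, rfl⟩

theorem DR_sc2 (H : Subgroup C) (e : E) : DR ψ1 ψ2 H (sc2 ψ1 ψ2 e) :=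
  RC.base ⟨1, H.one_mem, e, rfl⟩

theorem DR_gu2 {H : Subgroup C} {g : C} (hg : g ∈ H) : DR ψ1 ψ2 H (gu2 ψ1 ψ2 g) :=
  RC.base ⟨g, hg, 1, rfl⟩

variable (ψ1 ψ2)

/-- The good pairs. -/
inductive OGd : Subgroup C → D1 × D2 → Prop
  | mk (H : Subgroup C) (z : D1 × D2) (hfg : H.FG) (hz : KK2 ψ1 ψ2 H z)
      (hP : P H → DR ψ1 ψ2 H z)
      (c : (C → ℤ) → Lau D1 × Lau D2) (g : (C → ℤ) → ℤ → C) (N : (C → ℤ) → ℤ → Subgroup C)
      (hc : ∀ f, IsHomOn H f → (∃ h ∈ H, f h ≠ 0) → Gam2 ψ1 ψ2 H f z (c f))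
      (hg : ∀ f, IsHomOn H f → (∃ h ∈ H, f h ≠ 0) → ∀ n, g f n ∈ H)
      (hN : ∀ f, IsHomOn H f → (∃ h ∈ H, f h ≠ 0) → ∀ n, N f n ≤ H)
      (hN' : ∀ f, IsHomOn H f → (∃ h ∈ H, f h ≠ 0) → ∀ n, ∀ l ∈ N f n, f l = 0)
      (hd : ∀ f, IsHomOn H f → (∃ h ∈ H, f h ≠ 0) → ∀ n, f (g f n) = -n ∨ cf2 (c f) n = 0)
      (child : ∀ f, IsHomOn H f → (∃ h ∈ H, f h ≠ 0) → ∀ n,
        OGd (N f n) (cf2 (c f) n * gu2 ψ1 ψ2 (g f n))) : OGd H z

variable {ψ1 ψ2 P}

theorem OGd.intro {H : Subgroup C} {z : D1 × D2} (hfg : H.FG) (hz : KK2 ψ1 ψ2 H z)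
    (hP : P H → DR ψ1 ψ2 H z)
    (h : ∀ f, IsHomOn H f → (∃ h ∈ H, f h ≠ 0) → ∃ c, Gam2 ψ1 ψ2 H f z c ∧
      ∀ n, HomP ψ1 ψ2 (OGd ψ1 ψ2 P) H f n (cf2 c n)) : OGd ψ1 ψ2 P H z := by
  classical
  have h' : ∀ f, ∃ c : Lau D1 × Lau D2, IsHomOn H f → (∃ h ∈ H, f h ≠ 0) →
      Gam2 ψ1 ψ2 H f z c ∧ ∀ n, HomP ψ1 ψ2 (OGd ψ1 ψ2 P) H f n (cf2 c n) := by
    intro f
    by_cases h1 : IsHomOn H f ∧ (∃ h ∈ H, f h ≠ 0)
    · obtain ⟨c, hc⟩ := h f h1.1 h1.2
      exact ⟨c, fun _ _ => hc⟩
    · exact ⟨0, fun h2 h3 => absurd ⟨h2, h3⟩ h1⟩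
  choose c hc using h'
  have h'' : ∀ f n, ∃ g : C, ∃ N : Subgroup C, IsHomOn H f → (∃ h ∈ H, f h ≠ 0) →
      g ∈ H ∧ N ≤ H ∧ (∀ l ∈ N, f l = 0) ∧ (f g = -n ∨ cf2 (c f) n = 0) ∧
        OGd ψ1 ψ2 P N (cf2 (c f) n * gu2 ψ1 ψ2 g) := by
    intro f n
    by_cases h1 : IsHomOn H f ∧ (∃ h ∈ H, f h ≠ 0)
    · obtain ⟨g, hg, N, hN, hN', hd, hq⟩ := (hc f h1.1 h1.2).2 n
      exact ⟨g, N, fun _ _ => ⟨hg, hN, hN', hd, hq⟩⟩
    · exact ⟨1, ⊥, fun h2 h3 => absurd ⟨h2, h3⟩ h1⟩
  choose g N hgN using h''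
  exact OGd.mk H z hfg hz hP c g N (fun f h1 h2 => (hc f h1 h2).1)
    (fun f h1 h2 n => (hgN f n h1 h2).1) (fun f h1 h2 n => (hgN f n h1 h2).2.1)
    (fun f h1 h2 n => (hgN f n h1 h2).2.2.1) (fun f h1 h2 n => (hgN f n h1 h2).2.2.2.1)
    (fun f h1 h2 n => (hgN f n h1 h2).2.2.2.2)

/-- Induction principle for good pairs. -/
theorem OGd.induct {motive : Subgroup C → D1 × D2 → Prop}
    (step : ∀ (H : Subgroup C) (z : D1 × D2), OGd ψ1 ψ2 P H z → H.FG → KK2 ψ1 ψ2 H z →
      (P H → DR ψ1 ψ2 H z) →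
      (∀ f, IsHomOn H f → (∃ h ∈ H, f h ≠ 0) → ∃ c, Gam2 ψ1 ψ2 H f z c ∧
        ∀ n, HomP ψ1 ψ2 (fun N w => OGd ψ1 ψ2 P N w ∧ motive N w) H f n (cf2 c n)) → motive H z)
    {H : Subgroup C} {z : D1 × D2} (h : OGd ψ1 ψ2 P H z) : motive H z := by
  induction h with
  | mk H z hfg hz hP c g N hc hg hN hN' hd child ih =>
    refine step H z (OGd.mk H z hfg hz hP c g N hc hg hN hN' hd child) hfg hz hP ?_
    intro f h1 h2
    exact ⟨c f, hc f h1 h2, fun n => ⟨g f n, hg f h1 h2 n, N f n, hN f h1 h2 n, hN' f h1 h2 n,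
      hd f h1 h2 n, child f h1 h2 n, ih f h1 h2 n⟩⟩

theorem OGd.out {H : Subgroup C} {z : D1 × D2} (h : OGd ψ1 ψ2 P H z) :
    H.FG ∧ KK2 ψ1 ψ2 H z ∧ (P H → DR ψ1 ψ2 H z) ∧
    ∀ f, IsHomOn H f → (∃ h ∈ H, f h ≠ 0) → ∃ c, Gam2 ψ1 ψ2 H f z c ∧
      ∀ n, HomP ψ1 ψ2 (OGd ψ1 ψ2 P) H f n (cf2 c n) := by
  refine OGd.induct (motive := fun H z => H.FG ∧ KK2 ψ1 ψ2 H z ∧
    (P H → DR ψ1 ψ2 H z) ∧
    ∀ f, IsHomOn H f → (∃ h ∈ H, f h ≠ 0) → ∃ c, Gam2 ψ1 ψ2 H f z c ∧
      ∀ n, HomP ψ1 ψ2 (OGd ψ1 ψ2 P) H f n (cf2 c n)) ?_ h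
  intro H z _ h1 h2 h3 h4
  refine ⟨h1, h2, h3, fun f hf hf' => ?_⟩
  obtain ⟨c, hc, hn⟩ := h4 f hf hf'
  exact ⟨c, hc, fun n => (hn n).imp fun _ _ h => h.1⟩

theorem OGd.scalar (e : E) : OGd ψ1 ψ2 P ⊥ (sc2 ψ1 ψ2 e) := by
  refine OGd.intro Subgroup.FG.bot ⟨single_mem_KK ψ1 (Subgroup.one_mem _) e,
    single_mem_KK ψ2 (Subgroup.one_mem _) e⟩ (fun _ => DR_sc2 _ e) ?_
  intro f hf hf'
  obtain ⟨h, hh, hh'⟩ := hf'
  rw [Subgroup.mem_bot] at hh
  subst hh
  exact absurd hf.map_one hh'

theorem OGd.zero : OGd ψ1 ψ2 P ⊥ 0 := by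
  have h : sc2 ψ1 ψ2 (0 : E) = 0 := sc2_zero
  rw [← h]
  exact OGd.scalar 0

theorem OHomP_zero (H : Subgroup C) (f : C → ℤ) (n : ℤ) (hf : IsHomOn H f) :
    HomP ψ1 ψ2 (OGd ψ1 ψ2 P) H f n 0 := by
  refine ⟨1, H.one_mem, ⊥, bot_le, ?_, Or.inr rfl, ?_⟩
  · intro l hl
    rw [Subgroup.mem_bot] at hl
    subst hl
    exact hf.map_one
  · rw [zero_mul]
    exact OGd.zero

variable (hPm : ∀ H L : Subgroup C, H ≤ L → P L → P H)

include hPm in
/-- Enlarging the subgroup and translating by a group element. -/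
theorem OGd.trans {H L : Subgroup C} {z : D1 × D2} (hz : OGd ψ1 ψ2 P H z) (hHL : H ≤ L)
    (hL : L.FG) {g : C} (hg : g ∈ L) : OGd ψ1 ψ2 P L (z * gu2 ψ1 ψ2 g) := by
  obtain ⟨hfg, hKK, hP, hexp⟩ := hz.out
  refine OGd.intro hL ((hKK.mono hHL).mul (KK2_gu2 hg)) ?_ ?_
  · intro hPL
    exact RC.mul ((hP (hPm _ _ hHL hPL)).mono hHL) (DR_gu2 hg)
  · intro f hf hf'
    by_cases hH : ∃ h ∈ H, f h ≠ 0
    · obtain ⟨c, hc, hcn⟩ := hexp f (hf.mono hHL) hH
      refine ⟨c * mon2 (gu2 ψ1 ψ2 g) (f g), (hc.mono hHL).mul (Gam2_gu2 hg), fun n => ?_⟩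
      rw [cf2_mul_mon2]
      obtain ⟨h, hh, N, hN, hN', hd, hq⟩ := hcn (n - f g)
      rcases hd with hd | hd
      · refine ⟨g⁻¹ * h, L.mul_mem (L.inv_mem hg) (hHL hh), N, hN.trans hHL, hN', Or.inl ?_, ?_⟩
        · rw [hf _ (L.inv_mem hg) _ (hHL hh), hf.map_inv hg, hd]
          ring
        · rw [mul_assoc, ← gu2_mul, mul_inv_cancel_left]
          exact hq
      · rw [hd, zero_mul]
        exact OHomP_zero L f n hf
    · push Not at hH
      refine ⟨mon2 z 0 * mon2 (gu2 ψ1 ψ2 g) (f g),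
        (Gam2_const hHL hH hKK).mul (Gam2_gu2 hg), fun n => ?_⟩
      rw [mon2_mul_mon2, zero_add]
      by_cases hn : n = f g
      · subst hn
        rw [cf2_mon2_same]
        refine ⟨g⁻¹, L.inv_mem hg, H, hHL, hH, Or.inl (hf.map_inv hg), ?_⟩
        rw [mul_assoc, gu2_mul_inv, mul_one]
        exact hz
      · rw [cf2_mon2_ne _ hn]
        exact OHomP_zero L f n hf

include hPm in
theorem OGd.mono {H L : Subgroup C} {z : D1 × D2} (hz : OGd ψ1 ψ2 P H z) (hHL : H ≤ L)
    (hL : L.FG) : OGd ψ1 ψ2 P L z := by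
  have := hz.trans hPm hHL hL L.one_mem
  rwa [gu2_one, mul_one] at this

end Pair

end Vale.Agent.P201
end
end

section

section

/-!
Good pairs are closed under conjugation and addition (relative version).
-/

namespace Vale.Agent.P201

section Pair

variable {C E D1 D2 : Type*} [Group C] [DivisionRing E] [DivisionRing D1] [DivisionRing D2]
  {ψ1 : MonoidAlgebra E C →+* D1} {ψ2 : MonoidAlgebra E C →+* D2} {P : Subgroup C → Prop}

theorem cz_ring (u : C) : ∃ F : (D1 × D2) →+* (D1 × D2), ∀ z, F z = cz ψ1 ψ2 u z :=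
  ⟨{ toFun := cz ψ1 ψ2 u
     map_one' := by
       unfold cz
       rw [mul_one, gu2_mul_inv]
     map_mul' := cz_mul u
     map_zero' := cz_zero u
     map_add' := fun x y => by
       unfold cz
       rw [mul_add, add_mul] }, fun _ => rfl⟩

theorem cz_inv (u : C) (z : D1 × D2) : cz ψ1 ψ2 u z⁻¹ = (cz ψ1 ψ2 u z)⁻¹ := by
  refine Prod.ext ?_ ?_
  · change gu ψ1 u * z.1⁻¹ * gu ψ1 u⁻¹ = (gu ψ1 u * z.1 * gu ψ1 u⁻¹)⁻¹
    rw [mul_inv_rev, mul_inv_rev, gu_inv, inv_inv, mul_assoc]
  · change gu ψ2 u * z.2⁻¹ * gu ψ2 u⁻¹ = (gu ψ2 u * z.2 * gu ψ2 u⁻¹)⁻¹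
    rw [mul_inv_rev, mul_inv_rev, gu_inv, inv_inv, mul_assoc]

theorem DR.conj {H : Subgroup C} {u : C} {z : D1 × D2} (hz : DR ψ1 ψ2 H z) :
    DR ψ1 ψ2 (cj u H) (cz ψ1 ψ2 u z) := by
  obtain ⟨F, hF⟩ := cz_ring (ψ1 := ψ1) (ψ2 := ψ2) u
  rw [← hF]
  refine RC.map F (fun x => by rw [hF, hF, cz_inv]) ?_ hz
  rintro _ ⟨g, hg, e, rfl⟩
  refine ⟨u * g * u⁻¹, mem_cj.2 ⟨g, hg, rfl⟩, e, ?_⟩
  rw [hF]
  unfold cz gu2 gu
  refine Prod.ext ?_ ?_
  · change ψ1 _ * ψ1 _ * ψ1 _ = ψ1 _
    rw [← map_mul, ← map_mul, MonoidAlgebra.single_mul_single, MonoidAlgebra.single_mul_single,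
      one_mul, mul_one]
  · change ψ2 _ * ψ2 _ * ψ2 _ = ψ2 _
    rw [← map_mul, ← map_mul, MonoidAlgebra.single_mul_single, MonoidAlgebra.single_mul_single,
      one_mul, mul_one]

variable (hPm : ∀ H L : Subgroup C, H ≤ L → P L → P H)
  (hPc : ∀ (u : C) (H : Subgroup C), P (cj u H) → P H)

include hPc in
theorem OGd.conj {H : Subgroup C} {z : D1 × D2} (hz : OGd ψ1 ψ2 P H z) (u : C) :
    OGd ψ1 ψ2 P (cj u H) (cz ψ1 ψ2 u z) := by
  refine OGd.induct (motive := fun H z => OGd ψ1 ψ2 P (cj u H) (cz ψ1 ψ2 u z)) ?_ hz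
  intro H z _ hfg hKK hP hexp
  refine OGd.intro (cj_fg hfg) hKK.conj ?_ ?_
  · intro h
    exact (hP (hPc _ _ h)).conj
  · intro f hf hf'
    obtain ⟨c, hc, hcn⟩ := hexp (fun a => f (u * a * u⁻¹)) (isHomOn_conj hf) (by
      obtain ⟨h, hh, hh'⟩ := hf'
      obtain ⟨a, ha, rfl⟩ := mem_cj.1 hh
      exact ⟨a, ha, hh'⟩)
    refine ⟨_, hc.conj, fun n => ?_⟩
    rw [cf2_conj]
    obtain ⟨g, hg, N, hN, hN', hd, hq⟩ := hcn n
    refine ⟨u * g * u⁻¹, mem_cj.2 ⟨g, hg, rfl⟩, cj u N, cj_mono hN, ?_, ?_, ?_⟩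
    · intro l hl
      obtain ⟨a, ha, rfl⟩ := mem_cj.1 hl
      exact hN' a ha
    · rcases hd with hd | hd
      · exact Or.inl hd
      · right
        rw [hd, cz_zero]
    · rw [← cz_gu2, ← cz_mul]
      exact hq.2

include hPm in
/-- Closure under addition, with a translation built in. -/
theorem OGd.add_aux {H : Subgroup C} {z : D1 × D2} (hz : OGd ψ1 ψ2 P H z) :
    ∀ (H' : Subgroup C) (z' : D1 × D2), OGd ψ1 ψ2 P H' z' → ∀ g : C,
      OGd ψ1 ψ2 P (H ⊔ Subgroup.zpowers g ⊔ H') (z * gu2 ψ1 ψ2 g + z') := by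
  refine OGd.induct (motive := fun H z => ∀ (H' : Subgroup C) (z' : D1 × D2),
    OGd ψ1 ψ2 P H' z' → ∀ g : C,
      OGd ψ1 ψ2 P (H ⊔ Subgroup.zpowers g ⊔ H') (z * gu2 ψ1 ψ2 g + z')) ?_ hz
  intro H z hz hfg hKK hP hexp H' z' hz'
  refine OGd.induct (motive := fun H' z' => ∀ g : C,
      OGd ψ1 ψ2 P (H ⊔ Subgroup.zpowers g ⊔ H') (z * gu2 ψ1 ψ2 g + z')) ?_ hz'
  intro H' z' hz' hfg' hKK' hP' hexp' g
  obtain ⟨L, hL⟩ : ∃ L, L = H ⊔ Subgroup.zpowers g ⊔ H' := ⟨_, rfl⟩
  rw [← hL]
  have hHL : H ≤ L := by rw [hL]; exact le_sup_left.trans le_sup_left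
  have hHL' : H' ≤ L := by rw [hL]; exact le_sup_right
  have hgL : g ∈ L := by
    rw [hL]
    exact Subgroup.mem_sup_left (Subgroup.mem_sup_right (Subgroup.mem_zpowers g))
  have hLfg : L.FG := by rw [hL]; exact (hfg.sup (fg_zpowers g)).sup hfg'
  refine OGd.intro hLfg
    (((hKK.mono hHL).mul (KK2_gu2 hgL)).add (hKK'.mono hHL')) ?_ ?_
  · intro h
    exact RC.add (RC.mul ((hP (hPm _ _ hHL h)).mono hHL) (DR_gu2 hgL))
      ((hP' (hPm _ _ hHL' h)).mono hHL')
  · intro f hf hf'
    by_cases hA : ∃ h ∈ H, f h ≠ 0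
    · -- case A
      obtain ⟨c, hc, hcn⟩ := hexp f (hf.mono hHL) hA
      obtain ⟨c', hc', hcn'⟩ := (hz'.mono hPm hHL' hLfg).out.2.2.2 f hf hf'
      refine ⟨c * mon2 (gu2 ψ1 ψ2 g) (f g) + c',
        ((hc.mono hHL).mul (Gam2_gu2 hgL)).add hc', fun n => ?_⟩
      rw [cf2_add, cf2_mul_mon2]
      obtain ⟨h, hh, N, hN, hN', hd, hq⟩ := hcn (n - f g)
      rcases hd with hd | hd
      · obtain ⟨g', hg', N', hN'', hN''', hd', hq'⟩ := hcn' n
        rcases hd' with hd' | hd'
        · have hk : h⁻¹ * g * g' ∈ L :=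
            L.mul_mem (L.mul_mem (L.inv_mem (hHL hh)) hgL) hg'
          have hfk : f (h⁻¹ * g * g') = 0 := by
            rw [hf _ (L.mul_mem (L.inv_mem (hHL hh)) hgL) _ hg', hf _ (L.inv_mem (hHL hh)) _ hgL,
              hf.map_inv (hHL hh), hd, hd']
            ring
          have hkL : Subgroup.zpowers (h⁻¹ * g * g') ≤ L := by
            rw [Subgroup.zpowers_le]; exact hk
          refine ⟨g', hg', N ⊔ Subgroup.zpowers (h⁻¹ * g * g') ⊔ N',
            sup_le (sup_le (hN.trans hHL) hkL) hN'', ?_, Or.inl hd', ?_⟩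
          · refine vanish_sup hf (sup_le (hN.trans hHL) hkL) hN''
              (vanish_sup hf (hN.trans hHL) hkL hN' (vanish_zpowers hf hk hfk)) hN'''
          · have := hq.2 _ _ hq' (h⁻¹ * g * g')
            have e1 : cf2 c (n - f g) * gu2 ψ1 ψ2 h * gu2 ψ1 ψ2 (h⁻¹ * g * g') =
                cf2 c (n - f g) * gu2 ψ1 ψ2 g * gu2 ψ1 ψ2 g' := by
              rw [mul_assoc, ← gu2_mul, mul_assoc (cf2 c (n - f g)), ← gu2_mul]
              congr 2
              group
            rw [e1, ← add_mul] at this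
            exact this
        · refine ⟨g⁻¹ * h, L.mul_mem (L.inv_mem hgL) (hHL hh), N, hN.trans hHL, hN', Or.inl ?_, ?_⟩
          · rw [hf _ (L.inv_mem hgL) _ (hHL hh), hf.map_inv hgL, hd]
            ring
          · rw [hd', add_zero, mul_assoc, ← gu2_mul, mul_inv_cancel_left]
            exact hq.1
      · rw [hd, zero_mul, zero_add]
        exact hcn' n
    · push Not at hA
      have hzero : Gam2 ψ1 ψ2 L f (z * gu2 ψ1 ψ2 g) (mon2 (z * gu2 ψ1 ψ2 g) (f g)) := by
        have h1 := (Gam2_const hHL hA hKK).mul (Gam2_gu2 (ψ1 := ψ1) (ψ2 := ψ2) (f := f) hgL)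
        rwa [mon2_mul_mon2, zero_add] at h1
      have htz : HomP ψ1 ψ2 (OGd ψ1 ψ2 P) L f (f g) (z * gu2 ψ1 ψ2 g) := by
        refine ⟨g⁻¹, L.inv_mem hgL, H, hHL, hA, Or.inl (hf.map_inv hgL), ?_⟩
        rw [mul_assoc, gu2_mul_inv, mul_one]
        exact hz
      by_cases hB : ∃ h ∈ H', f h ≠ 0
      · obtain ⟨c', hc', hcn'⟩ := hexp' f (hf.mono hHL') hB
        refine ⟨mon2 (z * gu2 ψ1 ψ2 g) (f g) + c', hzero.add (hc'.mono hHL'), fun n => ?_⟩
        rw [cf2_add]
        by_cases hn : n = f g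
        · subst hn
          rw [cf2_mon2_same]
          obtain ⟨h, hh, N, hN, hN', hd, hq⟩ := hcn' (f g)
          rcases hd with hd | hd
          · have hk : g * h ∈ L := L.mul_mem hgL (hHL' hh)
            have hfk : f (g * h) = 0 := by
              rw [hf _ hgL _ (hHL' hh), hd]
              ring
            have hkL : Subgroup.zpowers (g * h) ≤ L := by
              rw [Subgroup.zpowers_le]; exact hk
            refine ⟨h, hHL' hh, H ⊔ Subgroup.zpowers (g * h) ⊔ N,
              sup_le (sup_le hHL hkL) (hN.trans hHL'), ?_, Or.inl hd, ?_⟩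
            · exact vanish_sup hf (sup_le hHL hkL) (hN.trans hHL')
                (vanish_sup hf hHL hkL hA (vanish_zpowers hf hk hfk)) hN'
            · have := hq.2 (g * h)
              rw [gu2_mul, ← mul_assoc, ← add_mul] at this
              exact this
          · rw [hd, add_zero]
            exact htz
        · rw [cf2_mon2_ne _ hn, zero_add]
          exact ((hcn' n).imp fun _ _ h => h.1).mono hHL'
      · push Not at hB
        have hfg0 : f g ≠ 0 := by
          intro h0
          obtain ⟨x, hx, hx'⟩ := hf'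
          apply hx'
          have hgle : Subgroup.zpowers g ≤ L := by
            rw [Subgroup.zpowers_le]; exact hgL
          rw [hL] at hx
          exact vanish_sup hf (sup_le hHL hgle) hHL'
            (vanish_sup hf hHL hgle hA (vanish_zpowers hf hgL h0)) hB x hx
        refine ⟨mon2 (z * gu2 ψ1 ψ2 g) (f g) + mon2 z' 0,
          hzero.add (Gam2_const hHL' hB hKK'), fun n => ?_⟩
        rw [cf2_add]
        by_cases hn : n = f g
        · subst hn
          rw [cf2_mon2_same, cf2_mon2_ne _ hfg0, add_zero]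
          exact htz
        · rw [cf2_mon2_ne _ hn, zero_add]
          by_cases hn0 : n = 0
          · subst hn0
            rw [cf2_mon2_same]
            refine ⟨1, L.one_mem, H', hHL', hB, Or.inl (by rw [hf.map_one, neg_zero]), ?_⟩
            rw [gu2_one, mul_one]
            exact hz'
          · rw [cf2_mon2_ne _ hn0]
            exact OHomP_zero L f n hf

include hPm in
theorem OGd.add {H H' : Subgroup C} {z z' : D1 × D2} (hz : OGd ψ1 ψ2 P H z)
    (hz' : OGd ψ1 ψ2 P H' z') : OGd ψ1 ψ2 P (H ⊔ H') (z + z') := by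
  have := hz.add_aux hPm H' z' hz' 1
  rwa [gu2_one, mul_one, Subgroup.zpowers_one_eq_bot, sup_bot_eq] at this

end Pair

end Vale.Agent.P201
end
end

section

section

/-!
Words over a family of letter sets, the module of normal forms and the action of each
factor ring on it.
-/

namespace Vale.Agent.P201

open Finsupp

section Words

variable {ι : Type*} {J : ι → Type*} (o : ∀ i, J i)

/-- A list of letters is a normal word if no letter is a unit letter and adjacent letters have
different indices. -/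
def IsWord (l : List (Σ i, J i)) : Prop :=
  (∀ x ∈ l, x.2 ≠ o x.1) ∧ l.IsChain (fun x y => x.1 ≠ y.1)

/-- Normal words. -/
abbrev Word : Type _ := {l : List (Σ i, J i) // IsWord o l}

/-- The list does not start with a letter of index `i`. -/
def NotStart (i : ι) (l : List (Σ i, J i)) : Prop := ∀ x ∈ l.head?, x.1 ≠ i

/-- Normal words that do not start with a letter of index `i`. -/
abbrev Tail (i : ι) : Type _ := {w : Word o // NotStart i w.1}

variable {o}

theorem isWord_nil : IsWord o [] := ⟨by simp, by simp⟩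

theorem isWord_cons {i : ι} {j : J i} {l : List (Σ i, J i)} :
    IsWord o (⟨i, j⟩ :: l) ↔ j ≠ o i ∧ NotStart i l ∧ IsWord o l := by
  unfold IsWord NotStart
  rw [List.isChain_cons]
  constructor
  · rintro ⟨h1, h2, h3⟩
    refine ⟨h1 ⟨i, j⟩ (by simp), fun x hx => ?_, fun x hx => h1 x (by simp [hx]), h3⟩
    exact (h2 x hx).symm
  · rintro ⟨h1, h2, h3, h4⟩
    refine ⟨?_, fun x hx => (h2 x hx).symm, h4⟩
    intro x hx
    rcases List.mem_cons.1 hx with rfl | hx
    · exact h1
    · exact h3 x hx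

theorem isWord_append {l l' : List (Σ i, J i)} :
    IsWord o (l ++ l') ↔ IsWord o l ∧ IsWord o l' ∧
      ∀ x ∈ l.getLast?, ∀ y ∈ l'.head?, x.1 ≠ y.1 := by
  unfold IsWord
  rw [List.isChain_append]
  constructor
  · rintro ⟨h1, h2, h3, h4⟩
    exact ⟨⟨fun x hx => h1 x (by simp [hx]), h2⟩, ⟨fun x hx => h1 x (by simp [hx]), h3⟩, h4⟩
  · rintro ⟨⟨h1, h2⟩, ⟨h3, h4⟩, h5⟩
    refine ⟨fun x hx => ?_, h2, h4, h5⟩
    rcases List.mem_append.1 hx with hx | hx
    · exact h1 x hx
    · exact h3 x hx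

variable (o) in
/-- The empty word. -/
def Word.nil : Word o := ⟨[], isWord_nil⟩

open Classical in
/-- Prepend a possibly trivial letter to a word. -/
noncomputable def consLetter (i : ι) (j : J i) (w : Tail o i) : Word o :=
  if h : j = o i then w.1 else ⟨⟨i, j⟩ :: w.1.1, isWord_cons.2 ⟨h, w.2, w.1.2⟩⟩

theorem consLetter_unit (i : ι) (w : Tail o i) : consLetter i (o i) w = w.1 := by
  simp [consLetter]

theorem consLetter_ne {i : ι} {j : J i} (h : j ≠ o i) (w : Tail o i) :
    (consLetter i j w).1 = ⟨i, j⟩ :: w.1.1 := by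
  simp [consLetter, h]

theorem consLetter_bijective (i : ι) :
    Function.Bijective (fun p : Tail o i × J i => consLetter i p.2 p.1) := by
  constructor
  · rintro ⟨w, j⟩ ⟨w', j'⟩ h
    simp only at h
    by_cases hj : j = o i <;> by_cases hj' : j' = o i
    · subst hj; subst hj'
      rw [consLetter_unit, consLetter_unit] at h
      rw [Subtype.ext h]
    · subst hj
      exfalso
      have h2 := congrArg Subtype.val h
      rw [consLetter_unit, consLetter_ne hj'] at h2
      exact w.2 ⟨i, j'⟩ (by rw [h2]; rfl) rfl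
    · subst hj'
      exfalso
      have h2 := congrArg Subtype.val h
      rw [consLetter_unit, consLetter_ne hj] at h2
      exact w'.2 ⟨i, j⟩ (by rw [← h2]; rfl) rfl
    · have h2 := congrArg Subtype.val h
      rw [consLetter_ne hj, consLetter_ne hj'] at h2
      injection h2 with h3 h4
      have h5 : w = w' := Subtype.ext (Subtype.ext h4)
      subst h5
      injection h3 with _ h6
      subst h6
      rfl
  · rintro ⟨l, hl⟩
    rcases l with _ | ⟨⟨k, j⟩, l⟩
    · exact ⟨(⟨⟨[], hl⟩, by simp [NotStart]⟩, o i), consLetter_unit i _⟩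
    · by_cases hk : k = i
      · subst hk
        have h := isWord_cons.1 hl
        refine ⟨(⟨⟨l, h.2.2⟩, h.2.1⟩, j), ?_⟩
        exact Subtype.ext (consLetter_ne h.1 _)
      · refine ⟨(⟨⟨⟨k, j⟩ :: l, hl⟩, ?_⟩, o i), consLetter_unit i _⟩
        intro x hx
        simp only [List.head?_cons, Option.mem_def, Option.some.injEq] at hx
        subst hx
        exact hk

variable (o) in
/-- Words correspond to pairs consisting of a letter (possibly trivial) with index `i` and a
word that does not start with a letter of index `i`. -/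
noncomputable def consEquiv (i : ι) : Tail o i × J i ≃ Word o :=
  Equiv.ofBijective _ (consLetter_bijective i)

@[simp] theorem consEquiv_apply (i : ι) (w : Tail o i) (j : J i) :
    consEquiv o i (w, j) = consLetter i j w := rfl

end Words

end Vale.Agent.P201
end
end

section

section

namespace Vale.Agent.P201

open Finsupp

section EndLemmas

variable {M : Type*} [AddCommGroup M]

theorem end_mul (f g : AddMonoid.End M) (v : M) : (f * g) v = f (g v) := rfl

theorem end_add (f g : AddMonoid.End M) (v : M) : (f + g) v = f v + g v := rfl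

theorem end_neg (f : AddMonoid.End M) (v : M) : (-f) v = -(f v) := rfl

theorem end_one (v : M) : (1 : AddMonoid.End M) v = v := rfl

theorem end_zero (v : M) : (0 : AddMonoid.End M) v = 0 := rfl

theorem end_ext {f g : AddMonoid.End M} (h : ∀ v, f v = g v) : f = g := DFunLike.ext _ _ h

end EndLemmas

section Act

variable {ι : Type*} {F : Type*} [DivisionRing F] {R : ι → Type*} [∀ i, Ring (R i)]
  [∀ i, Module F (R i)] {J : ι → Type*} (o : ∀ i, J i) (b : ∀ i, Module.Basis (J i) F (R i))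

/-- Grouping normal forms by the tail that remains after removing the letter of index `i`. -/
noncomputable def split (i : ι) : (Word o →₀ F) ≃ₗ[F] (Tail o i →₀ R i) :=
  (Finsupp.domLCongr (consEquiv o i).symm) ≪≫ₗ Finsupp.curryLinearEquiv F ≪≫ₗ
    Finsupp.mapRange.linearEquiv (b i).repr.symm

theorem split_single_cons (i : ι) (w : Tail o i) (j : J i) (c : F) :
    split o b i (single (consLetter i j w) c) = single w (c • b i j) := by
  have h : (consEquiv o i).symm (consLetter i j w) = (w, j) := by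
    rw [Equiv.symm_apply_eq]; rfl
  simp only [split, LinearEquiv.trans_apply, Finsupp.domLCongr_single, h,
    Finsupp.curryLinearEquiv_apply]
  ext t
  simp

theorem split_symm_single (i : ι) (w : Tail o i) (j : J i) (c : F) :
    (split o b i).symm (single w (c • b i j)) = single (consLetter i j w) c := by
  rw [LinearEquiv.symm_apply_eq, split_single_cons]

/-- The action of a factor ring on normal forms. -/
noncomputable def act (i : ι) : R i →+* AddMonoid.End (Word o →₀ F) where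
  toFun r :=
    { toFun := fun v => (split o b i).symm (r • split o b i v)
      map_zero' := by simp
      map_add' := by simp }
  map_one' := end_ext fun v => by
    change (split o b i).symm ((1 : R i) • split o b i v) = v
    simp
  map_zero' := end_ext fun v => by
    change (split o b i).symm ((0 : R i) • split o b i v) = 0
    simp
  map_mul' r s := end_ext fun v => by
    change (split o b i).symm ((r * s) • split o b i v) =
      (split o b i).symm (r • split o b i ((split o b i).symm (s • split o b i v)))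
    simp [mul_smul]
  map_add' r s := end_ext fun v => by
    change (split o b i).symm ((r + s) • split o b i v) =
      (split o b i).symm (r • split o b i v) + (split o b i).symm (s • split o b i v)
    simp [add_smul]

theorem act_apply (i : ι) (r : R i) (v : Word o →₀ F) :
    act o b i r v = (split o b i).symm (r • split o b i v) := rfl

/-- The action of the base division ring on normal forms. -/
noncomputable def actF : F →+* AddMonoid.End (Word o →₀ F) :=
  Module.toAddMonoidEnd F _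

@[simp] theorem actF_apply (a : F) (v : Word o →₀ F) : actF o a v = a • v := rfl

/-- The operator attached to a list of letters. -/
noncomputable def op (l : List (Σ i, J i)) : AddMonoid.End (Word o →₀ F) :=
  (l.map fun x => act o b x.1 (b x.1 x.2)).prod

@[simp] theorem op_nil : op o b [] = 1 := by simp [op]

theorem op_cons (i : ι) (j : J i) (l : List (Σ i, J i)) :
    op o b (⟨i, j⟩ :: l) = act o b i (b i j) * op o b l := by simp [op]

theorem op_append (l l' : List (Σ i, J i)) :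
    op o b (l ++ l') = op o b l * op o b l' := by simp [op]

/-- The operator given by a normal form. -/
noncomputable def Phi : (Word o →₀ F) →+ AddMonoid.End (Word o →₀ F) :=
  Finsupp.liftAddHom fun w => (AddMonoidHom.mulRight (op o b w.1)).comp (actF o).toAddMonoidHom

theorem Phi_single (w : Word o) (c : F) : Phi o b (single w c) = actF o c * op o b w.1 := by
  simp [Phi]

/-- The ring generated by all factor rings acting on normal forms. -/
noncomputable def Co : Subring (AddMonoid.End (Word o →₀ F)) :=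
  Subring.closure (⋃ i, Set.range (act o b i))

theorem act_mem (i : ι) (r : R i) : act o b i r ∈ Co o b :=
  Subring.subset_closure (Set.mem_iUnion.2 ⟨i, r, rfl⟩)

theorem op_mem (l : List (Σ i, J i)) : op o b l ∈ Co o b := by
  induction l with
  | nil => rw [op_nil]; exact one_mem _
  | cons x l ih =>
    obtain ⟨i, j⟩ := x
    rw [op_cons]
    exact mul_mem (act_mem o b i _) ih

variable [∀ i, IsScalarTower F (R i) (R i)]

theorem act_smul (i : ι) (a : F) (r : R i) :
    act o b i (a • r) = actF o a * act o b i r := by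
  refine end_ext fun v => ?_
  rw [act_apply, end_mul, actF_apply, act_apply, ← map_smul (split o b i).symm a]
  congr 1
  ext t
  simp

variable (hb : ∀ i, b i (o i) = 1)
include hb

omit [∀ i, IsScalarTower F (R i) (R i)] in
theorem act_single (i : ι) (r : R i) (w : Tail o i) :
    act o b i r (single w.1 1) = (split o b i).symm (single w r) := by
  rw [act_apply]
  conv_lhs => rw [← consLetter_unit i w]
  rw [split_single_cons, hb, one_smul, smul_single, smul_eq_mul, mul_one]

omit [∀ i, IsScalarTower F (R i) (R i)] in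
theorem op_single (l : List (Σ i, J i)) (z : Word o) (h : IsWord o (l ++ z.1)) :
    op o b l (single z 1) = single ⟨l ++ z.1, h⟩ 1 := by
  induction l with
  | nil => rw [op_nil]; rfl
  | cons x l ih =>
    obtain ⟨i, j⟩ := x
    have h' := isWord_cons.1 h
    rw [op_cons, end_mul, ih h'.2.2]
    have h2 := act_single o b hb i (b i j) ⟨⟨l ++ z.1, h'.2.2⟩, h'.2.1⟩
    simp only at h2
    rw [h2]
    have h3 := split_symm_single o b i ⟨⟨l ++ z.1, h'.2.2⟩, h'.2.1⟩ j 1
    rw [one_smul] at h3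
    rw [h3]
    congr 1
    exact Subtype.ext (consLetter_ne h'.1 _)

omit [∀ i, IsScalarTower F (R i) (R i)] in
theorem op_vac (w : Word o) : op o b w.1 (single (Word.nil o) 1) = single w 1 := by
  have h : IsWord o (w.1 ++ (Word.nil o).1) := by
    simpa [Word.nil] using w.2
  rw [op_single o b hb w.1 (Word.nil o) h]
  congr 1
  exact Subtype.ext (by simp [Word.nil])

theorem Phi_split_symm (i : ι) (w : Tail o i) (x : R i) :
    Phi o b ((split o b i).symm (single w x)) = act o b i x * op o b w.1.1 := by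
  have h : ∀ f : J i →₀ F, Phi o b ((split o b i).symm (single w ((b i).repr.symm f))) =
      act o b i ((b i).repr.symm f) * op o b w.1.1 := by
    intro f
    induction f using Finsupp.induction_linear with
    | zero => simp
    | add f g hf hg => rw [map_add, single_add, map_add, map_add, hf, hg, map_add, add_mul]
    | single j c =>
      rw [Module.Basis.repr_symm_single, split_symm_single, Phi_single, act_smul, mul_assoc]
      congr 1
      by_cases hj : j = o i
      · subst hj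
        rw [consLetter_unit, hb, map_one, one_mul]
      · rw [consLetter_ne hj, op_cons]
  have h2 := h ((b i).repr x)
  rwa [LinearEquiv.symm_apply_apply] at h2

theorem Phi_act (i : ι) (r : R i) (v : Word o →₀ F) :
    Phi o b (act o b i r v) = act o b i r * Phi o b v := by
  obtain ⟨u, rfl⟩ := (split o b i).symm.surjective v
  rw [act_apply, LinearEquiv.apply_symm_apply]
  induction u using Finsupp.induction_linear with
  | zero => simp
  | add f g hf hg => rw [smul_add, map_add, map_add, hf, hg, map_add, map_add, mul_add]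
  | single w x =>
    rw [smul_single, Phi_split_symm o b hb, Phi_split_symm o b hb, smul_eq_mul, map_mul,
      mul_assoc]

theorem Phi_mul {s : AddMonoid.End (Word o →₀ F)} (hs : s ∈ Co o b) (v : Word o →₀ F) :
    Phi o b (s v) = s * Phi o b v := by
  induction hs using Subring.closure_induction generalizing v with
  | mem x hx =>
    obtain ⟨i, r, rfl⟩ := Set.mem_iUnion.1 hx
    exact Phi_act o b hb i r v
  | zero => simp
  | one => simp
  | add x y _ _ hx hy => rw [end_add, map_add, hx, hy, add_mul]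
  | neg x _ hx =>
    rw [end_neg, map_neg, hx]
    exact end_ext fun _ => rfl
  | mul x y _ _ hx hy => rw [end_mul, hx, hy, mul_assoc]

/-- The vacuum vector. -/
noncomputable def vac : Word o →₀ F := single (Word.nil o) 1

omit hb [∀ i, IsScalarTower F (R i) (R i)] in
theorem Phi_vac : Phi o b (vac o) = 1 := by
  rw [vac, Phi_single]; simp [Word.nil]

theorem eq_Phi {s : AddMonoid.End (Word o →₀ F)} (hs : s ∈ Co o b) :
    s = Phi o b (s (vac o)) := by
  rw [Phi_mul o b hb hs, Phi_vac, mul_one]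

omit [∀ i, IsScalarTower F (R i) (R i)] in
theorem Phi_apply_vac (v : Word o →₀ F) : Phi o b v (vac o) = v := by
  induction v using Finsupp.induction_linear with
  | zero => simp
  | add f g hf hg => rw [map_add, end_add, hf, hg]
  | single w c =>
    rw [Phi_single, end_mul, vac, op_vac o b hb, actF_apply, smul_single,
      smul_eq_mul, mul_one]

omit hb in
theorem actF_mem [Nonempty ι] (a : F) : actF o a ∈ Co o b := by
  obtain ⟨i⟩ := ‹Nonempty ι›
  have h := act_smul o b i a 1
  rw [map_one, mul_one] at h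
  rw [← h]
  exact act_mem o b i _

end Act

end Vale.Agent.P201
end
end

section

section

namespace Vale.Agent.P201

open Finsupp

section Filt

variable {ι : Type*} {F : Type*} [DivisionRing F] {R : ι → Type*} [∀ i, Ring (R i)]
  [∀ i, Module F (R i)] {J : ι → Type*} (o : ∀ i, J i) (b : ∀ i, Module.Basis (J i) F (R i))

/-- Vectors supported on words satisfying `P`. -/
def Sup (P : Word o → Prop) : Submodule F (Word o →₀ F) where
  carrier := {v | ∀ w, ¬ P w → v w = 0}
  zero_mem' := fun w _ => rfl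
  add_mem' := fun {u v} hu hv w hw => by
    change u w + v w = 0
    rw [hu w hw, hv w hw, add_zero]
  smul_mem' := fun c v hv w hw => by
    change c * v w = 0
    rw [hv w hw, mul_zero]

variable {o}

theorem Sup_mono {P Q : Word o → Prop} (h : ∀ w, P w → Q w) {v : Word o →₀ F}
    (hv : v ∈ Sup o P) : v ∈ Sup o Q := fun w hw => hv w fun hp => hw (h w hp)

theorem single_mem_Sup {P : Word o → Prop} {w : Word o} (hw : P w) (c : F) :
    single w c ∈ Sup o P := by
  classical
  intro u hu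
  rw [Finsupp.single_apply, if_neg]
  rintro rfl
  exact hu hw

/-- An additive map sends `Sup P` into an additive subgroup as soon as it does so on singles. -/
theorem Sup_map {M : Type*} [AddCommGroup M] {P : Word o → Prop} (T : (Word o →₀ F) →+ M)
    (N : AddSubgroup M) (h : ∀ w, P w → ∀ c, T (single w c) ∈ N) {v : Word o →₀ F}
    (hv : v ∈ Sup o P) : T v ∈ N := by
  classical
  rw [← Finsupp.sum_single v, Finsupp.sum, map_sum]
  refine sum_mem fun w hw => h w ?_ _
  by_contra hP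
  exact (Finsupp.mem_support_iff.1 hw) (hv w hP)

variable (o) in
/-- words of length less than `n` -/
def LtP (n : ℕ) (w : Word o) : Prop := w.1.length < n

/-- the list ends with a letter of index `i` -/
def EndsIn (i : ι) (l : List (Σ i, J i)) : Prop := ∃ x ∈ l.getLast?, x.1 = i

variable (o) in
/-- words of length less than `n`, or of length `n` ending with a letter of index `i` -/
def EP (i : ι) (n : ℕ) (w : Word o) : Prop :=
  w.1.length < n ∨ (w.1.length = n ∧ EndsIn i w.1)

variable (o) in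
/-- words of length less than `n`, or of length `n` not ending with a letter of index `i` -/
def NP (i : ι) (n : ℕ) (w : Word o) : Prop :=
  w.1.length < n ∨ (w.1.length = n ∧ ¬ EndsIn i w.1)

theorem endsIn_cons {i : ι} {x : Σ i, J i} {l : List (Σ i, J i)} (h : l ≠ []) :
    EndsIn i (x :: l) ↔ EndsIn i l := by
  unfold EndsIn
  rw [List.getLast?_cons_of_ne_nil h]

theorem EndsIn.exists_eq {i : ι} {l : List (Σ i, J i)} (h : EndsIn i l) :
    ∃ (l' : List (Σ i, J i)) (j : J i), l = l' ++ [⟨i, j⟩] := by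
  obtain ⟨⟨k, j⟩, hx, rfl⟩ := h
  have hne : l ≠ [] := by
    rintro rfl
    simp at hx
  refine ⟨l.dropLast, j, ?_⟩
  conv_lhs => rw [← List.dropLast_append_getLast hne]
  rw [List.getLast?_eq_getLast_of_ne_nil hne] at hx
  simp only [Option.mem_def, Option.some.injEq] at hx
  rw [hx]

theorem exists_endsIn {l : List (Σ i, J i)} (h : l ≠ []) : ∃ i, EndsIn i l := by
  exact ⟨(l.getLast h).1, l.getLast h, by simp [List.getLast?_eq_getLast_of_ne_nil h], rfl⟩

theorem EndsIn.unique {i k : ι} {l : List (Σ i, J i)} (h : EndsIn i l) (h' : EndsIn k l) :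
    i = k := by
  obtain ⟨x, hx, rfl⟩ := h
  obtain ⟨y, hy, rfl⟩ := h'
  simp only [Option.mem_def] at hx hy
  rw [hx] at hy
  simp only [Option.some.injEq] at hy
  rw [hy]

theorem length_consLetter_le (i : ι) (j : J i) (w : Tail o i) :
    (consLetter i j w).1.length ≤ w.1.1.length + 1 := by
  by_cases hj : j = o i
  · subst hj
    rw [consLetter_unit]
    omega
  · rw [consLetter_ne hj]
    simp

theorem le_length_consLetter (i : ι) (j : J i) (w : Tail o i) :
    w.1.1.length ≤ (consLetter i j w).1.length := by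
  by_cases hj : j = o i
  · subst hj
    rw [consLetter_unit]
  · rw [consLetter_ne hj]
    simp

/-- coordinates of the splitting -/
theorem repr_split (i : ι) (v : Word o →₀ F) (w : Tail o i) (j : J i) :
    (b i).repr (split o b i v w) j = v (consLetter i j w) := by
  classical
  induction v using Finsupp.induction_linear with
  | zero => simp
  | add f g hf hg =>
    rw [map_add, Finsupp.add_apply, map_add, Finsupp.add_apply, hf, hg, Finsupp.add_apply]
  | single u c =>
    obtain ⟨⟨w', j'⟩, rfl⟩ := (consEquiv o i).surjective u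
    rw [consEquiv_apply, split_single_cons]
    by_cases hw : w = w'
    · subst hw
      rw [Finsupp.single_eq_same, map_smul, Finsupp.smul_apply, Module.Basis.repr_self,
        Finsupp.single_apply, Finsupp.single_apply]
      have : (consLetter i j' w = consLetter i j w) ↔ j' = j := by
        constructor
        · intro h
          have := consLetter_bijective (o := o) i |>.1 (a₁ := (w, j')) (a₂ := (w, j)) h
          exact (Prod.ext_iff.1 this).2
        · rintro rfl; rfl
      simp [this]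
    · rw [Finsupp.single_apply, if_neg (fun h => hw h.symm), Finsupp.single_apply, if_neg]
      · simp
      · intro h
        have := consLetter_bijective (o := o) i |>.1 (a₁ := (w', j')) (a₂ := (w, j)) h
        exact hw (Prod.ext_iff.1 this).1.symm

theorem split_eq_zero_iff (i : ι) (v : Word o →₀ F) (w : Tail o i) :
    split o b i v w = 0 ↔ ∀ j, v (consLetter i j w) = 0 := by
  constructor
  · intro h j
    rw [← repr_split b, h]
    simp
  · intro h
    apply (b i).repr.injective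
    ext j
    rw [repr_split, h]
    simp

theorem act_apply_consLetter (i : ι) (r : R i) (v : Word o →₀ F) (w : Tail o i) (j : J i) :
    act o b i r v (consLetter i j w) = (b i).repr (r * split o b i v w) j := by
  rw [← repr_split b, act_apply, LinearEquiv.apply_symm_apply]
  rfl

theorem act_Lt (i : ι) (r : R i) {n : ℕ} {v : Word o →₀ F} (hv : v ∈ Sup o (LtP o n)) :
    act o b i r v ∈ Sup o (LtP o (n + 1)) := by
  intro u hu
  obtain ⟨⟨w, j⟩, rfl⟩ := (consEquiv o i).surjective u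
  rw [consEquiv_apply] at hu ⊢
  rw [act_apply_consLetter]
  have h : split o b i v w = 0 := by
    rw [split_eq_zero_iff]
    intro j'
    apply hv
    have h1 := length_consLetter_le i j w
    have h2 := le_length_consLetter i j' w
    unfold LtP at hu ⊢
    omega
  rw [h]
  simp

theorem act_E (i k : ι) (r : R i) {n : ℕ} (hn : 1 ≤ n) {v : Word o →₀ F}
    (hv : v ∈ Sup o (EP o k n)) : act o b i r v ∈ Sup o (EP o k (n + 1)) := by
  intro u hu
  obtain ⟨⟨w, j⟩, rfl⟩ := (consEquiv o i).surjective u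
  rw [consEquiv_apply] at hu ⊢
  rw [act_apply_consLetter]
  have h : split o b i v w = 0 := by
    rw [split_eq_zero_iff]
    intro j'
    apply hv
    have h1 := length_consLetter_le i j w
    have h2 := le_length_consLetter i j' w
    unfold EP at hu ⊢
    push Not at hu ⊢
    have hw : n ≤ w.1.1.length := by
      rcases hu with ⟨hu1, hu2⟩
      omega
    refine ⟨by omega, fun h3 => ?_⟩
    have hw2 : w.1.1.length = n := by omega
    have hw3 : w.1.1 ≠ [] := by
      intro h4
      rw [h4] at hw2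
      simp at hw2
      omega
    -- the word `w` itself does not end in `k`
    have h5 : j' = o i := by
      by_contra h6
      rw [consLetter_ne h6] at h3
      simp at h3
      omega
    subst h5
    rw [consLetter_unit]
    intro h7
    by_cases hj : j = o i
    · subst hj
      rw [consLetter_unit] at hu
      omega
    · rw [consLetter_ne hj] at hu
      apply hu.2
      · simp [hw2]
      · rw [endsIn_cons hw3]
        exact h7
  rw [h]
  simp

theorem op_Lt (l : List (Σ i, J i)) {n : ℕ} {v : Word o →₀ F} (hv : v ∈ Sup o (LtP o n)) :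
    op o b l v ∈ Sup o (LtP o (n + l.length)) := by
  induction l with
  | nil => rw [op_nil]; exact hv
  | cons x l ih =>
    obtain ⟨i, j⟩ := x
    rw [op_cons, end_mul, List.length_cons, ← add_assoc]
    exact act_Lt b i _ ih

theorem op_E (k : ι) (l : List (Σ i, J i)) {n : ℕ} (hn : 1 ≤ n) {v : Word o →₀ F}
    (hv : v ∈ Sup o (EP o k n)) : op o b l v ∈ Sup o (EP o k (n + l.length)) := by
  induction l with
  | nil => rw [op_nil]; exact hv
  | cons x l ih =>
    obtain ⟨i, j⟩ := x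
    rw [op_cons, end_mul, List.length_cons, ← add_assoc]
    exact act_E b i k _ (by omega) ih

theorem E_mono {k : ι} {n m : ℕ} (h : n ≤ m) {v : Word o →₀ F}
    (hv : v ∈ Sup o (EP o k n)) : v ∈ Sup o (EP o k m) := by
  refine Sup_mono (fun w hw => ?_) hv
  unfold EP at hw ⊢
  rcases hw with hw | ⟨hw, hw'⟩
  · left; omega
  · rcases Nat.lt_or_ge w.1.length m with h1 | h1
    · left; exact h1
    · right; exact ⟨by omega, hw'⟩

theorem Lt_mono {n m : ℕ} (h : n ≤ m) {v : Word o →₀ F}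
    (hv : v ∈ Sup o (LtP o n)) : v ∈ Sup o (LtP o m) :=
  Sup_mono (fun _ hw => lt_of_lt_of_le hw h) hv

theorem Phi_Lt {n m : ℕ} {s v : Word o →₀ F} (hs : s ∈ Sup o (LtP o (n + 1)))
    (hv : v ∈ Sup o (LtP o m)) : Phi o b s v ∈ Sup o (LtP o (n + m)) := by
  refine Sup_map (M := Word o →₀ F)
    ((AddMonoidHom.eval v).comp (Phi o b)) (Sup o (LtP o (n + m))).toAddSubgroup ?_ hs
  intro w hw c
  change Phi o b (single w c) v ∈ Sup o (LtP o (n + m))
  rw [Phi_single, end_mul, actF_apply]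
  refine Submodule.smul_mem _ _ (Lt_mono ?_ (op_Lt b w.1 hv))
  unfold LtP at hw
  omega

end Filt

end Vale.Agent.P201
end
end

section

section

namespace Vale.Agent.P201

open Finsupp

section Top

variable {ι : Type*} {F : Type*} [DivisionRing F] {R : ι → Type*} [∀ i, Ring (R i)]
  [∀ i, Module F (R i)] {J : ι → Type*} {o : ∀ i, J i} (b : ∀ i, Module.Basis (J i) F (R i))
  (hb : ∀ i, b i (o i) = 1)

theorem vac_mem (a : F) : (single (Word.nil o) a : Word o →₀ F) ∈ Sup o (LtP o 1) :=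
  single_mem_Sup (by simp [LtP, Word.nil]) a

theorem split_symm_single_mem (i : ι) (w : Tail o i) (x : R i) {P : Word o → Prop}
    (h : ∀ j, P (consLetter i j w)) : (split o b i).symm (single w x) ∈ Sup o P := by
  intro u hu
  obtain ⟨⟨w', j⟩, rfl⟩ := (consEquiv o i).surjective u
  rw [consEquiv_apply] at hu ⊢
  rw [← repr_split b, LinearEquiv.apply_symm_apply]
  classical
  rw [Finsupp.single_apply, if_neg]
  · simp
  · rintro rfl
    exact hu (h j)

include hb in
/-- `r` applied to the vacuum is supported on words of length at most one ending in `i` -/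
theorem act_vac_E (i : ι) (r : R i) : act o b i r (vac o) ∈ Sup o (EP o i 1) := by
  have h := act_single o b hb i r ⟨Word.nil o, by simp [NotStart, Word.nil]⟩
  rw [vac, h]
  apply split_symm_single_mem
  intro j
  by_cases hj : j = o i
  · subst hj
    rw [consLetter_unit]
    left
    simp [Word.nil]
  · right
    rw [consLetter_ne hj]
    simp [Word.nil, EndsIn]

include hb in
theorem op_single_not_word {w f : Word o} (h : ¬ IsWord o (w.1 ++ f.1)) :
    op o b w.1 (single f 1) ∈ Sup o (LtP o (w.1.length + f.1.length)) := by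
  rw [isWord_append] at h
  push Not at h
  obtain ⟨x, hx, y, hy, hxy⟩ := h w.2 f.2
  obtain ⟨w', j, hw'⟩ := EndsIn.exists_eq (i := y.1) ⟨x, hx, hxy⟩
  obtain ⟨i, j'⟩ := y
  dsimp only at hw' j
  obtain ⟨f, hf⟩ := f
  rcases f with _ | ⟨z, f⟩
  · simp at hy
  simp only [List.head?_cons, Option.mem_def, Option.some.injEq] at hy
  subst hy
  have hf' := isWord_cons.1 hf
  rw [hw', op_append, end_mul, op_cons, op_nil, mul_one]
  have h1 : (single (⟨⟨i, j'⟩ :: f, hf⟩ : Word o) (1 : F)) =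
      (split o b i).symm (single ⟨⟨f, hf'.2.2⟩, hf'.2.1⟩ (b i j')) := by
    have := split_symm_single o b i ⟨⟨f, hf'.2.2⟩, hf'.2.1⟩ j' (1 : F)
    rw [one_smul] at this
    rw [this]
    congr 1
    exact (Subtype.ext (consLetter_ne hf'.1 _)).symm
  rw [h1, act_apply, LinearEquiv.apply_symm_apply, smul_single, smul_eq_mul]
  have h2 : (split o b i).symm (single ⟨⟨f, hf'.2.2⟩, hf'.2.1⟩ (b i j * b i j')) ∈
      Sup o (LtP o (f.length + 2)) := by
    apply split_symm_single_mem
    intro j''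
    have := length_consLetter_le i j'' (⟨⟨f, hf'.2.2⟩, hf'.2.1⟩ : Tail o i)
    unfold LtP
    simp only at this
    omega
  refine Lt_mono ?_ (op_Lt b w' h2)
  simp
  omega

open Classical in
include hb in
/-- Top coefficients of a product with a word. -/
theorem Phi_single_top {n : ℕ} {s : Word o →₀ F} (hs : s ∈ Sup o (LtP o (n + 1)))
    (f t : Word o) (ht : t.1.length = n + f.1.length) :
    Phi o b s (single f 1) t =
      if h : ∃ u : Word o, u.1 ++ f.1 = t.1 then s h.choose else 0 := by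
  have h1 : Phi o b s (single f 1) t =
      ∑ w ∈ s.support, s w * op o b w.1 (single f 1) t := by
    conv_lhs => rw [← Finsupp.sum_single s, Finsupp.sum, map_sum]
    have h2 : ∀ (A : Finset (Word o)),
        (∑ x ∈ A, Phi o b (single x (s x))) (single f 1) t =
        ∑ x ∈ A, s x * op o b x.1 (single f 1) t := by
      intro A
      induction A using Finset.induction_on with
      | empty => rfl
      | insert x A hx ih =>
        rw [Finset.sum_insert hx, Finset.sum_insert hx, end_add, Finsupp.add_apply, ih, Phi_single,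
          end_mul, actF_apply]
        rfl
    exact h2 _
  have h3 : ∀ w ∈ s.support, w.1 ++ f.1 ≠ t.1 → s w * op o b w.1 (single f 1) t = 0 := by
    intro w hw hne
    have hlen : w.1.length < n + 1 := by
      by_contra h
      exact Finsupp.mem_support_iff.1 hw (hs w h)
    by_cases h : IsWord o (w.1 ++ f.1)
    · rw [op_single o b hb w.1 f h, Finsupp.single_apply, if_neg, mul_zero]
      intro h4
      exact hne (congrArg Subtype.val h4)
    · rw [op_single_not_word b hb h t, mul_zero]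
      unfold LtP
      omega
  rw [h1]
  split_ifs with h
  · have hu := h.choose_spec
    set u := h.choose
    by_cases hus : u ∈ s.support
    · rw [Finset.sum_eq_single u]
      · have h5 : IsWord o (u.1 ++ f.1) := by rw [hu]; exact t.2
        rw [op_single o b hb u.1 f h5, Finsupp.single_apply, if_pos (Subtype.ext hu), mul_one]
      · intro w hw hwu
        apply h3 w hw
        intro h6
        rw [← hu] at h6
        exact hwu (Subtype.ext (List.append_cancel_right h6))
      · intro h7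
        exact absurd hus h7
    · rw [Finsupp.notMem_support_iff.1 hus]
      apply Finset.sum_eq_zero
      intro w hw
      apply h3 w hw
      intro h6
      rw [← hu] at h6
      have : w = u := Subtype.ext (List.append_cancel_right h6)
      rw [this] at hw
      exact hus hw
  · apply Finset.sum_eq_zero
    intro w hw
    apply h3 w hw
    intro h6
    exact h ⟨w, h6⟩

include hb in
theorem Phi_single_top_append {n : ℕ} {s : Word o →₀ F} (hs : s ∈ Sup o (LtP o (n + 1)))
    (u f : Word o) (h : IsWord o (u.1 ++ f.1)) (hu : u.1.length = n) :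
    Phi o b s (single f 1) ⟨u.1 ++ f.1, h⟩ = s u := by
  rw [Phi_single_top b hb hs f ⟨u.1 ++ f.1, h⟩ (by simp [hu])]
  have h1 : ∃ u' : Word o, u'.1 ++ f.1 = u.1 ++ f.1 := ⟨u, rfl⟩
  rw [dif_pos h1]
  congr 1
  exact Subtype.ext (List.append_cancel_right h1.choose_spec)

include hb in
theorem Phi_single_top_ne {n : ℕ} {s : Word o →₀ F} (hs : s ∈ Sup o (LtP o (n + 1)))
    (f t : Word o) (ht : t.1.length = n + f.1.length) (h : ∀ u : Word o, u.1 ++ f.1 ≠ t.1) :
    Phi o b s (single f 1) t = 0 := by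
  rw [Phi_single_top b hb hs f t ht, dif_neg]
  rintro ⟨u, hu⟩
  exact h u hu

end Top

end Vale.Agent.P201
end
end

section

section

namespace Vale.Agent.P201

open Finsupp

section Mult

variable {ι : Type*} {F : Type*} [DivisionRing F] {R : ι → Type*} [∀ i, Ring (R i)]
  [∀ i, Module F (R i)] {J : ι → Type*} {o : ∀ i, J i} (b : ∀ i, Module.Basis (J i) F (R i))
  (hb : ∀ i, b i (o i) = 1) [∀ i, IsScalarTower F (R i) (R i)] [Nonempty ι]

include hb

omit hb in
theorem Phi_mem (v : Word o →₀ F) : Phi o b v ∈ Co o b := by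
  induction v using Finsupp.induction_linear with
  | zero => rw [map_zero]; exact zero_mem _
  | add f g hf hg => rw [map_add]; exact add_mem hf hg
  | single w c =>
    rw [Phi_single]
    exact mul_mem (actF_mem o b c) (op_mem o b w.1)

theorem Phi_Phi (u v : Word o →₀ F) : Phi o b (Phi o b u v) = Phi o b u * Phi o b v :=
  Phi_mul o b hb (Phi_mem b u) v

omit [Nonempty ι] in
theorem Phi_act_vac (i : ι) (r : R i) : Phi o b (act o b i r (vac o)) = act o b i r :=
  (eq_Phi o b hb (act_mem o b i r)).symm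

theorem Phi_smul_vac (a : F) : Phi o b (a • vac o) = actF o a := by
  rw [← actF_apply]
  exact (eq_Phi o b hb (actF_mem o b a)).symm

theorem Phi_single_right (x : Word o →₀ F) (w : Word o) (a : F) :
    Phi o b x (single w a) = Phi o b (Phi o b x (a • vac o)) (single w 1) := by
  rw [Phi_Phi b hb, Phi_smul_vac b hb, end_mul, actF_apply, smul_single, smul_eq_mul, mul_one]

theorem Phi_act_right (x : Word o →₀ F) (i : ι) (r : R i) (v : Word o →₀ F) :
    Phi o b x (act o b i r v) = Phi o b (Phi o b x (act o b i r (vac o))) v := by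
  rw [Phi_Phi b hb, Phi_act_vac b hb, end_mul]

omit hb [∀ i, IsScalarTower F (R i) (R i)] [Nonempty ι] in
/-- right multiplication by scalars preserves the length filtration -/
theorem right_F_Lt {n : ℕ} {x : Word o →₀ F} (hx : x ∈ Sup o (LtP o n)) (a : F) :
    Phi o b x (a • vac o) ∈ Sup o (LtP o n) := by
  rcases n with _ | n
  · have : x = 0 := by
      ext w
      exact hx w (by simp [LtP])
    rw [this, map_zero]
    exact zero_mem _
  · have h := Phi_Lt b (n := n) (m := 1) hx (v := a • vac o)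
      (Submodule.smul_mem _ _ (vac_mem 1))
    exact h

omit [∀ i, IsScalarTower F (R i) (R i)] [Nonempty ι] in
theorem right_R_E {k : ι} {n : ℕ} {x : Word o →₀ F} (hx : x ∈ Sup o (EP o k n)) (r : R k) :
    Phi o b x (act o b k r (vac o)) ∈ Sup o (EP o k n) := by
  refine Sup_map (M := Word o →₀ F)
    ((AddMonoidHom.eval (act o b k r (vac o))).comp (Phi o b)) (Sup o (EP o k n)).toAddSubgroup
    ?_ hx
  intro w hw c
  change Phi o b (single w c) (act o b k r (vac o)) ∈ Sup o (EP o k n)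
  rw [Phi_single, end_mul, actF_apply]
  refine Submodule.smul_mem _ _ ?_
  rcases hw with hw | ⟨hw, hw'⟩
  · exact E_mono (by omega) (op_E b k w.1 le_rfl (act_vac_E b hb k r))
  · obtain ⟨w', j, hw''⟩ := hw'.exists_eq
    have h1 : act o b k (b k j) (act o b k r (vac o)) = act o b k (b k j * r) (vac o) := by
      rw [map_mul, end_mul]
    rw [hw'', op_append, end_mul, op_cons, op_nil, mul_one, h1]
    refine E_mono ?_ (op_E b k w' le_rfl (act_vac_E b hb k (b k j * r)))
    rw [hw''] at hw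
    simp at hw
    omega

omit hb [Nonempty ι] in
theorem smul_vac_eq (i : ι) (a : F) : a • vac o = act o b i (a • 1) (vac o) := by
  rw [act_smul, map_one, mul_one, actF_apply]

theorem right_F_E {k : ι} {n : ℕ} {x : Word o →₀ F} (hx : x ∈ Sup o (EP o k n)) (a : F) :
    Phi o b x (a • vac o) ∈ Sup o (EP o k n) := by
  rw [smul_vac_eq b k a]
  exact right_R_E b hb hx _

theorem right_F_N {i : ι} {n : ℕ} {x : Word o →₀ F} (hx : x ∈ Sup o (NP o i n)) (a : F) :
    Phi o b x (a • vac o) ∈ Sup o (NP o i n) := by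
  refine Sup_map (M := Word o →₀ F)
    ((AddMonoidHom.eval (a • vac o)).comp (Phi o b)) (Sup o (NP o i n)).toAddSubgroup
    ?_ hx
  intro w hw c
  change Phi o b (single w c) (a • vac o) ∈ Sup o (NP o i n)
  rcases hw with hw | ⟨hw, hw'⟩
  · have h1 : (single w c : Word o →₀ F) ∈ Sup o (LtP o n) := single_mem_Sup hw c
    exact Sup_mono (fun _ h => Or.inl h) (right_F_Lt b h1 a)
  · by_cases hnil : w.1 = []
    · have h1 : w = Word.nil o := Subtype.ext hnil
      subst h1
      have hn : n = 0 := by simpa [Word.nil] using hw.symm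
      subst hn
      rw [Phi_single, end_mul, actF_apply]
      change c • (op o b [] (a • vac o)) ∈ _
      rw [op_nil]
      refine Submodule.smul_mem _ _ (Submodule.smul_mem _ _ (single_mem_Sup ?_ 1))
      right
      exact ⟨hw, hw'⟩
    · obtain ⟨k, hk⟩ := exists_endsIn hnil
      have h1 : (single w c : Word o →₀ F) ∈ Sup o (EP o k n) :=
        single_mem_Sup (Or.inr ⟨hw, hk⟩) c
      refine Sup_mono (fun u hu => ?_) (right_F_E b hb h1 a)
      rcases hu with hu | ⟨hu, hu'⟩
      · exact Or.inl hu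
      · refine Or.inr ⟨hu, fun h => ?_⟩
        have : k = i := hu'.unique h
        subst this
        exact hw' hk

/-- A right linear functional separating a vector from the lower part of the filtration. -/
theorem exists_functional {n : ℕ} {s : Word o →₀ F} (hs : s ∉ Sup o (LtP o n)) :
    ∃ lam : (Word o →₀ F) →+ F, (∀ v a, lam (Phi o b v (a • vac o)) = lam v * a) ∧
      (∀ v ∈ Sup o (LtP o n), lam v = 0) ∧ lam s ≠ 0 := by
  let _ : Module Fᵐᵒᵖ (Word o →₀ F) :=
    { smul := fun a v => Phi o b v (a.unop • vac o)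
      one_smul := fun v => by
        change Phi o b v ((1 : F) • vac o) = v
        rw [one_smul, Phi_apply_vac o b hb]
      mul_smul := fun a c v => by
        change Phi o b v ((c.unop * a.unop) • vac o) =
          Phi o b (Phi o b v (c.unop • vac o)) (a.unop • vac o)
        rw [Phi_Phi b hb, Phi_smul_vac b hb, end_mul, actF_apply, mul_smul]
      smul_zero := fun a => by
        change Phi o b 0 (a.unop • vac o) = 0
        rw [map_zero]; rfl
      smul_add := fun a u v => by
        change Phi o b (u + v) (a.unop • vac o) =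
          Phi o b u (a.unop • vac o) + Phi o b v (a.unop • vac o)
        rw [map_add]; rfl
      add_smul := fun a c v => by
        change Phi o b v ((a.unop + c.unop) • vac o) =
          Phi o b v (a.unop • vac o) + Phi o b v (c.unop • vac o)
        rw [add_smul, map_add]
      zero_smul := fun v => by
        change Phi o b v ((0 : F) • vac o) = 0
        rw [zero_smul, map_zero] }
  let H : Submodule Fᵐᵒᵖ (Word o →₀ F) :=
    { carrier := {v | v ∈ Sup o (LtP o n)}
      zero_mem' := zero_mem (Sup o (LtP o n))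
      add_mem' := fun hu hv => (Sup o (LtP o n)).add_mem hu hv
      smul_mem' := fun a v hv => right_F_Lt b hv a.unop }
  have hsH : s ∉ H := hs
  obtain ⟨f, hf1, hf2⟩ := Submodule.exists_le_ker_of_notMem hsH
  refine ⟨(MulOpposite.opAddEquiv (α := F)).symm.toAddMonoidHom.comp f.toAddMonoidHom, ?_, ?_, ?_⟩
  · intro v a
    change (f (Phi o b v (a • vac o))).unop = (f v).unop * a
    have h : f (Phi o b v (a • vac o)) = (MulOpposite.op a) • f v :=
      f.map_smul (MulOpposite.op a) v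
    rw [h]
    rfl
  · intro v hv
    change (f v).unop = 0
    have : f v = 0 := hf2 hv
    rw [this]
    rfl
  · change (f s).unop ≠ 0
    simpa using hf1

end Mult

end Vale.Agent.P201
end
end

section

section

namespace Vale.Agent.P201

open Finsupp

section Dom

variable {ι : Type*} {F : Type*} [DivisionRing F] {R : ι → Type*} [∀ i, Ring (R i)]
  [∀ i, Module F (R i)] {J : ι → Type*} {o : ∀ i, J i} (b : ∀ i, Module.Basis (J i) F (R i))
  (hb : ∀ i, b i (o i) = 1) [∀ i, IsScalarTower F (R i) (R i)] [Nonempty ι]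

/-- `U ↦ ∑ U_j * b_j` -/
noncomputable def Psi (i : ι) : (J i →₀ (Word o →₀ F)) →+ (Word o →₀ F) :=
  Finsupp.liftAddHom fun j =>
    (AddMonoidHom.eval (act o b i (b i j) (vac o))).comp (Phi o b)

omit [∀ i, IsScalarTower F (R i) (R i)] [Nonempty ι] in
theorem Psi_single (i : ι) (j : J i) (u : Word o →₀ F) :
    Psi b i (single j u) = Phi o b u (act o b i (b i j) (vac o)) := by
  rw [Psi, Finsupp.liftAddHom_apply_single]
  rfl

/-- words of length `k` not ending with a letter of index `i` -/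
def TP (i : ι) (k : ℕ) (w : Word o) : Prop := w.1.length = k ∧ ¬ EndsIn i w.1

include hb

omit [∀ i, IsScalarTower F (R i) (R i)] [Nonempty ι] in
theorem act_basis_vac {i : ι} {j : J i} (hj : j ≠ o i) :
    act o b i (b i j) (vac o) =
      single (⟨[⟨i, j⟩], isWord_cons.2 ⟨hj, by simp [NotStart], isWord_nil⟩⟩ : Word o) 1 := by
  have h := op_vac o b hb ⟨[⟨i, j⟩], isWord_cons.2 ⟨hj, by simp [NotStart], isWord_nil⟩⟩
  rw [← h, op_cons, op_nil, mul_one]
  rfl

omit [∀ i, IsScalarTower F (R i) (R i)] [Nonempty ι] in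
theorem act_one_vac {i : ι} : act o b i (b i (o i)) (vac o) = vac o := by
  rw [hb, map_one, end_one]

omit [∀ i, IsScalarTower F (R i) (R i)] [Nonempty ι] in
theorem decomp {i : ι} {k : ℕ} {x : Word o →₀ F} (hx : x ∈ Sup o (EP o i (k + 1))) :
    ∃ U : J i →₀ (Word o →₀ F), (∀ j, U j ∈ Sup o (TP i k)) ∧
      ∃ x' ∈ Sup o (EP o i k), x = Psi b i U + x' := by
  classical
  let N : AddSubgroup (Word o →₀ F) :=
    { carrier := {x | ∃ U : J i →₀ (Word o →₀ F), (∀ j, U j ∈ Sup o (TP i k)) ∧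
        ∃ x' ∈ Sup o (EP o i k), x = Psi b i U + x'}
      zero_mem' := ⟨0, fun j => zero_mem _, 0, zero_mem _, by simp⟩
      add_mem' := by
        rintro x y ⟨U, hU, x', hx', rfl⟩ ⟨V, hV, y', hy', rfl⟩
        refine ⟨U + V, fun j => add_mem (hU j) (hV j), x' + y', add_mem hx' hy', ?_⟩
        rw [map_add]; abel
      neg_mem' := by
        rintro x ⟨U, hU, x', hx', rfl⟩
        refine ⟨-U, fun j => neg_mem (hU j), -x', neg_mem hx', ?_⟩
        have h1 : Psi b i (-U) = -Psi b i U := (Psi b i).map_neg U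
        rw [h1]; abel }
  refine Sup_map (AddMonoidHom.id _) N ?_ hx
  intro w hw c
  change ∃ U : J i →₀ (Word o →₀ F), (∀ j, U j ∈ Sup o (TP i k)) ∧
        ∃ x' ∈ Sup o (EP o i k), single w c = Psi b i U + x'
  have hlow : ∀ w : Word o, w.1.length < k + 1 →
      ∃ U : J i →₀ (Word o →₀ F), (∀ j, U j ∈ Sup o (TP i k)) ∧
        ∃ x' ∈ Sup o (EP o i k), single w c = Psi b i U + x' := by
    intro w hw
    by_cases h : TP i k w
    · refine ⟨single (o i) (single w c), fun j => ?_, 0, zero_mem _, ?_⟩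
      · rw [Finsupp.single_apply]
        split_ifs
        · exact single_mem_Sup h c
        · exact zero_mem _
      · rw [Psi_single, act_one_vac b hb, Phi_apply_vac o b hb, add_zero]
    · refine ⟨0, fun j => zero_mem _, single w c, single_mem_Sup ?_ c, by simp⟩
      unfold TP at h
      unfold EP
      push Not at h
      rcases Nat.lt_or_ge w.1.length k with h1 | h1
      · exact Or.inl h1
      · exact Or.inr ⟨by omega, h (by omega)⟩
  rcases hw with hw | ⟨hw, hw'⟩
  · exact hlow w hw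
  · obtain ⟨w', j, hw''⟩ := hw'.exists_eq
    have hword : IsWord o (w' ++ [⟨i, j⟩]) := by rw [← hw'']; exact w.2
    have hword' := isWord_append.1 hword
    have hj : j ≠ o i := (isWord_cons.1 hword'.2.1).1
    have hlen : w'.length = k := by
      rw [hw''] at hw
      simpa using hw
    refine ⟨single j (single ⟨w', hword'.1⟩ c), fun j' => ?_, 0, zero_mem _, ?_⟩
    · rw [Finsupp.single_apply]
      split_ifs
      · refine single_mem_Sup ⟨hlen, ?_⟩ c
        rintro ⟨x, hx, hxi⟩
        exact hword'.2.2 x hx ⟨i, j⟩ (by simp) hxi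
      · exact zero_mem _
    · rw [Psi_single, act_basis_vac b hb hj, add_zero, Phi_single, end_mul, actF_apply]
      have h := op_single o b hb w'
        ⟨[⟨i, j⟩], isWord_cons.2 ⟨hj, by simp [NotStart], isWord_nil⟩⟩ hword
      rw [h, smul_single, smul_eq_mul, mul_one]
      congr 1
      exact Subtype.ext hw''

omit [∀ i, IsScalarTower F (R i) (R i)] [Nonempty ι] in
theorem coeff_lemma {i : ι} {k : ℕ} (V : J i →₀ (Word o →₀ F))
    (hV : ∀ j, V j ∈ Sup o (NP o i k)) {x' : Word o →₀ F} (hx' : x' ∈ Sup o (LtP o (k + 1)))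
    (h : Psi b i V + x' ∈ Sup o (LtP o (k + 1))) {j' : J i} (hj' : j' ≠ o i) :
    V j' ∈ Sup o (LtP o k) := by
  classical
  intro w hw
  unfold LtP at hw
  push Not at hw
  have hVLt : ∀ j, V j ∈ Sup o (LtP o (k + 1)) := fun j =>
    Sup_mono (fun u hu => by
      rcases hu with hu | hu
      · unfold LtP; omega
      · unfold LtP; omega) (hV j)
  rcases Nat.lt_or_ge k w.1.length with h1 | h1
  · exact hVLt j' w (by unfold LtP; omega)
  have hlen : w.1.length = k := le_antisymm h1 hw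
  by_cases he : EndsIn i w.1
  · exact hV j' w (fun h => by
      rcases h with h | ⟨_, h⟩
      · omega
      · exact h he)
  have hword : IsWord o (w.1 ++ [⟨i, j'⟩]) := by
    refine isWord_append.2 ⟨w.2, isWord_cons.2 ⟨hj', by simp [NotStart], isWord_nil⟩, ?_⟩
    intro x hx y hy hxy
    simp only [List.head?_cons, Option.mem_def, Option.some.injEq] at hy
    subst hy
    exact he ⟨x, hx, hxy⟩
  have h2 := h ⟨w.1 ++ [⟨i, j'⟩], hword⟩ (by unfold LtP; simp [hlen])
  have h2' : x' ⟨w.1 ++ [⟨i, j'⟩], hword⟩ = 0 := hx' _ (by unfold LtP; simp [hlen])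
  rw [Finsupp.add_apply, h2', add_zero] at h2
  have h3 : Psi b i V ⟨w.1 ++ [⟨i, j'⟩], hword⟩ =
      ∑ j ∈ V.support, Phi o b (V j) (act o b i (b i j) (vac o)) ⟨w.1 ++ [⟨i, j'⟩], hword⟩ := by
    rw [Psi, Finsupp.liftAddHom_apply, Finsupp.sum, Finsupp.finsetSum_apply]
    rfl
  rw [h3] at h2
  by_cases hsup : j' ∈ V.support
  · rw [Finset.sum_eq_single j'] at h2
    · rw [act_basis_vac b hb hj'] at h2
      rwa [Phi_single_top_append b hb (hVLt j') w
        ⟨[⟨i, j'⟩], isWord_cons.2 ⟨hj', by simp [NotStart], isWord_nil⟩⟩ hword hlen] at h2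
    · intro j _ hjj'
      by_cases hj : j = o i
      · subst hj
        rw [act_one_vac b hb, Phi_apply_vac o b hb]
        exact hVLt _ _ (by unfold LtP; simp [hlen])
      · rw [act_basis_vac b hb hj]
        refine Phi_single_top_ne b hb (hVLt j) _ _ (by simp [hlen]) ?_
        intro u hu
        simp only at hu
        have h5 := congrArg List.getLast? hu
        simp at h5
        exact hjj' h5
    · intro h7
      exact absurd hsup h7
  · rw [Finsupp.notMem_support_iff.1 hsup]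
    rfl

omit hb [∀ i, IsScalarTower F (R i) (R i)] [Nonempty ι] in
/-- coefficients after right multiplication -/
noncomputable def VV (i : ι) (r : R i) :
    (J i →₀ (Word o →₀ F)) →+ (J i →₀ (Word o →₀ F)) :=
  Finsupp.liftAddHom fun j =>
    { toFun := fun u => ((b i).repr (b i j * r)).mapRange (fun g => Phi o b u (g • vac o))
        (by simp)
      map_zero' := by ext; simp [end_zero]
      map_add' := fun u v => by ext; simp [end_add] }

omit hb [∀ i, IsScalarTower F (R i) (R i)] [Nonempty ι] in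
theorem VV_single (i : ι) (r : R i) (j : J i) (u : Word o →₀ F) :
    VV b i r (single j u) = ((b i).repr (b i j * r)).mapRange
      (fun g => Phi o b u (g • vac o)) (by simp) := by
  rw [VV, Finsupp.liftAddHom_apply_single]
  rfl

theorem Psi_mapRange (i : ι) (u : Word o →₀ F) (f : J i →₀ F) :
    Psi b i (f.mapRange (fun g => Phi o b u (g • vac o)) (by simp)) =
      Phi o b u (act o b i ((b i).repr.symm f) (vac o)) := by
  induction f using Finsupp.induction_linear with
  | zero => simp [end_zero]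
  | add f g hf hg =>
    rw [Finsupp.mapRange_add (fun a c => by rw [add_smul, map_add]), map_add, hf, hg, map_add,
      map_add, end_add, map_add]
  | single j c =>
    rw [Finsupp.mapRange_single, Psi_single, Module.Basis.repr_symm_single, act_smul,
      end_mul, actF_apply, Phi_Phi b hb, Phi_smul_vac b hb, end_mul, actF_apply]

theorem Psi_VV (i : ι) (r : R i) (U : J i →₀ (Word o →₀ F)) :
    Psi b i (VV b i r U) = Phi o b (Psi b i U) (act o b i r (vac o)) := by
  induction U using Finsupp.induction_linear with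
  | zero => simp [end_zero]
  | add f g hf hg => rw [map_add, map_add, hf, hg, map_add, map_add, end_add]
  | single j u =>
    rw [VV_single, Psi_mapRange b hb, LinearEquiv.symm_apply_apply, Psi_single, Phi_Phi b hb,
      Phi_act_vac b hb, map_mul, end_mul, end_mul]

omit hb [Nonempty ι] in
theorem lam_VV {lam : (Word o →₀ F) →+ F}
    (hlam : ∀ v a, lam (Phi o b v (a • vac o)) = lam v * a)
    (i : ι) (r : R i) (U : J i →₀ (Word o →₀ F)) (j' : J i) :
    (b i).repr ((b i).repr.symm (U.mapRange lam (map_zero lam)) * r) j' =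
      lam (VV b i r U j') := by
  induction U using Finsupp.induction_linear with
  | zero => simp
  | add f g hf hg =>
    rw [Finsupp.mapRange_add (fun a c => map_add lam a c), map_add, add_mul, map_add,
      Finsupp.add_apply, hf, hg, map_add, Finsupp.add_apply, map_add]
  | single j u =>
    rw [VV_single, Finsupp.mapRange_apply, hlam, Finsupp.mapRange_single,
      Module.Basis.repr_symm_single, smul_mul_assoc, map_smul, Finsupp.smul_apply, smul_eq_mul]

theorem VV_NP (i : ι) (r : R i) {k : ℕ} (U : J i →₀ (Word o →₀ F))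
    (hU : ∀ j, U j ∈ Sup o (NP o i k)) (j' : J i) : VV b i r U j' ∈ Sup o (NP o i k) := by
  classical
  have h : VV b i r U = U.sum fun j u => VV b i r (single j u) := by
    conv_lhs => rw [← Finsupp.sum_single U, Finsupp.sum, map_sum]
    rfl
  rw [h, Finsupp.sum, Finsupp.finsetSum_apply]
  refine sum_mem fun j _ => ?_
  rw [VV_single, Finsupp.mapRange_apply]
  exact right_F_N b hb (hU j) _

theorem exists_p {i : ι} {k : ℕ} {x : Word o →₀ F} (hx : x ∈ Sup o (EP o i (k + 1)))
    (hx2 : x ∉ Sup o (LtP o (k + 1))) :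
    ∃ p : R i, p ≠ 0 ∧ ∀ r : R i, Phi o b x (act o b i r (vac o)) ∈ Sup o (LtP o (k + 1)) →
      ∃ a : F, p * r = a • (1 : R i) := by
  classical
  obtain ⟨U, hU, x', hx', rfl⟩ := decomp b hb hx
  have hx'Lt : ∀ y : Word o →₀ F, y ∈ Sup o (EP o i k) → y ∈ Sup o (LtP o (k + 1)) := fun y hy =>
    Sup_mono (fun w hw => by
      unfold LtP
      rcases hw with hw | hw <;> omega) hy
  have hUN : ∀ j, U j ∈ Sup o (NP o i k) := fun j => Sup_mono (fun w hw => Or.inr hw) (hU j)
  -- some coefficient is nonzero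
  obtain ⟨j0, hj0, hUj0⟩ : ∃ j, j ≠ o i ∧ U j ≠ 0 := by
    by_contra hcon
    push Not at hcon
    apply hx2
    have h1 : U = single (o i) (U (o i)) := by
      ext1 j
      rw [Finsupp.single_apply]
      split_ifs with h
      · rw [h]
      · exact hcon j (fun h2 => h h2.symm)
    rw [h1, Psi_single, act_one_vac b hb, Phi_apply_vac o b hb]
    refine add_mem (Sup_mono (fun w hw => ?_) (hU (o i))) (hx'Lt _ hx')
    unfold LtP
    rcases hw with ⟨hw, _⟩
    omega
  have hUj0' : U j0 ∉ Sup o (LtP o k) := by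
    intro h
    apply hUj0
    ext w
    by_cases hw : w.1.length < k
    · exact hU j0 w (fun h2 => by
        unfold TP at h2
        omega)
    · exact h w hw
  obtain ⟨lam, hlam1, hlam2, hlam3⟩ := exists_functional b hb hUj0'
  refine ⟨(b i).repr.symm (U.mapRange lam (map_zero lam)), ?_, ?_⟩
  · intro h
    apply hlam3
    have h2 := congrArg (fun z => (b i).repr z j0) h
    simpa using h2
  · intro r hr
    refine ⟨(b i).repr ((b i).repr.symm (U.mapRange lam (map_zero lam)) * r) (o i), ?_⟩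
    apply (b i).repr.injective
    ext j'
    rw [map_smul, Finsupp.smul_apply, smul_eq_mul]
    have h1 : (b i).repr (1 : R i) = single (o i) 1 := by
      rw [← hb i, Module.Basis.repr_self]
    rw [h1]
    by_cases hj' : j' = o i
    · subst hj'
      rw [Finsupp.single_eq_same, mul_one]
    · rw [Finsupp.single_apply, if_neg (fun h => hj' h.symm), mul_zero, lam_VV b hlam1]
      apply hlam2
      have h2 : Psi b i (VV b i r U) + Phi o b x' (act o b i r (vac o)) ∈
          Sup o (LtP o (k + 1)) := by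
        rw [Psi_VV b hb]
        rw [map_add, end_add] at hr
        exact hr
      refine coeff_lemma b hb (VV b i r U) (VV_NP b hb i r U hUN) ?_ h2 hj'
      exact hx'Lt _ (right_R_E b hb hx' r)

end Dom

end Vale.Agent.P201
end
end

section

section

namespace Vale.Agent.P201

open Finsupp

section Coprod

variable {ι : Type*} {F : Type*} [DivisionRing F] {R : ι → Type*} [∀ i, Ring (R i)]
  [∀ i, Module F (R i)] {J : ι → Type*} {o : ∀ i, J i} (b : ∀ i, Module.Basis (J i) F (R i))
  (hb : ∀ i, b i (o i) = 1) [∀ i, IsScalarTower F (R i) (R i)] [Nonempty ι]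

include hb

omit hb [∀ i, IsScalarTower F (R i) (R i)] [Nonempty ι] in
/-- expansion of a product along the right factor -/
theorem Phi_expand (x y : Word o →₀ F) (t : Word o) :
    Phi o b x y t = ∑ w ∈ y.support, Phi o b x (single w (y w)) t := by
  conv_lhs => rw [← Finsupp.sum_single y, Finsupp.sum, map_sum]
  rw [Finsupp.finsetSum_apply]

/-- Claim A: the top words of the right factor start with a letter of index `k` only if the left
factor ends in `k`. -/
theorem claimA {n m : ℕ} {x y : Word o →₀ F} (hx : x ∈ Sup o (LtP o (n + 1)))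
    (hy : y ∈ Sup o (LtP o (m + 1))) (hxy : Phi o b x y = 0) {f : Word o} (hf : f.1.length = m)
    (hyf : y f ≠ 0) {k : ι} (hk : ¬ NotStart k f.1) : x ∈ Sup o (EP o k n) := by
  have h1 : Phi o b x (y f • vac o) ∈ Sup o (EP o k n) := by
    intro u hu
    have hxf := right_F_Lt b hx (y f)
    by_cases hun : u.1.length < n + 1
    swap
    · exact hxf u hun
    have hlen : u.1.length = n := by
      unfold EP at hu
      push Not at hu
      omega
    have hend : ¬ EndsIn k u.1 := by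
      unfold EP at hu
      push Not at hu
      exact hu.2 hlen
    have hword : IsWord o (u.1 ++ f.1) := by
      refine isWord_append.2 ⟨u.2, f.2, ?_⟩
      intro a ha c hc hac
      apply hk
      intro c' hc'
      have : c = c' := by
        simp only [Option.mem_def] at hc hc'
        rw [hc] at hc'
        exact Option.some.inj hc'
      subst this
      rintro rfl
      exact hend ⟨a, ha, hac⟩
    have h2 : Phi o b x y ⟨u.1 ++ f.1, hword⟩ = 0 := by rw [hxy]; rfl
    rw [Phi_expand b] at h2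
    rw [Finset.sum_eq_single f] at h2
    · rw [Phi_single_right b hb, Phi_single_top_append b hb hxf u f hword hlen] at h2
      exact h2
    · intro w hw hwf
      have hwm : w.1.length ≤ m := by
        by_contra h
        exact Finsupp.mem_support_iff.1 hw (hy w (by unfold LtP; omega))
      rcases Nat.lt_or_ge w.1.length m with h3 | h3
      · have h4 : Phi o b x (single w (y w)) ∈ Sup o (LtP o (n + (w.1.length + 1))) :=
          Phi_Lt b hx (single_mem_Sup (by unfold LtP; omega) _)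
        refine h4 _ ?_
        unfold LtP
        simp only [List.length_append]
        omega
      · rw [Phi_single_right b hb]
        refine Phi_single_top_ne b hb (right_F_Lt b hx _) w _ (by simp; omega) ?_
        intro u' hu'
        apply hwf
        apply Subtype.ext
        simp only at hu'
        exact (List.append_inj_right' hu' (by omega))
    · intro h5
      exact absurd (Finsupp.mem_support_iff.2 hyf) h5
  have h6 := right_F_E b hb h1 (y f)⁻¹
  have h7 : Phi o b (Phi o b x (y f • vac o)) ((y f)⁻¹ • vac o) = x := by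
    rw [Phi_Phi b hb, end_mul, Phi_smul_vac b hb, actF_apply, smul_smul, mul_inv_cancel₀ hyf,
      one_smul, Phi_apply_vac o b hb]
  rwa [h7] at h6

theorem Phi_split_symm_right (x : Word o →₀ F) (i : ι) (z : Tail o i) (r : R i) :
    Phi o b x ((split o b i).symm (single z r)) =
      Phi o b (Phi o b x (act o b i r (vac o))) (single z.1 1) := by
  rw [← act_single o b hb, Phi_act_right b hb]

omit hb [∀ i, IsScalarTower F (R i) (R i)] [Nonempty ι] in
theorem Phi_expand_split (x y : Word o →₀ F) (i : ι) (t : Word o) :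
    Phi o b x y t = ∑ z ∈ (split o b i y).support,
      Phi o b x ((split o b i).symm (single z (split o b i y z))) t := by
  have h : y = ∑ z ∈ (split o b i y).support,
      (split o b i).symm (single z (split o b i y z)) := by
    rw [← map_sum, LinearEquiv.eq_symm_apply]
    exact (Finsupp.sum_single _).symm
  conv_lhs => rw [h]
  rw [map_sum, Finsupp.finsetSum_apply]

/-- Claim B. -/
theorem claimB {n m : ℕ} {x y : Word o →₀ F} {i : ι} (hx : x ∈ Sup o (EP o i n))
    (hy : ∀ z : Tail o i, split o b i y z ≠ 0 → z.1.1.length ≤ m) (hxy : Phi o b x y = 0)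
    {z : Tail o i} (hz : z.1.1.length = m) :
    Phi o b x (act o b i (split o b i y z) (vac o)) ∈ Sup o (LtP o n) := by
  have hX : ∀ r : R i, Phi o b x (act o b i r (vac o)) ∈ Sup o (EP o i n) :=
    fun r => right_R_E b hb hx r
  have hELt : ∀ v : Word o →₀ F, v ∈ Sup o (EP o i n) → v ∈ Sup o (LtP o (n + 1)) :=
    fun v hv => Sup_mono (fun w hw => by
      unfold LtP
      rcases hw with hw | hw <;> omega) hv
  intro u hu
  unfold LtP at hu
  by_cases hE : EP o i n u
  swap
  · exact hX _ u hE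
  have hlen : u.1.length = n := by
    rcases hE with h | h
    · exact absurd h hu
    · exact h.1
  have hend : EndsIn i u.1 := by
    rcases hE with h | h
    · exact absurd h hu
    · exact h.2
  have hword : IsWord o (u.1 ++ z.1.1) := by
    refine isWord_append.2 ⟨u.2, z.1.2, ?_⟩
    intro a ha c hc hac
    obtain ⟨a', ha', ha''⟩ := hend
    simp only [Option.mem_def] at ha ha'
    rw [ha] at ha'
    simp only [Option.some.injEq] at ha'
    subst ha'
    exact z.2 c hc (hac ▸ ha'')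
  have h2 : Phi o b x y ⟨u.1 ++ z.1.1, hword⟩ = 0 := by rw [hxy]; rfl
  by_cases hq : split o b i y z = 0
  · rw [hq, map_zero, end_zero, map_zero]
    rfl
  rw [Phi_expand_split b x y i, Finset.sum_eq_single z] at h2
  · rw [Phi_split_symm_right b hb, Phi_single_top_append b hb (hELt _ (hX _)) u z.1 hword hlen]
      at h2
    exact h2
  · intro z' hz' hzz'
    rw [Phi_split_symm_right b hb]
    have h3 := hy z' (Finsupp.mem_support_iff.1 hz')
    rcases Nat.lt_or_ge z'.1.1.length m with h4 | h4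
    · have h5 : Phi o b (Phi o b x (act o b i (split o b i y z') (vac o))) (single z'.1 1) ∈
          Sup o (LtP o (n + (z'.1.1.length + 1))) :=
        Phi_Lt b (hELt _ (hX _)) (single_mem_Sup (by unfold LtP; omega) _)
      refine h5 _ ?_
      unfold LtP
      simp only [List.length_append]
      omega
    · refine Phi_single_top_ne b hb (hELt _ (hX _)) z'.1 _ (by simp; omega) ?_
      intro u' hu'
      apply hzz'
      apply Subtype.ext
      apply Subtype.ext
      simp only at hu'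
      exact (List.append_inj_right' hu' (by omega))
  · intro h5
    exact absurd (Finsupp.mem_support_iff.2 hq) h5

omit hb [∀ i, IsScalarTower F (R i) (R i)] [Nonempty ι] in
theorem eq_zero_of_Lt_zero {x : Word o →₀ F} (hx : x ∈ Sup o (LtP o 0)) : x = 0 := by
  ext w
  exact hx w (by simp [LtP])

omit hb [∀ i, IsScalarTower F (R i) (R i)] [Nonempty ι] in
theorem eq_smul_vac {x : Word o →₀ F} (hx : x ∈ Sup o (LtP o 1)) :
    x = x (Word.nil o) • vac o := by
  classical
  ext w
  rw [Finsupp.smul_apply, vac, Finsupp.single_apply]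
  split_ifs with h
  · rw [h, smul_eq_mul, mul_one]
  · rw [smul_zero]
    apply hx
    unfold LtP
    intro h1
    apply h
    apply Subtype.ext
    have : w.1 = [] := List.length_eq_zero_iff.1 (by omega)
    rw [this]
    rfl

theorem Phi_dom_aux [∀ i, NoZeroDivisors (R i)] (N : ℕ) : ∀ (n m : ℕ), n + m ≤ N →
    ∀ x ∈ Sup o (LtP o n), ∀ y ∈ Sup o (LtP o m), Phi o b x y = 0 → x = 0 ∨ y = 0 := by
  induction N with
  | zero =>
    intro n m hnm x hx y _ _
    have hn : n = 0 := by omega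
    subst hn
    exact Or.inl (eq_zero_of_Lt_zero hx)
  | succ N ih =>
    intro n m hnm x hx y hy hxy
    rcases n with _ | n
    · exact Or.inl (eq_zero_of_Lt_zero hx)
    rcases m with _ | m
    · exact Or.inr (eq_zero_of_Lt_zero hy)
    by_cases hx1 : x ∈ Sup o (LtP o n)
    · exact ih n (m + 1) (by omega) x hx1 y hy hxy
    by_cases hy1 : y ∈ Sup o (LtP o m)
    · exact ih (n + 1) m (by omega) x hx y hy1 hxy
    rcases n with _ | n
    · right
      have h1 := eq_smul_vac hx
      have h2 : x (Word.nil o) ≠ 0 := by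
        intro h3
        rw [h3, zero_smul] at h1
        exact hx1 (by rw [h1]; exact zero_mem _)
      rw [h1, Phi_smul_vac b hb, actF_apply] at hxy
      exact (smul_eq_zero.1 hxy).resolve_left h2
    rcases m with _ | m
    · left
      have h1 := eq_smul_vac hy
      set c := y (Word.nil o)
      have h2 : c ≠ 0 := by
        intro h3
        rw [h3, zero_smul] at h1
        exact hy1 (by rw [h1]; exact zero_mem _)
      rw [h1] at hxy
      have h3 : Phi o b (Phi o b x (c • vac o)) (c⁻¹ • vac o) = x := by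
        rw [Phi_Phi b hb, end_mul, Phi_smul_vac b hb, actF_apply, smul_smul, mul_inv_cancel₀ h2,
          one_smul, Phi_apply_vac o b hb]
      rw [← h3, hxy, map_zero, end_zero]
    -- a top word of `y`
    obtain ⟨f, hf1, hf2⟩ : ∃ f : Word o, f.1.length = m + 1 ∧ y f ≠ 0 := by
      by_contra hcon
      push Not at hcon
      apply hy1
      intro w hw
      by_cases h : w.1.length < m + 1 + 1
      · unfold LtP at hw
        exact hcon w (by omega)
      · exact hy w h
    obtain ⟨u0, hu1, hu2⟩ : ∃ u : Word o, u.1.length = n + 1 ∧ x u ≠ 0 := by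
      by_contra hcon
      push Not at hcon
      apply hx1
      intro w hw
      by_cases h : w.1.length < n + 1 + 1
      · unfold LtP at hw
        exact hcon w (by omega)
      · exact hx w h
    obtain ⟨f, hfw⟩ := f
    rcases f with _ | ⟨⟨i, j⟩, z⟩
    · simp at hf1
    have hfw' := isWord_cons.1 hfw
    have hxE : x ∈ Sup o (EP o i (n + 1)) := by
      refine claimA b hb hx hy hxy hf1 hf2 ?_
      intro h
      exact h ⟨i, j⟩ (by simp) rfl
    have huniq : ∀ k, x ∈ Sup o (EP o k (n + 1)) → EndsIn k u0.1 := by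
      intro k hk
      by_contra h
      apply hu2
      apply hk
      unfold EP
      push Not
      exact ⟨by omega, fun _ => h⟩
    have hq : ∀ z : Tail o i, split o b i y z ≠ 0 → z.1.1.length ≤ m := by
      intro z hz
      by_contra hlen
      rw [Ne, split_eq_zero_iff] at hz
      push Not at hz
      obtain ⟨j, hj⟩ := hz
      have h1 := le_length_consLetter i j z
      have h2 : (consLetter i j z).1.length < m + 1 + 1 := by
        by_contra h
        exact hj (hy _ h)
      have hjo : j = o i := by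
        by_contra h
        rw [consLetter_ne h] at h2
        simp at h2
        omega
      subst hjo
      rw [consLetter_unit] at hj h2
      obtain ⟨⟨z, hzw⟩, hzt⟩ := z
      rcases z with _ | ⟨⟨k, j'⟩, z⟩
      · simp at hlen
      have h3 : x ∈ Sup o (EP o k (n + 1)) := by
        refine claimA b hb hx hy hxy (f := ⟨⟨k, j'⟩ :: z, hzw⟩) ?_ hj ?_
        · simp only at h2 hlen ⊢
          omega
        · intro h
          exact h ⟨k, j'⟩ (by simp) rfl
      have h4 : k = i := (huniq k h3).unique (huniq i hxE)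
      exact hzt ⟨k, j'⟩ (by simp) h4
    let z0 : Tail o i := ⟨⟨z, hfw'.2.2⟩, hfw'.2.1⟩
    have hz0 : z0.1.1.length = m := by simpa [z0] using hf1
    have hr0 : split o b i y z0 ≠ 0 := by
      rw [Ne, split_eq_zero_iff]
      push Not
      refine ⟨j, ?_⟩
      have : consLetter i j z0 = ⟨⟨i, j⟩ :: z, hfw⟩ := Subtype.ext (consLetter_ne hfw'.1 _)
      rw [this]
      exact hf2
    obtain ⟨p, hp, hp2⟩ := exists_p b hb hxE hx1
    have hB : ∀ z : Tail o i, z.1.1.length = m →
        ∃ a : F, p * split o b i y z = a • (1 : R i) := by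
      intro z hz
      exact hp2 _ (claimB b hb hxE hq hxy hz)
    obtain ⟨a, ha⟩ := hB z0 hz0
    have ha0 : a ≠ 0 := by
      rintro rfl
      rw [zero_smul] at ha
      rcases mul_eq_zero.1 ha with h | h
      · exact hp h
      · exact hr0 h
    set r0 := split o b i y z0
    have hpu : p * (r0 * (a⁻¹ • (1 : R i))) = 1 := by
      rw [← mul_assoc, ha, smul_mul_assoc, one_mul, smul_smul, mul_inv_cancel₀ ha0, one_smul]
    set u := r0 * (a⁻¹ • (1 : R i)) with hu
    have hup : u * p = 1 := by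
      have h1 : p * (u * p - 1) = 0 := by
        rw [mul_sub, ← mul_assoc, hpu, one_mul, mul_one, sub_self]
      exact sub_eq_zero.1 ((mul_eq_zero.1 h1).resolve_left hp)
    have hx'eq : Phi o b x (act o b i u (vac o)) =
        Phi o b (Phi o b x (act o b i r0 (vac o))) (a⁻¹ • vac o) := by
      rw [hu, map_mul, end_mul, act_smul, map_one, mul_one, actF_apply, Phi_act_right b hb]
    have hx' : Phi o b x (act o b i u (vac o)) ∈ Sup o (LtP o (n + 1)) := by
      rw [hx'eq]
      exact right_F_Lt b (claimB b hb hxE hq hxy hz0) _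
    have hy' : act o b i p y ∈ Sup o (LtP o (m + 1)) := by
      intro w hw
      obtain ⟨⟨z, j⟩, rfl⟩ := (consEquiv o i).surjective w
      rw [consEquiv_apply] at hw ⊢
      rw [act_apply_consLetter]
      unfold LtP at hw
      by_cases hz : split o b i y z = 0
      · rw [hz, mul_zero]
        simp
      · have h1 := hq z hz
        have hj : j ≠ o i := by
          rintro rfl
          rw [consLetter_unit] at hw
          omega
        rw [consLetter_ne hj] at hw
        simp at hw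
        obtain ⟨a', ha'⟩ := hB z (by omega)
        rw [ha', map_smul, Finsupp.smul_apply]
        have h1 : (b i).repr (1 : R i) = single (o i) 1 := by
          rw [← hb i, Module.Basis.repr_self]
        classical
        rw [h1, Finsupp.single_apply, if_neg (fun h => hj h.symm), smul_zero]
    have hcan : ∀ v : Word o →₀ F, act o b i u (act o b i p v) = v := by
      intro v
      rw [← end_mul, ← map_mul, hup, map_one, end_one]
    have hx'y' : Phi o b (Phi o b x (act o b i u (vac o))) (act o b i p y) = 0 := by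
      rw [← Phi_act_right b hb, hcan, hxy]
    rcases ih (n + 1) (m + 1) (by omega) _ hx' _ hy' hx'y' with h | h
    · left
      have h1 : Phi o b (Phi o b x (act o b i u (vac o))) (act o b i p (vac o)) = x := by
        rw [← Phi_act_right b hb, hcan, Phi_apply_vac o b hb]
      rw [← h1, h, map_zero, end_zero]
    · right
      rw [← hcan y, h, map_zero]

omit hb [∀ i, IsScalarTower F (R i) (R i)] [Nonempty ι] in
theorem exists_Lt (x : Word o →₀ F) : ∃ n, x ∈ Sup o (LtP o n) := by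
  refine ⟨(x.support.sup fun w => w.1.length) + 1, fun w hw => ?_⟩
  by_contra h
  apply hw
  unfold LtP
  have := Finset.le_sup (f := fun w : Word o => w.1.length) (Finsupp.mem_support_iff.2 h)
  omega

theorem Phi_dom [∀ i, NoZeroDivisors (R i)] {x y : Word o →₀ F} (hxy : Phi o b x y = 0) :
    x = 0 ∨ y = 0 := by
  obtain ⟨n, hn⟩ := exists_Lt x
  obtain ⟨m, hm⟩ := exists_Lt y
  exact Phi_dom_aux b hb (n + m) n m le_rfl x hn y hm hxy

/-- The coproduct of domains over a division ring is a domain. -/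
theorem Co_dom [∀ i, NoZeroDivisors (R i)] {s t : AddMonoid.End (Word o →₀ F)}
    (hs : s ∈ Co o b) (ht : t ∈ Co o b) (hst : s * t = 0) : s = 0 ∨ t = 0 := by
  have h1 : Phi o b (s (vac o)) (t (vac o)) = 0 := by
    rw [← eq_Phi o b hb hs, ← end_mul, hst, end_zero]
  rcases Phi_dom b hb h1 with h | h
  · left
    rw [eq_Phi o b hb hs, h, map_zero]
  · right
    rw [eq_Phi o b hb ht, h, map_zero]

end Coprod

end Vale.Agent.P201
end
end

section

section

/-!
The group ring of an amalgamated product embeds in a coproduct of rings.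
-/

namespace Vale.Agent.P201

open Finsupp Monoid Monoid.PushoutI

section Embed

variable {ι : Type*} [Nonempty ι] {A : ι → Type*} [∀ i, Group (A i)] {C : Type*} [Group C]
  {φ : ∀ i, C →* A i} (d : NormalWord.Transversal φ)
  {E : Type*} [DivisionRing E] {F : Type*} [DivisionRing F]
  {R : ι → Type*} [∀ i, Ring (R i)] [∀ i, Module F (R i)] [∀ i, IsScalarTower F (R i) (R i)]
  (χ : MonoidAlgebra E C →+* F) (θ : ∀ i, MonoidAlgebra E (A i) →+* R i)
  (hθ : ∀ i c e, θ i (MonoidAlgebra.single (φ i c) e) = χ (MonoidAlgebra.single c e) • 1)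
  {J : ι → Type*} (o : ∀ i, J i) (b : ∀ i, Module.Basis (J i) F (R i))
  (hb : ∀ i, b i (o i) = 1)
  (jm : ∀ i, A i → J i) (hj1 : ∀ i, jm i 1 = o i)
  (hjb : ∀ i, ∀ t ∈ d.set i, b i (jm i t) = θ i (MonoidAlgebra.single t 1))
  (hjinj : ∀ i, Set.InjOn (jm i) (d.set i))

section Coord

variable [DecidableEq ι] [∀ i, DecidableEq (A i)]

end Coord

end Embed

section Main

variable {ι : Type*} [Nonempty ι] {A : ι → Type*} [∀ i, Group (A i)] {C : Type*} [Group C]
  (φ : ∀ i, C →* A i) (hφ : ∀ i, Function.Injective (φ i))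
  {E : Type*} [DivisionRing E] {F : Type*} [DivisionRing F]
  {R : ι → Type*} [∀ i, Ring (R i)] [∀ i, NoZeroDivisors (R i)] [∀ i, Module F (R i)]
  [∀ i, IsScalarTower F (R i) (R i)]
  (χ : MonoidAlgebra E C →+* F) (hχ : Function.Injective χ)
  (θ : ∀ i, MonoidAlgebra E (A i) →+* R i)
  (hθ : ∀ i c e, θ i (MonoidAlgebra.single (φ i c) e) = χ (MonoidAlgebra.single c e) • 1)
  (hind : ∀ i (s : Finset (A i)), (∀ a ∈ s, ∀ b ∈ s, a * b⁻¹ ∈ (φ i).range → a = b) →
    ∀ d : A i → F, ∑ a ∈ s, d a • θ i (MonoidAlgebra.single a 1) = 0 → ∀ a ∈ s, d a = 0)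

end Main

end Vale.Agent.P201
end
end

section

section

/-!
A nontrivial finitely generated subgroup of a bi-ordered group has a nonzero homomorphism to `ℤ`.
-/

namespace Vale.Agent.P201

open Filter Topology

section Ord

variable {G : Type*} [Group G] [LinearOrder G] [MulLeftMono G] [MulRightMono G]

/-- `m` is the integer part of `x` with respect to `g`. -/
def IsA (g x : G) (m : ℤ) : Prop := g ^ m ≤ x ∧ x < g ^ (m + 1)

variable {g : G} (hg : 1 < g)

omit [MulRightMono G] in
include hg in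
theorem zpow_mono_strict : StrictMono fun n : ℤ => g ^ n := by
  refine strictMono_int_of_lt_succ fun n => ?_
  rw [zpow_add_one]
  exact lt_mul_of_one_lt_right' (g ^ n) hg

include hg in
theorem zpow_lt_iff {m n : ℤ} : g ^ m < g ^ n ↔ m < n := (zpow_mono_strict hg).lt_iff_lt

include hg in
theorem zpow_le_iff {m n : ℤ} : g ^ m ≤ g ^ n ↔ m ≤ n := (zpow_mono_strict hg).le_iff_le

include hg in
theorem IsA.mono {x y : G} (hxy : x ≤ y) {m n : ℤ} (hx : IsA g x m) (hy : IsA g y n) : m ≤ n := by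
  have h := (hx.1.trans hxy).trans_lt hy.2
  rw [zpow_lt_iff hg] at h
  omega

include hg in
theorem IsA.mul {x y : G} {m n l : ℤ} (hx : IsA g x m) (hy : IsA g y n) (hxy : IsA g (x * y) l) :
    m + n ≤ l ∧ l ≤ m + n + 1 := by
  constructor
  · have h : g ^ (m + n) < g ^ (l + 1) := by
      rw [zpow_add]
      exact (mul_le_mul' hx.1 hy.1).trans_lt hxy.2
    rw [zpow_lt_iff hg] at h
    omega
  · have h : g ^ l < g ^ (m + 1 + (n + 1)) := by
      rw [zpow_add g (m + 1)]
      exact hxy.1.trans_lt (mul_lt_mul_of_lt_of_lt hx.2 hy.2)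
    rw [zpow_lt_iff hg] at h
    omega

/-- the bounded elements -/
def Bd (g x : G) : Prop := ∃ m : ℕ, g ^ (-(m : ℤ)) ≤ x ∧ x ≤ g ^ (m : ℤ)

theorem Bd.mul {x y : G} (hx : Bd g x) (hy : Bd g y) : Bd g (x * y) := by
  obtain ⟨m, hm1, hm2⟩ := hx
  obtain ⟨n, hn1, hn2⟩ := hy
  refine ⟨m + n, ?_, ?_⟩
  · push_cast
    rw [neg_add, zpow_add]
    exact mul_le_mul' hm1 hn1
  · push_cast
    rw [zpow_add]
    exact mul_le_mul' hm2 hn2

omit [MulLeftMono G] [MulRightMono G] in
theorem Bd.one : Bd g (1 : G) := ⟨0, by simp, by simp⟩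

theorem Bd.inv {x : G} (hx : Bd g x) : Bd g x⁻¹ := by
  obtain ⟨m, hm1, hm2⟩ := hx
  refine ⟨m, ?_, ?_⟩
  · rw [zpow_neg]
    exact inv_le_inv_iff.2 hm2
  · rw [zpow_neg] at hm1
    exact inv_le_of_inv_le' hm1

theorem Bd.pow {x : G} (hx : Bd g x) (n : ℕ) : Bd g (x ^ n) := by
  induction n with
  | zero => rw [pow_zero]; exact Bd.one
  | succ n ih => rw [pow_succ]; exact ih.mul hx

include hg in
theorem Bd.exists_isA {x : G} (hx : Bd g x) : ∃ m, IsA g x m := by
  obtain ⟨m, hm1, hm2⟩ := hx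
  obtain ⟨k, hk1, hk2⟩ := Int.exists_greatest_of_bdd (P := fun k : ℤ => g ^ k ≤ x)
    ⟨m, fun k hk => by
      rw [← zpow_le_iff hg]
      exact hk.trans hm2⟩ ⟨-m, hm1⟩
  refine ⟨k, hk1, ?_⟩
  by_contra h
  push Not at h
  have := hk2 _ h
  omega

omit [MulLeftMono G] [MulRightMono G] in
open Classical in
variable (g) in
/-- the integer part -/
noncomputable def ia (x : G) : ℤ := if h : ∃ m, IsA g x m then h.choose else 0

include hg in
theorem ia_spec {x : G} (hx : Bd g x) : IsA g x (ia g x) := by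
  have h := hx.exists_isA hg
  rw [ia, dif_pos h]
  exact h.choose_spec

include hg in
theorem ia_mul {x y : G} (hx : Bd g x) (hy : Bd g y) :
    ia g x + ia g y ≤ ia g (x * y) ∧ ia g (x * y) ≤ ia g x + ia g y + 1 :=
  (ia_spec hg hx).mul hg (ia_spec hg hy) (ia_spec hg (hx.mul hy))

include hg in
theorem ia_mono {x y : G} (hx : Bd g x) (hy : Bd g y) (h : x ≤ y) : ia g x ≤ ia g y :=
  (ia_spec hg hx).mono hg h (ia_spec hg hy)

include hg in
theorem ia_zpow (n : ℤ) : ia g (g ^ n) = n := by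
  have hb : Bd g (g ^ n) := by
    refine ⟨n.natAbs, ?_, ?_⟩
    · rw [zpow_le_iff hg]; omega
    · rw [zpow_le_iff hg]; omega
  have h := ia_spec hg hb
  have h1 := (zpow_le_iff hg).1 h.1
  have h2 := (zpow_lt_iff hg).1 h.2
  omega

/-- comparison of powers -/
theorem pow_compare {x y : G} (h : y * x ≤ x * y) (n : ℕ) :
    y ^ n * x ^ n ≤ (x * y) ^ n ∧ (x * y) ^ n ≤ x ^ n * y ^ n := by
  have h1 : ∀ n : ℕ, y ^ n * x ≤ x * y ^ n := by
    intro n
    induction n with
    | zero => simp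
    | succ n ih =>
      calc y ^ (n + 1) * x = y * (y ^ n * x) := by rw [pow_succ']; simp only [mul_assoc]
        _ ≤ y * (x * y ^ n) := mul_le_mul_right ih y
        _ = (y * x) * y ^ n := by simp only [mul_assoc]
        _ ≤ (x * y) * y ^ n := mul_le_mul_left h _
        _ = x * y ^ (n + 1) := by rw [pow_succ']; simp only [mul_assoc]
  have h2 : ∀ n : ℕ, y * x ^ n ≤ x ^ n * y := by
    intro n
    induction n with
    | zero => simp
    | succ n ih =>
      calc y * x ^ (n + 1) = (y * x) * x ^ n := by rw [pow_succ']; simp only [mul_assoc]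
        _ ≤ (x * y) * x ^ n := mul_le_mul_left h _
        _ = x * (y * x ^ n) := by simp only [mul_assoc]
        _ ≤ x * (x ^ n * y) := mul_le_mul_right ih x
        _ = x ^ (n + 1) * y := by rw [pow_succ']; simp only [mul_assoc]
  induction n with
  | zero => simp
  | succ n ih =>
    constructor
    · calc y ^ (n + 1) * x ^ (n + 1) = y ^ (n + 1) * x * x ^ n := by
            rw [pow_succ' x]; simp only [mul_assoc]
        _ ≤ x * y ^ (n + 1) * x ^ n := mul_le_mul_left (h1 _) _
        _ = x * y * (y ^ n * x ^ n) := by rw [pow_succ' y]; simp only [mul_assoc]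
        _ ≤ x * y * (x * y) ^ n := mul_le_mul_right ih.1 _
        _ = (x * y) ^ (n + 1) := by rw [pow_succ']
    · calc (x * y) ^ (n + 1) = (x * y) ^ n * (x * y) := by rw [pow_succ]
        _ ≤ x ^ n * y ^ n * (x * y) := mul_le_mul_left ih.2 _
        _ = x ^ n * (y ^ n * x) * y := by simp only [mul_assoc]
        _ ≤ x ^ n * (x * y ^ n) * y := mul_le_mul_left (mul_le_mul_right (h1 n) _) _
        _ = x ^ (n + 1) * y ^ (n + 1) := by rw [pow_succ, pow_succ]; simp only [mul_assoc]

/-- comparison of powers -/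
theorem pow_compare' {x y : G} (h : x * y ≤ y * x) (n : ℕ) :
    x ^ n * y ^ n ≤ (x * y) ^ n ∧ (x * y) ^ n ≤ y ^ n * x ^ n := by
  have h1 : ∀ n : ℕ, x * y ^ n ≤ y ^ n * x := by
    intro n
    induction n with
    | zero => simp
    | succ n ih =>
      calc x * y ^ (n + 1) = (x * y) * y ^ n := by rw [pow_succ']; simp only [mul_assoc]
        _ ≤ (y * x) * y ^ n := mul_le_mul_left h _
        _ = y * (x * y ^ n) := by simp only [mul_assoc]
        _ ≤ y * (y ^ n * x) := mul_le_mul_right ih y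
        _ = y ^ (n + 1) * x := by rw [pow_succ']; simp only [mul_assoc]
  induction n with
  | zero => simp
  | succ n ih =>
    constructor
    · calc x ^ (n + 1) * y ^ (n + 1) = x ^ n * (x * y ^ n) * y := by
            rw [pow_succ, pow_succ]; simp only [mul_assoc]
        _ ≤ x ^ n * (y ^ n * x) * y := mul_le_mul_left (mul_le_mul_right (h1 n) _) _
        _ = x ^ n * y ^ n * (x * y) := by simp only [mul_assoc]
        _ ≤ (x * y) ^ n * (x * y) := mul_le_mul_left ih.1 _
        _ = (x * y) ^ (n + 1) := by rw [pow_succ]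
    · calc (x * y) ^ (n + 1) = x * y * (x * y) ^ n := by rw [pow_succ']
        _ ≤ x * y * (y ^ n * x ^ n) := mul_le_mul_right ih.2 _
        _ = x * y ^ (n + 1) * x ^ n := by rw [pow_succ' y]; simp only [mul_assoc]
        _ ≤ y ^ (n + 1) * x * x ^ n := mul_le_mul_left (h1 _) _
        _ = y ^ (n + 1) * x ^ (n + 1) := by rw [pow_succ' x]; simp only [mul_assoc]

include hg in
theorem ia_pow_mul {x y : G} (hx : Bd g x) (hy : Bd g y) (n : ℕ) :
    ia g (x ^ n) + ia g (y ^ n) ≤ ia g ((x * y) ^ n) ∧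
      ia g ((x * y) ^ n) ≤ ia g (x ^ n) + ia g (y ^ n) + 1 := by
  have hxy := (hx.mul hy).pow n
  have h1 := ia_mul hg (hx.pow n) (hy.pow n)
  have h2 := ia_mul hg (hy.pow n) (hx.pow n)
  rcases le_total (y * x) (x * y) with h | h
  · obtain ⟨h3, h4⟩ := pow_compare h n
    have h5 := ia_mono hg ((hy.pow n).mul (hx.pow n)) hxy h3
    have h6 := ia_mono hg hxy ((hx.pow n).mul (hy.pow n)) h4
    omega
  · obtain ⟨h3, h4⟩ := pow_compare' h n
    have h5 := ia_mono hg ((hx.pow n).mul (hy.pow n)) hxy h3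
    have h6 := ia_mono hg hxy ((hy.pow n).mul (hx.pow n)) h4
    omega

include hg in
theorem exists_tau {x : G} (hx : Bd g x) :
    ∃ L : ℝ, Tendsto (fun n : ℕ => (ia g (x ^ n) : ℝ) / n) atTop (𝓝 L) := by
  have hsub : Subadditive (fun n : ℕ => -(ia g (x ^ n) : ℝ)) := by
    intro m n
    have h := (ia_mul hg (hx.pow m) (hx.pow n)).1
    rw [← pow_add] at h
    have h' : (ia g (x ^ m) : ℝ) + ia g (x ^ n) ≤ ia g (x ^ (m + n)) := by exact_mod_cast h
    simp only
    linarith
  have hup : ∀ n : ℕ, ia g (x ^ n) ≤ n * (ia g x + 1) := by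
    intro n
    induction n with
    | zero =>
      have := ia_zpow hg 0
      rw [zpow_zero] at this
      rw [pow_zero, this]
      simp
    | succ n ih =>
      have h := (ia_mul hg (hx.pow n) hx).2
      rw [← pow_succ] at h
      push_cast
      nlinarith
  have hbdd : BddBelow (Set.range fun n : ℕ => -(ia g (x ^ n) : ℝ) / n) := by
    refine ⟨-((|ia g x| + 1 : ℤ) : ℝ), ?_⟩
    rintro _ ⟨n, rfl⟩
    simp only
    rcases Nat.eq_zero_or_pos n with hn | hn
    · subst hn
      simp only [Nat.cast_zero, div_zero]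
      have : (0 : ℝ) ≤ ((|ia g x| + 1 : ℤ) : ℝ) := by
        have : (0 : ℤ) ≤ |ia g x| + 1 := by positivity
        exact_mod_cast this
      linarith
    · have hn' : (0 : ℝ) < n := by exact_mod_cast hn
      rw [le_div_iff₀ hn']
      have h1 : ia g (x ^ n) ≤ n * (|ia g x| + 1) := by
        refine (hup n).trans ?_
        have : ia g x ≤ |ia g x| := le_abs_self _
        nlinarith
      have h2 : (ia g (x ^ n) : ℝ) ≤ n * ((|ia g x| + 1 : ℤ) : ℝ) := by exact_mod_cast h1
      linarith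
  have h := (hsub.tendsto_lim hbdd).neg
  refine ⟨-hsub.lim, ?_⟩
  refine h.congr fun n => ?_
  rw [neg_div, neg_neg]

variable (g) in
open Classical in
/-- the slope -/
noncomputable def tau (x : G) : ℝ :=
  if h : ∃ L : ℝ, Tendsto (fun n : ℕ => (ia g (x ^ n) : ℝ) / n) atTop (𝓝 L) then h.choose else 0

include hg in
theorem tau_spec {x : G} (hx : Bd g x) :
    Tendsto (fun n : ℕ => (ia g (x ^ n) : ℝ) / n) atTop (𝓝 (tau g x)) := by
  have h := exists_tau hg hx
  rw [tau, dif_pos h]
  exact h.choose_spec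

include hg in
theorem tau_mul {x y : G} (hx : Bd g x) (hy : Bd g y) : tau g (x * y) = tau g x + tau g y := by
  have h1 := tau_spec hg (hx.mul hy)
  have h2 := (tau_spec hg hx).add (tau_spec hg hy)
  have h3 : Tendsto (fun n : ℕ => (ia g (x ^ n) : ℝ) / n + (ia g (y ^ n) : ℝ) / n + 1 / n) atTop
      (𝓝 (tau g x + tau g y + 0)) := h2.add tendsto_one_div_atTop_nhds_zero_nat
  rw [add_zero] at h3
  refine tendsto_nhds_unique h1 (tendsto_of_tendsto_of_tendsto_of_le_of_le h2 h3 ?_ ?_)
  · intro n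
    have h := (ia_pow_mul hg hx hy n).1
    have h' : (ia g (x ^ n) : ℝ) + ia g (y ^ n) ≤ ia g ((x * y) ^ n) := by exact_mod_cast h
    simp only
    rw [← add_div]
    gcongr
  · intro n
    have h := (ia_pow_mul hg hx hy n).2
    have h' : (ia g ((x * y) ^ n) : ℝ) ≤ ia g (x ^ n) + ia g (y ^ n) + 1 := by exact_mod_cast h
    simp only
    rw [← add_div, ← add_div]
    gcongr

include hg in
theorem tau_self : tau g g = 1 := by
  have hb : Bd g g := ⟨1, by
    have := (zpow_le_iff hg (m := -((1 : ℕ) : ℤ)) (n := 1)).2 (by norm_num)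
    rwa [zpow_one] at this, by simp⟩
  refine tendsto_nhds_unique (tau_spec hg hb) ?_
  refine tendsto_const_nhds.congr' ?_
  filter_upwards [eventually_gt_atTop 0] with n hn
  have h := ia_zpow hg (n : ℤ)
  rw [zpow_natCast] at h
  rw [h]
  have hn' : (n : ℝ) ≠ 0 := by exact_mod_cast hn.ne'
  push_cast
  rw [div_self hn']

include hg in
theorem tau_one : tau g 1 = 0 := by
  have h := tau_mul hg (Bd.one (g := g)) Bd.one
  rw [mul_one] at h
  linarith

include hg in
theorem tau_inv {x : G} (hx : Bd g x) : tau g x⁻¹ = -tau g x := by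
  have h := tau_mul hg hx hx.inv
  rw [mul_inv_cancel, tau_one hg] at h
  linarith

theorem exists_hom_of_fg (H : Subgroup G) (hfg : H.FG) (hne : H ≠ ⊥) :
    ∃ f : G → ℤ, (∀ a ∈ H, ∀ b ∈ H, f (a * b) = f a + f b) ∧ ∃ h ∈ H, f h ≠ 0 := by
  classical
  obtain ⟨S, hS⟩ := hfg
  -- the largest absolute value of a generator
  obtain ⟨g, hgH, hg1, hgS⟩ : ∃ g ∈ H, 1 < g ∧ ∀ s ∈ S, g⁻¹ ≤ s ∧ s ≤ g := by
    have hSne : ∃ s ∈ S, s ≠ 1 := by
      by_contra hcon
      push Not at hcon
      apply hne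
      rw [← hS, Subgroup.closure_eq_bot_iff]
      intro s hs
      exact hcon s hs
    obtain ⟨s0, hs0, hs01⟩ := hSne
    obtain ⟨s1, hs1, hmax⟩ := Finset.exists_max_image S (fun s => max s s⁻¹) ⟨s0, hs0⟩
    have hmem : max s1 s1⁻¹ ∈ H := by
      have h1 : s1 ∈ H := by rw [← hS]; exact Subgroup.subset_closure hs1
      rcases max_choice s1 s1⁻¹ with h | h
      · rw [h]; exact h1
      · rw [h]; exact H.inv_mem h1
    refine ⟨max s1 s1⁻¹, hmem, ?_, ?_⟩
    · refine lt_of_lt_of_le ?_ (hmax s0 hs0)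
      rcases lt_or_gt_of_ne hs01 with h | h
      · exact lt_max_of_lt_right (one_lt_inv'.2 h)
      · exact lt_max_of_lt_left h
    · intro s hs
      have h := hmax s hs
      constructor
      · have h1 : s⁻¹ ≤ max s1 s1⁻¹ := (le_max_right _ _).trans h
        exact inv_le_of_inv_le' h1
      · exact (le_max_left _ _).trans h
  have hB : ∀ x ∈ H, Bd g x := by
    intro x hx
    rw [← hS] at hx
    induction hx using Subgroup.closure_induction with
    | mem x hx =>
      refine ⟨1, ?_, ?_⟩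
      · simpa using (hgS x hx).1
      · simpa using (hgS x hx).2
    | one => exact Bd.one
    | mul x y _ _ hx hy => exact hx.mul hy
    | inv x _ hx => exact hx.inv
  let W : Submodule ℤ ℝ := Submodule.span ℤ ((S.image (tau g) : Finset ℝ) : Set ℝ)
  have hW : ∀ x ∈ H, tau g x ∈ W := by
    intro x hx
    have hx' := hx
    rw [← hS] at hx'
    induction hx' using Subgroup.closure_induction with
    | mem x hxS => exact Submodule.subset_span (by
        rw [Finset.coe_image]
        exact ⟨x, hxS, rfl⟩)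
    | one => rw [tau_one hg1]; exact zero_mem _
    | mul x y hx1 hy1 hx2 hy2 =>
      rw [hS] at hx1 hy1
      rw [tau_mul hg1 (hB x hx1) (hB y hy1)]
      exact add_mem (hx2 hx1) (hy2 hy1)
    | inv x hx1 hx2 =>
      rw [hS] at hx1
      rw [tau_inv hg1 (hB x hx1)]
      exact neg_mem (hx2 hx1)
  have hfin : Module.Finite ℤ W := Module.Finite.span_of_finite ℤ (Finset.finite_toSet _)
  have hfree : Module.Free ℤ W := inferInstance
  let bs := Module.Free.chooseBasis ℤ W
  have hgW : (⟨tau g g, hW g hgH⟩ : W) ≠ 0 := by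
    intro h
    have : tau g g = 0 := congrArg Subtype.val h
    rw [tau_self hg1] at this
    exact one_ne_zero this
  obtain ⟨i, hi⟩ : ∃ i, bs.repr ⟨tau g g, hW g hgH⟩ i ≠ 0 := by
    by_contra hcon
    push Not at hcon
    apply hgW
    apply bs.repr.injective
    ext i
    rw [hcon i, map_zero]
    rfl
  refine ⟨fun x => if h : x ∈ H then bs.repr ⟨tau g x, hW x h⟩ i else 0, ?_, g, hgH, ?_⟩
  · intro a ha b hb
    simp only
    rw [dif_pos ha, dif_pos hb, dif_pos (H.mul_mem ha hb), ← Finsupp.add_apply, ← map_add]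
    congr 2
    apply Subtype.ext
    exact tau_mul hg1 (hB a ha) (hB b hb)
  · simp only
    rw [dif_pos hgH]
    exact hi

end Ord

end Vale.Agent.P201
end
end

section

section

/-!
The Malcev-Neumann embedding of a group ring and its freeness over subgroups.
-/

namespace Vale.Agent.P201

open MN

variable {C K : Type*} [Group C] [LinearOrder C] [MulLeftMono C] [MulRightMono C] [DivisionRing K]

namespace MN

/-- series supported on a subgroup -/
def SuppOn (N : Subgroup C) (x : MN C K) : Prop := ∀ a, x.coeff a ≠ 0 → a ∈ N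

theorem SuppOn.mul {N : Subgroup C} {x y : MN C K} (hx : SuppOn N x) (hy : SuppOn N y) :
    SuppOn N (x * y) := by
  intro a ha
  obtain ⟨b, hb1, hb2⟩ := support_mul_mem ha
  have := N.mul_mem (hx _ hb1) (hy _ hb2)
  rwa [mul_inv_cancel_left] at this

end MN

end Vale.Agent.P201
end
end

section

section

/-!
Group rings of amalgamated products of bi-ordered groups.
-/

namespace Vale.Agent.P201

open Monoid Monoid.PushoutI

section Free

/-- Linnell freeness of a ring homomorphism from a group ring to a division ring: the division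
closures of the group rings of subgroups are independent over cosets. -/
def LinnellFree {G E D : Type*} [Group G] [DivisionRing E] [DivisionRing D]
    (ψ : MonoidAlgebra E G →+* D) : Prop :=
  ∀ (N : Subgroup G) (s : Finset G), (∀ a ∈ s, ∀ b ∈ s, a * b⁻¹ ∈ N → a = b) →
    ∀ d : G → D, (∀ a ∈ s, d a ∈ KK ψ N) → ∑ a ∈ s, d a * gu ψ a = 0 → ∀ a ∈ s, d a = 0

/-- restriction of a Linnell free embedding along an injective homomorphism is Hughes free -/
theorem hughesFree_comp {G C E D : Type*} [Group G] [Group C] [DivisionRing E] [DivisionRing D]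
    {ψ : MonoidAlgebra E G →+* D} (hψ : LinnellFree ψ) (φ : C →* G)
    (hφ : Function.Injective φ) :
    HughesFree (ψ.comp (MonoidAlgebra.mapDomainRingHom E φ)) := by
  classical
  intro H f hf t ht hft s a ha hsum
  have hsingle : ∀ (c : C) (e : E),
      (ψ.comp (MonoidAlgebra.mapDomainRingHom E φ)) (MonoidAlgebra.single c e) =
        ψ (MonoidAlgebra.single (φ c) e) := by
    intro c e
    rw [RingHom.comp_apply, MonoidAlgebra.mapDomainRingHom_apply, MonoidAlgebra.mapDomain_single]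
  have hinj : Function.Injective (fun m : ℤ => φ (t ^ m)) := by
    intro m n h
    have h1 : t ^ m = t ^ n := hφ h
    have h2 := congrArg f h1
    rw [hf.map_zpow ht, hf.map_zpow ht] at h2
    exact mul_right_cancel₀ hft h2
  let d : G → D := fun x => if h : ∃ m : ℤ, φ (t ^ m) = x then a h.choose else 0
  have hd : ∀ m : ℤ, d (φ (t ^ m)) = a m := by
    intro m
    have h : ∃ m' : ℤ, φ (t ^ m') = φ (t ^ m) := ⟨m, rfl⟩
    simp only [d]
    rw [dif_pos h]
    congr 1
    exact hinj h.choose_spec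
  have key := hψ ((kerOn H f hf).map φ) (s.image fun m => φ (t ^ m)) (by
      intro x hx y hy hxy
      rw [Finset.mem_image] at hx hy
      obtain ⟨m, _, rfl⟩ := hx
      obtain ⟨n, _, rfl⟩ := hy
      obtain ⟨k, hk, hk'⟩ := hxy
      rw [← map_inv, ← map_mul] at hk'
      have h1 := hφ hk'
      have h2 : f (t ^ m * (t ^ n)⁻¹) = 0 := by
        rw [← h1]
        exact hk.2
      rw [← zpow_neg, ← zpow_add, hf.map_zpow ht] at h2
      have h3 : m + -n = 0 := (mul_eq_zero.1 h2).resolve_right hft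
      have h4 : m = n := by omega
      rw [h4]) d (by
      intro x hx
      rw [Finset.mem_image] at hx
      obtain ⟨m, hm, rfl⟩ := hx
      rw [hd]
      refine Subfield.closure_mono ?_ (ha m hm)
      rintro _ ⟨h, hh, e, rfl⟩
      exact ⟨φ h, ⟨h, hh, rfl⟩, e, hsingle h e⟩) (by
      rw [Finset.sum_image (fun m _ n _ h => hinj h), ← hsum]
      apply Finset.sum_congr rfl
      intro m _
      rw [hd]
      unfold gu
      rw [hsingle])
  intro m hm
  rw [← hd m]
  exact key _ (Finset.mem_image.2 ⟨m, hm, rfl⟩)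

/-- Linnell free homomorphisms are injective -/
theorem LinnellFree.injective {G E D : Type*} [Group G] [DivisionRing E] [DivisionRing D]
    {ψ : MonoidAlgebra E G →+* D} (hψ : LinnellFree ψ) : Function.Injective ψ := by
  rw [injective_iff_map_eq_zero]
  intro x hx
  have h1 : ψ x = ∑ a ∈ x.coeff.support, ψ (MonoidAlgebra.single 1 (x.coeff a)) * gu ψ a := by
    have hxs : x = ∑ a ∈ x.coeff.support, MonoidAlgebra.single a (x.coeff a) := by
      apply MonoidAlgebra.ext
      rw [MonoidAlgebra.coeff_sum]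
      conv_lhs => rw [← Finsupp.sum_single x.coeff]
      rfl
    conv_lhs => rw [hxs]
    rw [map_sum]
    apply Finset.sum_congr rfl
    intro a _
    unfold gu
    rw [← map_mul, MonoidAlgebra.single_mul_single, one_mul, mul_one]
  rw [hx] at h1
  have h2 := hψ ⊥ x.coeff.support (by
    intro a _ b _ hab
    rw [Subgroup.mem_bot] at hab
    exact mul_inv_eq_one.1 hab) (fun a => ψ (MonoidAlgebra.single 1 (x.coeff a)))
    (fun a _ => single_mem_KK ψ (Subgroup.one_mem _) _) h1.symm
  apply MonoidAlgebra.ext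
  ext a
  by_cases ha : a ∈ x.coeff.support
  · have h3 := h2 a ha
    rw [scalar_zero_iff] at h3
    rw [h3]
    rfl
  · rw [Finsupp.notMem_support_iff.1 ha]
    rfl

end Free

section Pushout

variable {ι : Type*} [Nonempty ι] {A : ι → Type*} [∀ i, Group (A i)] {C : Type*} [Group C]
  (φ : ∀ i, C →* A i) (hφ : ∀ i, Function.Injective (φ i))
  {E : Type*} [DivisionRing E] {D : ι → Type*} [∀ i, DivisionRing (D i)]
  (ψ : ∀ i, MonoidAlgebra E (A i) →+* D i) (hψ : ∀ i, LinnellFree (ψ i))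
  (hbal : ∀ i j, ∀ z : D i × D j, RC {z | ∃ (g : C) (e : E),
      z = (ψ i (MonoidAlgebra.single (φ i g) e), ψ j (MonoidAlgebra.single (φ j g) e))} z →
        (z.1 = 0 ↔ z.2 = 0))

/-- generators of the diagonal division ring -/
def dgens : Set (∀ i, D i) :=
  {z | ∃ (g : C) (e : E), z = fun i => ψ i (MonoidAlgebra.single (φ i g) e)}

/-- the diagonal division ring of the amalgamated subgroup, as a subring -/
def dring : Subring (∀ i, D i) where
  carrier := {z | RC (dgens φ ψ) z}
  zero_mem' := RC.zero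
  one_mem' := RC.one
  add_mem' := RC.add
  mul_mem' := RC.mul
  neg_mem' := RC.neg

include hbal in
omit [Nonempty ι] in
theorem dring_balanced {z : ∀ i, D i} (hz : z ∈ dring φ ψ) (i j : ι) : z i = 0 ↔ z j = 0 := by
  refine hbal i j (z i, z j) ?_
  exact RC.map ((Pi.evalRingHom D i).prod (Pi.evalRingHom D j)) (fun x => rfl)
    (by
      rintro _ ⟨g, e, rfl⟩
      exact ⟨g, e, rfl⟩) hz

include hbal in
omit [Nonempty ι] in
theorem dring_unit (z : dring φ ψ) : IsUnit z ∨ z = 0 := by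
  by_cases hz : z = 0
  · exact Or.inr hz
  left
  have hne : ∀ i, z.1 i ≠ 0 := by
    intro i hi
    apply hz
    apply Subtype.ext
    funext j
    exact (dring_balanced φ ψ hbal z.2 i j).1 hi
  have h1 : z.1 * z.1⁻¹ = 1 := by
    funext i
    exact mul_inv_cancel₀ (hne i)
  have h2 : z.1⁻¹ * z.1 = 1 := by
    funext i
    exact inv_mul_cancel₀ (hne i)
  have hinv : z.1⁻¹ ∈ dring φ ψ := RC.inv z.2
  exact ⟨⟨z, ⟨z.1⁻¹, hinv⟩, Subtype.ext h1, Subtype.ext h2⟩, rfl⟩

theorem nontrivial_dring : Nontrivial (dring φ ψ) := by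
  refine ⟨⟨0, 1, fun h => ?_⟩⟩
  obtain ⟨i⟩ := ‹Nonempty ι›
  have h1 : (0 : ∀ i, D i) = 1 := congrArg Subtype.val h
  exact zero_ne_one (congrFun h1 i)

/-- the diagonal map on the group ring of the amalgamated subgroup -/
noncomputable def dmap : MonoidAlgebra E C →+* dring φ ψ :=
  (RingHom.pi fun i => (ψ i).comp (MonoidAlgebra.mapDomainRingHom E (φ i))).codRestrict _ (by
    intro x
    induction x using MonoidAlgebra.induction_linear with
    | zero => rw [map_zero]; exact zero_mem _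
    | add x y hx hy => rw [map_add]; exact add_mem hx hy
    | single g e =>
      refine RC.base ⟨g, e, ?_⟩
      funext i
      rw [RingHom.pi_apply, RingHom.comp_apply, MonoidAlgebra.mapDomainRingHom_apply,
        MonoidAlgebra.mapDomain_single])

omit [Nonempty ι] in
theorem dmap_apply (x : MonoidAlgebra E C) (i : ι) :
    (dmap φ ψ x).1 i = ψ i (MonoidAlgebra.mapDomain (φ i) x) := rfl

end Pushout

section BiOrd

/-- A group is bi-orderable if it has a linear order that is invariant under left and right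
multiplication. -/
def BiOrderable (G : Type*) [Group G] : Prop :=
  ∃ _ : LinearOrder G, MulLeftMono G ∧ MulRightMono G

end BiOrd

end Vale.Agent.P201
end
end

section

section

/-!
Group rings that are left Ore domains are Linnell free.
-/

namespace Vale.Agent.P201

universe u v

/-- The left Ore condition. -/
def LeftOre (R : Type*) [Ring R] : Prop :=
  ∀ a b : R, b ≠ 0 → ∃ u v : R, u ≠ 0 ∧ u * a = v * b

open scoped nonZeroDivisors in
/-- A left Ore domain embeds in a division ring. -/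
theorem ore_embed {R : Type u} [Ring R] [Nontrivial R] [NoZeroDivisors R] (hore : LeftOre R) :
    ∃ (D : Type u) (_ : DivisionRing D) (ψ : R →+* D), Function.Injective ψ := by
  classical
  have h : ∀ (r : R) (s : R⁰), ∃ (v : R) (u : R⁰), (u : R) * r = v * s := by
    intro r s
    obtain ⟨u, v, hu, huv⟩ := hore r s (nonZeroDivisors.coe_ne_zero s)
    exact ⟨v, ⟨u, mem_nonZeroDivisors_of_ne_zero hu⟩, huv⟩
  choose num den hnd using h
  let _ : OreLocalization.OreSet R⁰ :=
    { ore_right_cancel := fun r₁ r₂ s hs =>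
        ⟨1, by rw [mul_right_cancel₀ (nonZeroDivisors.coe_ne_zero s) hs]⟩
      oreNum := num
      oreDenom := den
      ore_eq := hnd }
  exact ⟨OreLocalization R⁰ R, inferInstance, OreLocalization.numeratorRingHom,
    OreLocalization.numeratorHom_inj inf_le_left⟩

section Fractions

variable {D : Type*} [DivisionRing D]

/-- In a division ring, every element of the rational closure of a left Ore subring is a left
fraction. -/
theorem rc_fraction (Λ : Subring D)
    (hore : ∀ a ∈ Λ, ∀ b ∈ Λ, b ≠ 0 → ∃ u ∈ Λ, ∃ v ∈ Λ, u ≠ 0 ∧ u * a = v * b)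
    {z : D} (hz : RC (Λ : Set D) z) : ∃ q ∈ Λ, q ≠ 0 ∧ q * z ∈ Λ := by
  induction hz with
  | @base x hx => exact ⟨1, one_mem _, one_ne_zero, by rw [one_mul]; exact hx⟩
  | zero => exact ⟨1, one_mem _, one_ne_zero, by rw [one_mul]; exact zero_mem _⟩
  | one => exact ⟨1, one_mem _, one_ne_zero, by rw [one_mul]; exact one_mem _⟩
  | @add x y _ _ h1 h2 =>
    obtain ⟨q, hq, hq0, hqp⟩ := h1
    obtain ⟨q', hq', hq0', hqp'⟩ := h2
    obtain ⟨u, hu, v, hv, hu0, huv⟩ := hore q hq q' hq' hq0'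
    refine ⟨u * q, mul_mem hu hq, mul_ne_zero hu0 hq0, ?_⟩
    rw [mul_add, mul_assoc, huv, mul_assoc]
    exact add_mem (mul_mem hu hqp) (mul_mem hv hqp')
  | @mul x y _ _ h1 h2 =>
    obtain ⟨q, hq, hq0, hqp⟩ := h1
    obtain ⟨q', hq', hq0', hqp'⟩ := h2
    obtain ⟨u, hu, v, hv, hu0, huv⟩ := hore (q * x) hqp q' hq' hq0'
    refine ⟨u * q, mul_mem hu hq, mul_ne_zero hu0 hq0, ?_⟩
    have : u * q * (x * y) = v * (q' * y) := by
      rw [← mul_assoc v, ← huv]
      simp only [mul_assoc]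
    rw [this]
    exact mul_mem hv hqp'
  | @neg x _ h1 =>
    obtain ⟨q, hq, hq0, hqp⟩ := h1
    exact ⟨q, hq, hq0, by rw [mul_neg]; exact neg_mem hqp⟩
  | @inv x _ h1 =>
    obtain ⟨q, hq, hq0, hqp⟩ := h1
    by_cases hx : x = 0
    · exact ⟨1, one_mem _, one_ne_zero, by rw [hx, inv_zero, mul_zero]; exact zero_mem _⟩
    · exact ⟨q * x, hqp, mul_ne_zero hq0 hx, by rw [mul_assoc, mul_inv_cancel₀ hx, mul_one]; exact hq⟩

/-- Finitely many elements of the rational closure of a left Ore subring have a common left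
denominator. -/
theorem rc_common_denominator {ι : Type*} (Λ : Subring D)
    (hore : ∀ a ∈ Λ, ∀ b ∈ Λ, b ≠ 0 → ∃ u ∈ Λ, ∃ v ∈ Λ, u ≠ 0 ∧ u * a = v * b)
    (s : Finset ι) (z : ι → D) (hz : ∀ i ∈ s, RC (Λ : Set D) (z i)) :
    ∃ q ∈ Λ, q ≠ 0 ∧ ∀ i ∈ s, q * z i ∈ Λ := by
  classical
  induction s using Finset.induction_on with
  | empty => exact ⟨1, one_mem _, one_ne_zero, fun i hi => absurd hi (Finset.notMem_empty i)⟩
  | insert a s ha ih =>
    obtain ⟨q, hq, hq0, hqs⟩ := ih fun i hi => hz i (Finset.mem_insert_of_mem hi)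
    obtain ⟨q', hq', hq0', hqa⟩ := rc_fraction Λ hore (hz a (Finset.mem_insert_self a s))
    obtain ⟨u, hu, v, hv, hu0, huv⟩ := hore q hq q' hq' hq0'
    refine ⟨u * q, mul_mem hu hq, mul_ne_zero hu0 hq0, ?_⟩
    intro i hi
    rw [Finset.mem_insert] at hi
    rcases hi with rfl | hi
    · rw [huv, mul_assoc]
      exact mul_mem hv hqa
    · rw [mul_assoc]
      exact mul_mem hu (hqs i hi)

end Fractions

section Comap

variable {G C E : Type*} [Group G] [Group C] [DivisionRing E] (φ : C →* G)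
  (hφ : Function.Injective φ)

/-- the component of an element of `E[G]` in the left coset `g φ(C)`, translated to `E[C]` -/
noncomputable def cosetComp (g : G) : MonoidAlgebra E G →+ MonoidAlgebra E C where
  toFun u := MonoidAlgebra.ofCoeff (Finsupp.comapDomain (fun c => g * φ c) u.coeff
    (fun _ _ _ _ h => hφ (mul_left_cancel h)))
  map_zero' := by
    apply MonoidAlgebra.ext
    ext c
    rfl
  map_add' x y := by
    apply MonoidAlgebra.ext
    ext c
    rfl

theorem cosetComp_apply (g : G) (u : MonoidAlgebra E G) (c : C) :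
    (cosetComp φ hφ g u).coeff c = u.coeff (g * φ c) := rfl

theorem cosetComp_mul (g : G) (u : MonoidAlgebra E G) (a : MonoidAlgebra E C) :
    cosetComp φ hφ g (u * MonoidAlgebra.mapDomain φ a) = cosetComp φ hφ g u * a := by
  classical
  induction u using MonoidAlgebra.induction_linear with
  | zero => rw [zero_mul, map_zero, zero_mul]
  | add x y hx hy => rw [add_mul, map_add, hx, hy, map_add, add_mul]
  | single x e =>
    induction a using MonoidAlgebra.induction_linear with
    | zero => rw [MonoidAlgebra.mapDomain_zero, mul_zero, map_zero, mul_zero]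
    | add a b ha hb => rw [MonoidAlgebra.mapDomain_add, mul_add, map_add, ha, hb, mul_add]
    | single d f =>
      rw [MonoidAlgebra.mapDomain_single, MonoidAlgebra.single_mul_single]
      by_cases h : ∃ c, x = g * φ c
      · obtain ⟨c, rfl⟩ := h
        have key : ∀ (c : C) (e : E), cosetComp φ hφ g (MonoidAlgebra.single (g * φ c) e) =
            MonoidAlgebra.single c e := by
          intro c e
          apply MonoidAlgebra.ext
          ext c'
          rw [cosetComp_apply, MonoidAlgebra.coeff_single, MonoidAlgebra.coeff_single,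
            Finsupp.single_apply, Finsupp.single_apply]
          by_cases hc : c = c'
          · rw [if_pos hc, if_pos (by rw [hc])]
          · rw [if_neg hc, if_neg (fun h => hc (hφ (mul_left_cancel h)))]
        rw [mul_assoc, ← map_mul, key, key, MonoidAlgebra.single_mul_single]
      · have key : ∀ (y : G) (e : E), (¬ ∃ c, y = g * φ c) →
            cosetComp φ hφ g (MonoidAlgebra.single y e) = 0 := by
          intro y e hy
          apply MonoidAlgebra.ext
          ext c'
          rw [cosetComp_apply, MonoidAlgebra.coeff_single, Finsupp.single_apply,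
            if_neg (fun h => hy ⟨c', h⟩)]
          rfl
        rw [key x e h, key _ _ (by
          rintro ⟨c, hc⟩
          refine h ⟨c * d⁻¹, ?_⟩
          rw [map_mul, map_inv, ← mul_assoc, ← hc, mul_inv_cancel_right]), zero_mul]

include hφ in
/-- The left Ore condition passes to subgroups. -/
theorem leftOre_comap (hore : LeftOre (MonoidAlgebra E G)) : LeftOre (MonoidAlgebra E C) := by
  intro a b hb
  obtain ⟨u, v, hu, huv⟩ := hore (MonoidAlgebra.mapDomain φ a) (MonoidAlgebra.mapDomain φ b)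
    (fun h => hb (MonoidAlgebra.mapDomain_injective hφ (by rw [h, MonoidAlgebra.mapDomain_zero])))
  obtain ⟨g, hg⟩ : ∃ g, u.coeff g ≠ 0 := by
    by_contra hcon
    push Not at hcon
    apply hu
    apply MonoidAlgebra.ext
    ext g
    exact hcon g
  refine ⟨cosetComp φ hφ g u, cosetComp φ hφ g v, ?_, ?_⟩
  · intro h
    apply hg
    have h1 := cosetComp_apply φ hφ g u 1
    rw [h, map_one φ, mul_one] at h1
    exact h1.symm
  · rw [← cosetComp_mul, ← cosetComp_mul, huv]

end Comap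

section Linnell

variable {G : Type u} {E : Type v} [Group G] [DivisionRing E]

/-- disjointness of right cosets -/
theorem coset_disjoint {N : Subgroup G} (s : Finset G)
    (hs : ∀ a ∈ s, ∀ b ∈ s, a * b⁻¹ ∈ N → a = b) (p : G → MonoidAlgebra E N)
    (h : ∑ a ∈ s, MonoidAlgebra.mapDomain N.subtype (p a) * MonoidAlgebra.single a 1 = 0) :
    ∀ a ∈ s, p a = 0 := by
  classical
  intro a ha
  apply MonoidAlgebra.ext
  ext n
  have h1 := congrArg (fun x : MonoidAlgebra E G => x.coeff (n * a)) h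
  rw [MonoidAlgebra.coeff_sum, Finsupp.finsetSum_apply] at h1
  have h2 : ∀ b ∈ s, b ≠ a → (MonoidAlgebra.mapDomain N.subtype (p b) *
      MonoidAlgebra.single b (1 : E)).coeff (n * a) = 0 := by
    intro b hb hba
    rw [MonoidAlgebra.coeff_mul_single_apply, mul_one]
    rw [MonoidAlgebra.coeff_mapDomain]
    apply Finsupp.mapDomain_of_notMem_range
    rintro ⟨m, hm⟩
    apply hba
    symm
    apply hs a ha b hb
    have : a * b⁻¹ = (n⁻¹ * m : N) := by
      rw [N.coe_mul, N.coe_inv]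
      have hm' : (m : G) = n * a * b⁻¹ := hm
      rw [hm']
      group
    rw [this]
    exact SetLike.coe_mem _
  rw [Finset.sum_eq_single a h2 (fun h' => absurd ha h'), MonoidAlgebra.coeff_mul_single_apply,
    mul_one, mul_assoc, mul_inv_cancel, mul_one, MonoidAlgebra.coeff_mapDomain] at h1
  have h3 := Finsupp.mapDomain_apply N.subtype_injective (p a).coeff n
  rw [Subgroup.subtype_apply] at h3
  rw [← h3]
  exact h1

/-- Every injective homomorphism from a group ring that is a left Ore domain to a division ring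
is Linnell free. -/
theorem linnellFree_of_injective {D : Type*} [DivisionRing D] (hore : LeftOre (MonoidAlgebra E G))
    (ψ : MonoidAlgebra E G →+* D) (hψ : Function.Injective ψ) : LinnellFree ψ := by
  classical
  intro N s hs d hd hsum
  have horeN : LeftOre (MonoidAlgebra E N) := leftOre_comap N.subtype N.subtype_injective hore
  let ψN : MonoidAlgebra E N →+* D := ψ.comp (MonoidAlgebra.mapDomainRingHom E N.subtype)
  have hψN : Function.Injective ψN := by
    intro x y hxy
    exact MonoidAlgebra.mapDomain_injective N.subtype_injective (hψ hxy)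
  have hΛ : ∀ a ∈ ψN.range, ∀ b ∈ ψN.range, b ≠ 0 →
      ∃ u ∈ ψN.range, ∃ v ∈ ψN.range, u ≠ 0 ∧ u * a = v * b := by
    rintro _ ⟨a, rfl⟩ _ ⟨b, rfl⟩ hb
    obtain ⟨u, v, hu, huv⟩ := horeN a b (fun h => hb (by rw [h, map_zero]))
    refine ⟨ψN u, ⟨u, rfl⟩, ψN v, ⟨v, rfl⟩, ?_, ?_⟩
    · intro h
      exact hu (hψN (by rw [h, map_zero]))
    · rw [← map_mul, huv, map_mul]
  obtain ⟨q, hq, hq0, hqd⟩ := rc_common_denominator ψN.range hΛ s d (by
    intro a ha
    have h1 := hd a ha
    unfold KK at h1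
    rw [← rc_iff_mem_closure] at h1
    refine RC.mono ?_ h1
    rintro _ ⟨h, hh, e, rfl⟩
    refine ⟨MonoidAlgebra.single ⟨h, hh⟩ e, ?_⟩
    change ψ (MonoidAlgebra.mapDomain N.subtype _) = _
    rw [MonoidAlgebra.mapDomain_single]
    rfl)
  choose! p hp using hqd
  have h1 : ψ (∑ a ∈ s, MonoidAlgebra.mapDomain N.subtype (p a) * MonoidAlgebra.single a 1) = 0 := by
    rw [map_sum]
    have h2 : ∀ a ∈ s, ψ (MonoidAlgebra.mapDomain N.subtype (p a) * MonoidAlgebra.single a 1) =
        q * (d a * gu ψ a) := by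
      intro a ha
      rw [map_mul, ← mul_assoc, ← hp a ha]
      rfl
    rw [Finset.sum_congr rfl h2, ← Finset.mul_sum, hsum, mul_zero]
  have h2 := coset_disjoint s hs p (hψ (by rw [h1, map_zero]))
  intro a ha
  have h3 := hp a ha
  rw [h2 a ha, map_zero] at h3
  exact (mul_eq_zero.1 h3.symm).resolve_left hq0

theorem linnellFree_of_ore [NoZeroDivisors (MonoidAlgebra E G)]
    (hore : LeftOre (MonoidAlgebra E G)) :
    ∃ (D : Type (max u v)) (_ : DivisionRing D) (ψ : MonoidAlgebra E G →+* D),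
      LinnellFree ψ := by
  obtain ⟨D, hD, ψ, hψ⟩ := ore_embed hore
  exact ⟨D, hD, ψ, linnellFree_of_injective hore ψ hψ⟩

end Linnell

section Balanced

variable {C E D1 D2 : Type*} [Group C] [DivisionRing E] [DivisionRing D1] [DivisionRing D2]

/-- Two embeddings of a left Ore group ring in division rings are compatible. -/
theorem balanced_of_ore (ψ1 : MonoidAlgebra E C →+* D1) (ψ2 : MonoidAlgebra E C →+* D2)
    (h1 : Function.Injective ψ1) (h2 : Function.Injective ψ2)
    (hore : LeftOre (MonoidAlgebra E C)) {z : D1 × D2}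
    (hz : RC {z | ∃ (g : C) (e : E), z = (ψ1 (MonoidAlgebra.single g e),
      ψ2 (MonoidAlgebra.single g e))} z) : z.1 = 0 ↔ z.2 = 0 := by
  refine ore_balanced (ψ1.prod ψ2).range ?_ ?_ (RC.mono ?_ hz)
  · rintro _ ⟨x, rfl⟩
    change ψ1 x = 0 ↔ ψ2 x = 0
    constructor
    · intro h
      rw [h1 (by rw [h, map_zero] : ψ1 x = ψ1 0), map_zero]
    · intro h
      rw [h2 (by rw [h, map_zero] : ψ2 x = ψ2 0), map_zero]
  · rintro _ ⟨a, rfl⟩ _ ⟨b, rfl⟩ hb
    obtain ⟨u, v, hu, huv⟩ := hore a b (fun h => hb (by rw [h, map_zero]))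
    refine ⟨_, ⟨u, rfl⟩, _, ⟨v, rfl⟩, ?_, ?_⟩
    · intro h
      apply hu
      apply h1
      rw [map_zero]
      exact congrArg Prod.fst h
    · rw [← map_mul, huv, map_mul]
  · rintro _ ⟨g, e, rfl⟩
    exact ⟨MonoidAlgebra.single g e, rfl⟩

end Balanced

end Vale.Agent.P201
end
end

section

section

/-!
Good pairs are closed under multiplication and inversion, and are balanced (relative version).
-/

namespace Vale.Agent.P201

section Pair

variable {C E D1 D2 : Type*} [Group C] [DivisionRing E] [DivisionRing D1] [DivisionRing D2]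
  {ψ1 : MonoidAlgebra E C →+* D1} {ψ2 : MonoidAlgebra E C →+* D2} {P : Subgroup C → Prop}
  (hPm : ∀ H L : Subgroup C, H ≤ L → P L → P H)
  (hPc : ∀ (u : C) (H : Subgroup C), P (cj u H) → P H)

include hPm in
theorem OHomP_add {L : Subgroup C} {f : C → ℤ} (hf : IsHomOn L f) {n : ℤ} {x y : D1 × D2}
    (hx : HomP ψ1 ψ2 (OGd ψ1 ψ2 P) L f n x) (hy : HomP ψ1 ψ2 (OGd ψ1 ψ2 P) L f n y) :
    HomP ψ1 ψ2 (OGd ψ1 ψ2 P) L f n (x + y) := by
  obtain ⟨g, hg, N, hN, hN', hd, hq⟩ := id hx
  obtain ⟨g', hg', M, hM, hM', hd', hq'⟩ := id hy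
  rcases hd with hd | hd
  swap
  · rw [hd, zero_add]; exact hy
  rcases hd' with hd' | hd'
  swap
  · rw [hd', add_zero]; exact hx
  have hk : g⁻¹ * g' ∈ L := L.mul_mem (L.inv_mem hg) hg'
  have hfk : f (g⁻¹ * g') = 0 := by
    rw [hf _ (L.inv_mem hg) _ hg', hf.map_inv hg, hd, hd']
    ring
  have hkL : Subgroup.zpowers (g⁻¹ * g') ≤ L := by
    rw [Subgroup.zpowers_le]; exact hk
  refine ⟨g', hg', N ⊔ Subgroup.zpowers (g⁻¹ * g') ⊔ M, sup_le (sup_le hN hkL) hM, ?_,
    Or.inl hd', ?_⟩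
  · exact vanish_sup hf (sup_le hN hkL) hM
      (vanish_sup hf hN hkL hN' (vanish_zpowers hf hk hfk)) hM'
  · have := hq.add_aux hPm M _ hq' (g⁻¹ * g')
    have e1 : x * gu2 ψ1 ψ2 g * gu2 ψ1 ψ2 (g⁻¹ * g') = x * gu2 ψ1 ψ2 g' := by
      rw [mul_assoc, ← gu2_mul, mul_inv_cancel_left]
    rw [e1, ← add_mul] at this
    exact this

include hPm in
theorem OHomP_sum {L : Subgroup C} {f : C → ℤ} (hf : IsHomOn L f) {n : ℤ} {ι : Type*}
    (s : Finset ι) (x : ι → D1 × D2) (h : ∀ i ∈ s, HomP ψ1 ψ2 (OGd ψ1 ψ2 P) L f n (x i)) :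
    HomP ψ1 ψ2 (OGd ψ1 ψ2 P) L f n (∑ i ∈ s, x i) := by
  classical
  induction s using Finset.induction_on with
  | empty => rw [Finset.sum_empty]; exact OHomP_zero L f n hf
  | insert a s ha ih =>
    rw [Finset.sum_insert ha]
    exact OHomP_add hPm hf (h a (by simp)) (ih fun i hi => h i (by simp [hi]))

include hPm hPc in
theorem OGd.mul_aux {H : Subgroup C} {z : D1 × D2} (hz : OGd ψ1 ψ2 P H z) :
    ∀ (H' : Subgroup C) (z' : D1 × D2), OGd ψ1 ψ2 P H' z' → ∀ u : C,
      OGd ψ1 ψ2 P (H ⊔ cj u H') (z * cz ψ1 ψ2 u z') := by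
  refine OGd.induct (motive := fun H z => ∀ (H' : Subgroup C) (z' : D1 × D2),
    OGd ψ1 ψ2 P H' z' → ∀ u : C, OGd ψ1 ψ2 P (H ⊔ cj u H') (z * cz ψ1 ψ2 u z')) ?_ hz
  intro H z hz hfg hKK hP hexp H' z' hz'
  refine OGd.induct (motive := fun H' z' => ∀ u : C,
      OGd ψ1 ψ2 P (H ⊔ cj u H') (z * cz ψ1 ψ2 u z')) ?_ hz'
  intro H' z' hz' hfg' hKK' hP' hexp' u
  obtain ⟨L, hL⟩ : ∃ L, L = H ⊔ cj u H' := ⟨_, rfl⟩
  rw [← hL]
  have hHL : H ≤ L := by rw [hL]; exact le_sup_left
  have hHL' : cj u H' ≤ L := by rw [hL]; exact le_sup_right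
  have hLfg : L.FG := by rw [hL]; exact hfg.sup (cj_fg hfg')
  refine OGd.intro hLfg ((hKK.mono hHL).mul (hKK'.conj.mono hHL')) ?_ ?_
  · intro h
    exact RC.mul ((hP (hPm _ _ hHL h)).mono hHL)
      ((hP' (hPc _ _ (hPm _ _ hHL' h))).conj.mono hHL')
  · intro f hf hf'
    by_cases hA : ∃ h ∈ H, f h ≠ 0
    · obtain ⟨c, hc, hcn⟩ := hexp f (hf.mono hHL) hA
      obtain ⟨c', hc', hcn'⟩ := ((hz'.conj hPc u).mono hPm hHL' hLfg).out.2.2.2 f hf hf'
      refine ⟨c * c', (hc.mono hHL).mul hc', fun n => ?_⟩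
      obtain ⟨a, ha⟩ := cf2_bound c
      obtain ⟨b, hb⟩ := cf2_bound c'
      rw [cf2_mul c c' ha hb]
      refine OHomP_sum hPm hf _ _ fun k _ => ?_
      obtain ⟨h, hh, N, hN, hN', hd, hq⟩ := hcn k
      obtain ⟨g', hg', N', hN'', hN''', hd', hq'⟩ := hcn' (n - k)
      rcases hd with hd | hd
      swap
      · rw [hd, zero_mul]; exact OHomP_zero L f n hf
      rcases hd' with hd' | hd'
      swap
      · rw [hd', mul_zero]; exact OHomP_zero L f n hf
      have hhi : h⁻¹ ∈ L := L.inv_mem (hHL hh)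
      refine ⟨g' * h, L.mul_mem hg' (hHL hh), N ⊔ cj h⁻¹ N',
        sup_le (hN.trans hHL) (cj_le hhi hN''), ?_, Or.inl ?_, ?_⟩
      · exact vanish_sup hf (hN.trans hHL) (cj_le hhi hN'') hN'
          (vanish_cj hf hN'' hhi hN''')
      · rw [hf _ hg' _ (hHL hh), hd, hd']
        ring
      · have := hq.2 _ _ hq' h⁻¹
        have e1 : cf2 c k * gu2 ψ1 ψ2 h * cz ψ1 ψ2 h⁻¹ (cf2 c' (n - k) * gu2 ψ1 ψ2 g') =
            cf2 c k * cf2 c' (n - k) * gu2 ψ1 ψ2 (g' * h) := by
          unfold cz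
          calc _ = cf2 c k * (gu2 ψ1 ψ2 h * gu2 ψ1 ψ2 h⁻¹) * cf2 c' (n - k) *
                (gu2 ψ1 ψ2 g' * gu2 ψ1 ψ2 h⁻¹⁻¹) := by simp only [mul_assoc]
            _ = _ := by rw [gu2_mul_inv, mul_one, inv_inv, gu2_mul]
        rw [e1] at this
        exact this
    · push Not at hA
      have hB : ∃ h ∈ H', f (u * h * u⁻¹) ≠ 0 := by
        by_contra hcon
        push Not at hcon
        obtain ⟨x, hx, hx'⟩ := hf'
        apply hx'
        rw [hL] at hx
        refine vanish_sup hf hHL hHL' hA ?_ x hx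
        intro b hb
        obtain ⟨a, ha, rfl⟩ := mem_cj.1 hb
        exact hcon a ha
      obtain ⟨c', hc', hcn'⟩ := hexp' (fun a => f (u * a * u⁻¹))
        (isHomOn_conj (hf.mono hHL')) hB
      refine ⟨mon2 z 0 * (mon2 (gu2 ψ1 ψ2 u) 0 * c' * mon2 (gu2 ψ1 ψ2 u⁻¹) 0),
        (Gam2_const hHL hA hKK).mul (hc'.conj.mono hHL'), fun n => ?_⟩
      rw [cf2_mon2_mul, sub_zero, cf2_conj]
      obtain ⟨h, hh, N, hN, hN', hd, hq⟩ := hcn' n
      rcases hd with hd | hd
      swap
      · rw [hd, cz_zero, mul_zero]; exact OHomP_zero L f n hf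
      have hcjN : cj u N ≤ L := (cj_mono hN).trans hHL'
      refine ⟨u * h * u⁻¹, hHL' (mem_cj.2 ⟨h, hh, rfl⟩), H ⊔ cj u N, sup_le hHL hcjN, ?_,
        Or.inl hd, ?_⟩
      · refine vanish_sup hf hHL hcjN hA ?_
        intro b hb
        obtain ⟨a, ha, rfl⟩ := mem_cj.1 hb
        exact hN' a ha
      · have := hq.2 u
        rw [cz_mul, cz_gu2, ← mul_assoc] at this
        exact this

include hPm hPc in
theorem OGd.mul {H H' : Subgroup C} {z z' : D1 × D2} (hz : OGd ψ1 ψ2 P H z)
    (hz' : OGd ψ1 ψ2 P H' z') : OGd ψ1 ψ2 P (H ⊔ H') (z * z') := by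
  have := hz.mul_aux hPm hPc H' z' hz' 1
  rwa [cz_one, cj_one] at this

include hPm hPc in
theorem OGd.neg {H : Subgroup C} {z : D1 × D2} (hz : OGd ψ1 ψ2 P H z) :
    OGd ψ1 ψ2 P H (-z) := by
  have h := (OGd.scalar (ψ1 := ψ1) (ψ2 := ψ2) (P := P) (-1 : E)).mul hPm hPc hz
  have e1 : sc2 ψ1 ψ2 (-1 : E) * z = -z := by
    have h1 : sc2 ψ1 ψ2 (-1 : E) = -1 := by
      unfold sc2
      rw [MonoidAlgebra.single_neg, ← MonoidAlgebra.one_def, map_neg, map_one, map_neg, map_one]
      rfl
    rw [h1, neg_one_mul]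
  rw [e1, bot_sup_eq] at h
  exact h

include hPm hPc in
theorem OHomP_neg {L : Subgroup C} {f : C → ℤ} {n : ℤ} {x : D1 × D2}
    (hx : HomP ψ1 ψ2 (OGd ψ1 ψ2 P) L f n x) : HomP ψ1 ψ2 (OGd ψ1 ψ2 P) L f n (-x) := by
  obtain ⟨g, hg, N, hN, hN', hd, hq⟩ := hx
  refine ⟨g, hg, N, hN, hN', ?_, ?_⟩
  · rcases hd with hd | hd
    · exact Or.inl hd
    · right; rw [hd, neg_zero]
  · rw [neg_mul]
    exact hq.neg hPm hPc

include hPm hPc in
theorem OHomP_mul {L : Subgroup C} {f : C → ℤ} (hf : IsHomOn L f) {n m : ℤ} {x y : D1 × D2}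
    (hx : HomP ψ1 ψ2 (OGd ψ1 ψ2 P) L f n x) (hy : HomP ψ1 ψ2 (OGd ψ1 ψ2 P) L f m y) :
    HomP ψ1 ψ2 (OGd ψ1 ψ2 P) L f (n + m) (x * y) := by
  obtain ⟨g, hg, N, hN, hN', hd, hq⟩ := id hx
  obtain ⟨g', hg', M, hM, hM', hd', hq'⟩ := id hy
  rcases hd with hd | hd
  swap
  · rw [hd, zero_mul]; exact OHomP_zero L f _ hf
  rcases hd' with hd' | hd'
  swap
  · rw [hd', mul_zero]; exact OHomP_zero L f _ hf
  have hgi : g⁻¹ ∈ L := L.inv_mem hg
  refine ⟨g' * g, L.mul_mem hg' hg, N ⊔ cj g⁻¹ M, sup_le hN (cj_le hgi hM), ?_, Or.inl ?_, ?_⟩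
  · exact vanish_sup hf hN (cj_le hgi hM) hN' (vanish_cj hf hM hgi hM')
  · rw [hf _ hg' _ hg, hd, hd']
    ring
  · have := hq.mul_aux hPm hPc M _ hq' g⁻¹
    have e1 : x * gu2 ψ1 ψ2 g * cz ψ1 ψ2 g⁻¹ (y * gu2 ψ1 ψ2 g') =
        x * y * gu2 ψ1 ψ2 (g' * g) := by
      unfold cz
      calc _ = x * (gu2 ψ1 ψ2 g * gu2 ψ1 ψ2 g⁻¹) * y *
            (gu2 ψ1 ψ2 g' * gu2 ψ1 ψ2 g⁻¹⁻¹) := by simp only [mul_assoc]
        _ = _ := by rw [gu2_mul_inv, mul_one, inv_inv, gu2_mul]
    rw [e1] at this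
    exact this

end Pair

section Bal

variable {C E D1 D2 : Type*} [Group C] [DivisionRing E] [DivisionRing D1] [DivisionRing D2]
  {ψ1 : MonoidAlgebra E C →+* D1} {ψ2 : MonoidAlgebra E C →+* D2}
  {P : Subgroup C → Prop}
  (hPm : ∀ H L : Subgroup C, H ≤ L → P L → P H)
  (hPc : ∀ (u : C) (H : Subgroup C), P (cj u H) → P H)
  (hPb : ∀ (H : Subgroup C) (z : D1 × D2), P H → DR ψ1 ψ2 H z → (z.1 = 0 ↔ z.2 = 0))
  (h1 : HughesFree ψ1) (h2 : HughesFree ψ2)
  (hLI : ∀ H : Subgroup C, H.FG → ¬ P H → ∃ f : C → ℤ, IsHomOn H f ∧ ∃ h ∈ H, f h ≠ 0)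

include hPb h1 h2 hLI in
theorem OGd.balanced {H : Subgroup C} {z : D1 × D2} (hz : OGd ψ1 ψ2 P H z) :
    z.1 = 0 ↔ z.2 = 0 := by
  refine OGd.induct (motive := fun H z => z.1 = 0 ↔ z.2 = 0) ?_ hz
  intro H z _ hfg hKK hP hexp
  by_cases hH : P H
  · exact hPb H z hH (hP hH)
  · obtain ⟨f, hf, hf'⟩ := hLI H hfg hH
    obtain ⟨c, hc, hcn⟩ := hexp f hf hf'
    have hcoef : ∀ n, Lau.cf c.1 n = 0 ↔ Lau.cf c.2 n = 0 := by
      intro n
      obtain ⟨g, hg, N, hN, hN', hd, hq⟩ := hcn n
      have := hq.2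
      change Lau.cf c.1 n * gu ψ1 g = 0 ↔ Lau.cf c.2 n * gu ψ2 g = 0 at this
      rwa [mul_eq_zero, mul_eq_zero, or_iff_left (gu_ne_zero ψ1 g),
        or_iff_left (gu_ne_zero ψ2 g)] at this
    have b1 := gam_balanced ψ1 h1 hf hf' hc.1
    have b2 := gam_balanced ψ2 h2 hf hf' hc.2
    simp only at b1 b2
    rw [b1, b2, Lau.eq_zero_iff, Lau.eq_zero_iff]
    exact forall_congr' hcoef

include hPm hPc hPb h1 h2 hLI in
theorem OGd.inv {H : Subgroup C} {z : D1 × D2} (hz : OGd ψ1 ψ2 P H z) :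
    OGd ψ1 ψ2 P H z⁻¹ := by
  refine OGd.induct (motive := fun H z => OGd ψ1 ψ2 P H z⁻¹) ?_ hz
  intro H z _ hfg hKK hP hexp
  refine OGd.intro hfg hKK.inv ?_ ?_
  · intro h
    exact RC.inv (hP h)
  · intro f hf hf'
    obtain ⟨c, hc, hcn⟩ := hexp f hf hf'
    refine ⟨c⁻¹, hc.inv, ?_⟩
    have hcoef : ∀ n, Lau.cf c.1 n = 0 ↔ Lau.cf c.2 n = 0 := by
      intro n
      obtain ⟨g, hg, N, hN, hN', hd, hq⟩ := hcn n
      have := hq.1.balanced hPb h1 h2 hLI
      change Lau.cf c.1 n * gu ψ1 g = 0 ↔ Lau.cf c.2 n * gu ψ2 g = 0 at this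
      rwa [mul_eq_zero, mul_eq_zero, or_iff_left (gu_ne_zero ψ1 g),
        or_iff_left (gu_ne_zero ψ2 g)] at this
    by_cases hc0 : c.1 = 0
    · have hc0' : c.2 = 0 := by
        rw [Lau.eq_zero_iff]
        intro n
        rw [← hcoef, hc0]
        rfl
      have : c⁻¹ = 0 := by
        refine Prod.ext ?_ ?_
        · change c.1⁻¹ = 0
          rw [hc0, inv_zero]
        · change c.2⁻¹ = 0
          rw [hc0', inv_zero]
      rw [this]
      intro n
      exact OHomP_zero H f n hf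
    · obtain ⟨m, hm, hm'⟩ := Lau.exists_low hc0
      have hmb : Lau.cf c.2 m ≠ 0 := fun h => hm ((hcoef m).2 h)
      have hmb' : ∀ n < m, Lau.cf c.2 n = 0 := fun n hn => (hcoef n).1 (hm' n hn)
      have hc0' : c.2 ≠ 0 := by
        intro h
        rw [h] at hmb
        exact hmb rfl
      have hcc : c * c⁻¹ = 1 := prod_mul_inv hc0 hc0'
      have hlow : ∀ n < m, cf2 c n = 0 := fun n hn => Prod.ext (hm' n hn) (hmb' n hn)
      have hilow : ∀ n < -m, cf2 c⁻¹ n = 0 := by
        intro n hn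
        refine Prod.ext ?_ ?_
        · exact low_inv (mul_inv_cancel₀ hc0) hm hm' n hn
        · exact low_inv (mul_inv_cancel₀ hc0') hmb hmb' n hn
      -- the leading coefficient
      have hlead : HomP ψ1 ψ2 (OGd ψ1 ψ2 P) H f (-m) (cf2 c m)⁻¹ := by
        obtain ⟨h, hh, N, hN, hN', hd, hq⟩ := hcn m
        have hd' : f h = -m := by
          rcases hd with hd | hd
          · exact hd
          · exact absurd (congrArg Prod.fst hd) hm
        refine ⟨h⁻¹, H.inv_mem hh, cj h N, cj_le hh hN, vanish_cj hf hN hh hN', Or.inl ?_, ?_⟩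
        · rw [hf.map_inv hh, hd']
        · have h3 := hq.2.conj hPc h
          have h4 : cz ψ1 ψ2 h (cf2 c m * gu2 ψ1 ψ2 h)⁻¹ = (cf2 c m)⁻¹ * gu2 ψ1 ψ2 h⁻¹ := by
            refine Prod.ext ?_ ?_
            · change gu ψ1 h * (Lau.cf c.1 m * gu ψ1 h)⁻¹ * gu ψ1 h⁻¹ =
                (Lau.cf c.1 m)⁻¹ * gu ψ1 h⁻¹
              rw [mul_inv_rev, ← mul_assoc, mul_inv_cancel₀ (gu_ne_zero ψ1 h), one_mul]
            · change gu ψ2 h * (Lau.cf c.2 m * gu ψ2 h)⁻¹ * gu ψ2 h⁻¹ =
                (Lau.cf c.2 m)⁻¹ * gu ψ2 h⁻¹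
              rw [mul_inv_rev, ← mul_assoc, mul_inv_cancel₀ (gu_ne_zero ψ2 h), one_mul]
          rw [h4] at h3
          exact h3
      have hinvmul : (cf2 c m)⁻¹ * cf2 c m = 1 := prod_inv_mul hm hmb
      have key : ∀ j : ℕ, ∀ n : ℤ, n < -m + j → HomP ψ1 ψ2 (OGd ψ1 ψ2 P) H f n (cf2 c⁻¹ n) := by
        intro j
        induction j with
        | zero =>
          intro n hn
          rw [hilow n (by simpa using hn)]
          exact OHomP_zero H f n hf
        | succ j ih =>
          intro n hn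
          by_cases hn' : n < -m + j
          · exact ih n hn'
          have hn'' : n = -m + j := by
            push_cast at hn
            omega
          have h3 := cf2_mul c c⁻¹ hlow hilow (m + n)
          rw [hcc] at h3
          have hmem : m ∈ Finset.Icc m (m + n - -m) := by
            rw [Finset.mem_Icc]
            omega
          rw [← Finset.add_sum_erase _ _ hmem, add_sub_cancel_left] at h3
          have hone : HomP ψ1 ψ2 (OGd ψ1 ψ2 P) H f (m + n) (cf2 (1 : Lau D1 × Lau D2) (m + n)) := by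
            have h1eq : (1 : Lau D1 × Lau D2) = mon2 1 0 := rfl
            rw [h1eq]
            by_cases h0 : m + n = 0
            · rw [h0, cf2_mon2_same]
              refine ⟨1, H.one_mem, ⊥, bot_le, ?_, Or.inl (by rw [hf.map_one, neg_zero]), ?_⟩
              · intro l hl
                rw [Subgroup.mem_bot] at hl
                subst hl
                exact hf.map_one
              · rw [gu2_one, mul_one]
                have h5 : sc2 ψ1 ψ2 (1 : E) = 1 := sc2_one
                rw [← h5]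
                exact OGd.scalar 1
            · rw [cf2_mon2_ne _ h0]
              exact OHomP_zero H f _ hf
          have hrest : HomP ψ1 ψ2 (OGd ψ1 ψ2 P) H f (m + n)
              (∑ k ∈ (Finset.Icc m (m + n - -m)).erase m, cf2 c k * cf2 c⁻¹ (m + n - k)) := by
            refine OHomP_sum hPm hf _ _ fun k hk => ?_
            rw [Finset.mem_erase, Finset.mem_Icc] at hk
            have h5 := ih (m + n - k) (by omega)
            have h6 := OHomP_mul hPm hPc hf ((hcn k).imp fun _ _ h => h.1) h5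
            have h7 : k + (m + n - k) = m + n := by ring
            rwa [h7] at h6
          have h8 : cf2 c m * cf2 c⁻¹ n = cf2 (1 : Lau D1 × Lau D2) (m + n) +
              -(∑ k ∈ (Finset.Icc m (m + n - -m)).erase m, cf2 c k * cf2 c⁻¹ (m + n - k)) := by
            rw [h3, add_neg_cancel_right]
          have h9 : HomP ψ1 ψ2 (OGd ψ1 ψ2 P) H f (m + n) (cf2 c m * cf2 c⁻¹ n) := by
            rw [h8]
            exact OHomP_add hPm hf hone (OHomP_neg hPm hPc hrest)
          have h10 := OHomP_mul hPm hPc hf hlead h9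
          rw [← mul_assoc, hinvmul, one_mul, neg_add_cancel_left] at h10
          exact h10
      intro n
      exact key (n + m + 1).toNat n (by omega)

end Bal

end Vale.Agent.P201
end
end

section

section

/-!
Malcev-Neumann series with coefficients in a graded family of additive subgroups of a ring.
-/

namespace Vale.Agent.P201

open Set Pointwise

/-- A family of additive subgroups of `K`, indexed by a group, that behaves like the homogeneous
components of a crossed product over a division ring. -/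
structure GrFam (C K : Type*) [Group C] [Ring K] where
  L : C → AddSubgroup K
  one_mem : (1 : K) ∈ L 1
  mul_mem : ∀ {p q : C} {x y : K}, x ∈ L p → y ∈ L q → x * y ∈ L (p * q)
  unit : ∀ {p : C} {x : K}, x ∈ L p → x ≠ 0 → ∃ y ∈ L p⁻¹, x * y = 1 ∧ y * x = 1

namespace MN

section ringinv
variable {C K : Type*} [Group C] [LinearOrder C] [MulLeftMono C] [MulRightMono C] [Ring K]

theorem graded_right_inv (F : GrFam C K) (ε : MN C K) (hε : ∀ a, ε.coeff a ≠ 0 → 1 < a)
    (hF : ∀ a, ε.coeff a ∈ F.L a) :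
    ∃ y : MN C K, (1 - ε) * y = 1 ∧ ∀ a, y.coeff a ∈ F.L a := by
  classical
  set S : Submonoid C := Submonoid.closure (Function.support ε.coeff) with hSdef
  have hS : (S : Set C).IsPWO := closure_isPWO ε.isPWO (fun x hx => (hε x hx).le)
  have hwf : WellFounded (fun a b : ↥(S : Set C) => (a : C) < b) := hS.isWF
  let F' : (a : ↥(S : Set C)) → ((b : ↥(S : Set C)) → (b : C) < a → K) → K := fun a ih =>
    (if (a : C) = 1 then 1 else 0) +
      ∑ b ∈ (finite_split ε.isPWO hS (a : C)).toFinset,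
        ε.coeff b * (if h : b⁻¹ * (a : C) ∈ S ∧ b⁻¹ * (a : C) < a then ih ⟨b⁻¹ * a, h.1⟩ h.2 else 0)
  let y0 : ↥(S : Set C) → K := hwf.fix F'
  have hy0 : ∀ a : ↥(S : Set C), y0 a = (if (a : C) = 1 then 1 else 0) +
      ∑ b ∈ (finite_split ε.isPWO hS (a : C)).toFinset,
        ε.coeff b * (if h : b⁻¹ * (a : C) ∈ S ∧ b⁻¹ * (a : C) < a then
          y0 ⟨b⁻¹ * a, h.1⟩ else 0) := fun a => hwf.fix_eq F' a
  have hyL : ∀ a : ↥(S : Set C), y0 a ∈ F.L a := by
    intro a
    induction a using hwf.induction with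
    | _ a ih =>
      rw [hy0 a]
      refine add_mem ?_ (sum_mem fun b _ => ?_)
      · split_ifs with h
        · rw [h]
          exact F.one_mem
        · exact zero_mem _
      · split_ifs with h
        · have h1 := F.mul_mem (hF b) (ih ⟨b⁻¹ * a, h.1⟩ h.2)
          simp only [mul_inv_cancel_left] at h1
          exact h1
        · rw [mul_zero]
          exact zero_mem _
  let y : MN C K := ⟨fun a => if h : a ∈ S then y0 ⟨a, h⟩ else 0, hS.mono (fun a ha => by
    by_contra h
    exact ha (dif_neg h))⟩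
  have hy : ∀ a, y.coeff a = if h : a ∈ S then y0 ⟨a, h⟩ else 0 := fun a => rfl
  refine ⟨y, ?_, ?_⟩
  · rw [sub_mul, one_mul]
    ext a
    rw [coeff_sub, Pi.sub_apply, one_def, coeff_single]
    rw [coeff_mul_eq ε y a (finite_split ε.isPWO hS a).toFinset]
    · by_cases ha : a ∈ S
      · rw [hy a, dif_pos ha, hy0 ⟨a, ha⟩]
        have : ∀ b ∈ (finite_split ε.isPWO hS a).toFinset,
            ε.coeff b * (if h : b⁻¹ * a ∈ S ∧ b⁻¹ * a < a then y0 ⟨b⁻¹ * a, h.1⟩ else 0) =
            ε.coeff b * y.coeff (b⁻¹ * a) := by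
          intro b hb
          rw [Set.Finite.mem_toFinset] at hb
          have h1 : b⁻¹ * a < a := by
            have := hε b hb.1
            calc b⁻¹ * a < 1 * a := by
                  apply mul_lt_mul_left
                  exact Left.inv_lt_one_iff.2 this
              _ = a := one_mul a
          have h2 : b⁻¹ * a ∈ S := hb.2
          rw [dif_pos ⟨h2, h1⟩, hy, dif_pos h2]
        simp only
        rw [Finset.sum_congr rfl this]
        abel
      · rw [hy a, dif_neg ha]
        have h1 : a ≠ 1 := fun h => ha (h ▸ S.one_mem)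
        rw [if_neg h1]
        have : ∀ b ∈ (finite_split ε.isPWO hS a).toFinset, ε.coeff b * y.coeff (b⁻¹ * a) = 0 := by
          intro b hb
          rw [Set.Finite.mem_toFinset] at hb
          exfalso
          apply ha
          have h2 : b ∈ S := Submonoid.subset_closure hb.1
          have h3 : b⁻¹ * a ∈ S := hb.2
          have := S.mul_mem h2 h3
          rwa [mul_inv_cancel_left] at this
        rw [Finset.sum_eq_zero this, sub_zero]
    · intro b h1 h2
      rw [Set.Finite.mem_toFinset]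
      refine ⟨h1, ?_⟩
      by_contra h
      exact h2 (by rw [hy]; exact dif_neg h)
  · intro a
    rw [hy]
    split_ifs with h
    · exact hyL ⟨a, h⟩
    · exact zero_mem _

omit [Group C] [MulLeftMono C] [MulRightMono C] in
theorem exists_lead {x : MN C K} (hx : x ≠ 0) : ∃ g, x.coeff g ≠ 0 ∧ ∀ a < g, x.coeff a = 0 := by
  have hne : (Function.support x.coeff).Nonempty := by
    rw [Function.support_nonempty_iff]
    intro h
    exact hx (coeff_injective h)
  refine ⟨x.isPWO.isWF.min hne, x.isPWO.isWF.min_mem hne, fun a ha => ?_⟩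
  by_contra h
  exact x.isPWO.isWF.not_lt_min hne h ha

/-- series with homogeneous coefficients -/
def grSubring (F : GrFam C K) : Subring (MN C K) where
  carrier := {x | ∀ a, x.coeff a ∈ F.L a}
  zero_mem' := fun a => zero_mem _
  one_mem' := fun a => by
    rw [one_def, coeff_single]
    split_ifs with h
    · rw [h]
      exact F.one_mem
    · exact zero_mem _
  add_mem' := fun hx hy a => add_mem (hx a) (hy a)
  neg_mem' := fun hx a => neg_mem (hx a)
  mul_mem' := fun {x y} hx hy a => by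
    rw [coeff_mul_def]
    refine sum_mem fun b _ => ?_
    have h1 := F.mul_mem (hx b) (hy (b⁻¹ * a))
    rwa [mul_inv_cancel_left] at h1

theorem grSubring_right_inv (F : GrFam C K) {x : MN C K} (hxF : x ∈ grSubring F) (hx : x ≠ 0) :
    ∃ y ∈ grSubring F, x * y = 1 := by
  obtain ⟨g, hg, hg'⟩ := exists_lead hx
  obtain ⟨c', hc'L, hc1, hc2⟩ := F.unit (hxF g) hg
  have key : ∀ a, (1 - single g⁻¹ c' * x).coeff a = (if a = 1 then 1 else 0) -
      c' * x.coeff (g * a) := by
    intro a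
    rw [coeff_sub, Pi.sub_apply, one_def, coeff_single, single_mul_coeff, inv_inv]
  have hsm : single g⁻¹ c' ∈ grSubring F := by
    intro a
    rw [coeff_single]
    split_ifs with h
    · rw [h]
      exact hc'L
    · exact zero_mem _
  obtain ⟨y, hy, hyL⟩ := graded_right_inv F (1 - single g⁻¹ c' * x) (by
    intro a ha
    rw [key] at ha
    rcases lt_trichotomy a 1 with h | h | h
    · exfalso
      apply ha
      rw [hg' (g * a) (by simpa using mul_lt_mul_right h g), if_neg h.ne]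
      simp
    · exfalso
      apply ha
      subst h
      rw [if_pos rfl, mul_one, hc2, sub_self]
    · exact h) (fun a => by
      have h1 : 1 - single g⁻¹ c' * x ∈ grSubring F :=
        sub_mem (one_mem _) (mul_mem hsm hxF)
      exact h1 a)
  rw [sub_sub_cancel] at hy
  refine ⟨y * single g⁻¹ c', mul_mem hyL hsm, ?_⟩
  have h1 : x * y = single g (x.coeff g) := by
    calc x * y = single g (x.coeff g) * single g⁻¹ c' * (x * y) := by
          rw [single_mul_single, mul_inv_cancel, hc1, ← one_def, one_mul]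
      _ = single g (x.coeff g) * (single g⁻¹ c' * x * y) := by simp only [mul_assoc]
      _ = single g (x.coeff g) := by rw [hy, mul_one]
  rw [← mul_assoc, h1, single_mul_single, mul_inv_cancel, hc1, ← one_def]

omit [MulLeftMono C] [MulRightMono C] in
theorem mn_nontrivial [Nontrivial K] : Nontrivial (MN C K) := ⟨⟨0, 1, fun h => by
  have := congrArg (fun x => x.coeff 1) h
  simp [one_def] at this⟩⟩

/-- two-sided inverses in the graded subring -/
theorem grSubring_inv [Nontrivial K] (F : GrFam C K) {x : MN C K} (hxF : x ∈ grSubring F)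
    (hx : x ≠ 0) : ∃ y ∈ grSubring F, x * y = 1 ∧ y * x = 1 := by
  have := mn_nontrivial (C := C) (K := K)
  obtain ⟨y, hyF, hy⟩ := grSubring_right_inv F hxF hx
  have hy0 : y ≠ 0 := by
    rintro rfl
    rw [mul_zero] at hy
    exact zero_ne_one hy
  obtain ⟨z, hzF, hz⟩ := grSubring_right_inv F hyF hy0
  have hxz : x = z := by
    calc x = x * (y * z) := by rw [hz, mul_one]
      _ = z := by rw [← mul_assoc, hy, one_mul]
  exact ⟨y, hyF, hy, hxz ▸ hz⟩

theorem grSubring_isUnit_or [Nontrivial K] (F : GrFam C K) (x : grSubring F) :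
    IsUnit x ∨ x = 0 := by
  by_cases hx : x = 0
  · exact Or.inr hx
  left
  obtain ⟨y, hyF, h1, h2⟩ := grSubring_inv F x.2 (fun h => hx (Subtype.ext h))
  exact ⟨⟨x, ⟨y, hyF⟩, Subtype.ext h1, Subtype.ext h2⟩, rfl⟩

instance [Nontrivial K] (F : GrFam C K) : Nontrivial (grSubring F) := by
  have := mn_nontrivial (C := C) (K := K)
  exact ⟨⟨0, 1, fun h => zero_ne_one (congrArg Subtype.val h)⟩⟩

noncomputable instance [Nontrivial K] (F : GrFam C K) : DivisionRing (grSubring F) :=
  DivisionRing.ofIsUnitOrEqZero (grSubring_isUnit_or F)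

end ringinv

end MN

end Vale.Agent.P201
end
end

section

section

/-!
Linnell free division rings for group extensions with bi-orderable quotient.
-/

namespace Vale.Agent.P201

open MN

section Abstract

variable {A Q E D S : Type*} [Group A] [Group Q] [DivisionRing E] [DivisionRing D] [Ring S]
  [Nontrivial S] (π : A →* Q) (ψ : MonoidAlgebra E π.ker →+* D) (α : A →* (D ≃+* D))
  (hα : ∀ (a : A) (n m : π.ker) (e : E), (m : A) = a * n * a⁻¹ →
    α a (ψ (MonoidAlgebra.single n e)) = ψ (MonoidAlgebra.single m e))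
  (σ : D →+* S) (ρ : A →* S) (hr1 : ∀ a d, ρ a * σ d = σ (α a d) * ρ a)
  (hr2 : ∀ n : π.ker, ρ n = σ (gu ψ n))

include hα in
theorem alpha_mem_KK (B : Subgroup A) {b : A} (hb : b ∈ B) {d : D}
    (hd : d ∈ KK ψ (B.subgroupOf π.ker)) : α b d ∈ KK ψ (B.subgroupOf π.ker) := by
  unfold KK at hd
  induction hd using Subfield.closure_induction with
  | mem x hx =>
    obtain ⟨n, hn, e, rfl⟩ := hx
    rw [hα b n ⟨b * n * b⁻¹, (MonoidHom.normal_ker π).conj_mem n n.2 b⟩ e rfl]
    refine single_mem_KK ψ ?_ e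
    rw [Subgroup.mem_subgroupOf] at hn ⊢
    exact B.mul_mem (B.mul_mem hb hn) (B.inv_mem hb)
  | one => rw [map_one]; exact one_mem _
  | add x y _ _ h1 h2 => rw [map_add]; exact add_mem h1 h2
  | neg x _ h1 => rw [map_neg]; exact neg_mem h1
  | inv x _ h1 => rw [map_inv₀]; exact inv_mem h1
  | mul x y _ _ h1 h2 => rw [map_mul]; exact mul_mem h1 h2

/-- homogeneous elements coming from the subgroup `B` -/
def homSet (B : Subgroup A) (q : Q) : Set S :=
  {s | s = 0 ∨ ∃ b ∈ B, ∃ d ∈ KK ψ (B.subgroupOf π.ker), π b = q ∧ s = σ d * ρ b}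

variable {π ψ α σ ρ}

include hr2 in
omit [Nontrivial S] in
theorem homSet_normal_form (B : Subgroup A) {b b' : A} (hb : b ∈ B) (hb' : b' ∈ B)
    (h : π b' = π b) {d : D} (hd : d ∈ KK ψ (B.subgroupOf π.ker)) :
    ∃ d' ∈ KK ψ (B.subgroupOf π.ker), σ d * ρ b' = σ d' * ρ b := by
  have hn : b' * b⁻¹ ∈ π.ker := by
    rw [MonoidHom.mem_ker, map_mul, map_inv, h, mul_inv_cancel]
  refine ⟨d * gu ψ ⟨b' * b⁻¹, hn⟩, mul_mem hd (gu_mem ψ ?_), ?_⟩
  · rw [Subgroup.mem_subgroupOf]
    exact B.mul_mem hb' (B.inv_mem hb)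
  · rw [map_mul, mul_assoc, ← hr2 ⟨b' * b⁻¹, hn⟩, ← map_mul, inv_mul_cancel_right]

variable (π ψ σ ρ)

/-- The graded family attached to a subgroup. -/
noncomputable def grFam (B : Subgroup A) : GrFam Q S where
  L q :=
    { carrier := homSet π ψ σ ρ B q
      zero_mem' := Or.inl rfl
      add_mem' := by
        rintro x y (rfl | ⟨b, hb, d, hd, hq, rfl⟩) hy
        · rw [zero_add]
          exact hy
        · rcases hy with rfl | ⟨b', hb', d', hd', hq', rfl⟩
          · rw [add_zero]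
            exact Or.inr ⟨b, hb, d, hd, hq, rfl⟩
          · obtain ⟨d'', hd'', h⟩ := homSet_normal_form hr2 B hb hb' (by rw [hq, hq']) hd'
            rw [h]
            exact Or.inr ⟨b, hb, d + d'', add_mem hd hd'', hq, by rw [map_add, add_mul]⟩
      neg_mem' := by
        rintro x (rfl | ⟨b, hb, d, hd, hq, rfl⟩)
        · rw [neg_zero]
          exact Or.inl rfl
        · exact Or.inr ⟨b, hb, -d, neg_mem hd, hq, by rw [map_neg, neg_mul]⟩ }
  one_mem := Or.inr ⟨1, B.one_mem, 1, one_mem _, map_one _, by rw [map_one, map_one, one_mul]⟩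
  mul_mem := by
    rintro p q x y (rfl | ⟨b, hb, d, hd, hq, rfl⟩) hy
    · rw [zero_mul]
      exact Or.inl rfl
    · rcases hy with rfl | ⟨b', hb', d', hd', hq', rfl⟩
      · rw [mul_zero]
        exact Or.inl rfl
      · refine Or.inr ⟨b * b', B.mul_mem hb hb', d * α b d', mul_mem hd (alpha_mem_KK π ψ α hα B hb hd'),
          by rw [map_mul, hq, hq'], ?_⟩
        rw [map_mul, map_mul, mul_assoc, ← mul_assoc (ρ b), hr1]
        simp only [mul_assoc]
  unit := by
    rintro p x (rfl | ⟨b, hb, d, hd, hq, rfl⟩) hx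
    · exact absurd rfl hx
    · have hd0 : d ≠ 0 := by
        rintro rfl
        rw [map_zero, zero_mul] at hx
        exact hx rfl
      have h1 : ρ b * ρ b⁻¹ = 1 := by rw [← map_mul, mul_inv_cancel, map_one]
      have h2 : ρ b⁻¹ * ρ b = 1 := by rw [← map_mul, inv_mul_cancel, map_one]
      refine ⟨ρ b⁻¹ * σ d⁻¹, Or.inr ⟨b⁻¹, B.inv_mem hb, α b⁻¹ d⁻¹,
        alpha_mem_KK π ψ α hα B (B.inv_mem hb) (inv_mem hd), by rw [map_inv, hq], hr1 _ _⟩, ?_, ?_⟩
      · rw [mul_assoc, ← mul_assoc (ρ b), h1, one_mul, ← map_mul, mul_inv_cancel₀ hd0, map_one]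
      · rw [mul_assoc, ← mul_assoc (σ d⁻¹), ← map_mul, inv_mul_cancel₀ hd0, map_one, one_mul, h2]

end Abstract

section Indexed

/-- an indexed version of Linnell freeness -/
theorem LinnellFree.indexed {G E D ι : Type*} [Group G] [DivisionRing E] [DivisionRing D]
    {ψ : MonoidAlgebra E G →+* D} (hψ : LinnellFree ψ) (N : Subgroup G) (s : Finset ι)
    (n : ι → G) (hn : ∀ i ∈ s, ∀ j ∈ s, n i * (n j)⁻¹ ∈ N → i = j) (d : ι → D)
    (hd : ∀ i ∈ s, d i ∈ KK ψ N) (hsum : ∑ i ∈ s, d i * gu ψ (n i) = 0) : ∀ i ∈ s, d i = 0 := by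
  classical
  have hinj : ∀ i ∈ s, ∀ j ∈ s, n i = n j → i = j := by
    intro i hi j hj hij
    apply hn i hi j hj
    rw [hij, mul_inv_cancel]
    exact N.one_mem
  let d' : G → D := fun x => if h : ∃ i ∈ s, n i = x then d h.choose else 0
  have hd' : ∀ i ∈ s, d' (n i) = d i := by
    intro i hi
    have h : ∃ j ∈ s, n j = n i := ⟨i, hi, rfl⟩
    simp only [d']
    rw [dif_pos h]
    congr 1
    exact hinj _ h.choose_spec.1 _ hi h.choose_spec.2
  intro i hi
  rw [← hd' i hi]
  refine hψ N (s.image n) ?_ d' ?_ ?_ (n i) (Finset.mem_image_of_mem n hi)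
  · intro x hx y hy hxy
    rw [Finset.mem_image] at hx hy
    obtain ⟨i, hi, rfl⟩ := hx
    obtain ⟨j, hj, rfl⟩ := hy
    rw [hn i hi j hj hxy]
  · intro x hx
    rw [Finset.mem_image] at hx
    obtain ⟨i, hi, rfl⟩ := hx
    rw [hd' i hi]
    exact hd i hi
  · rw [Finset.sum_image hinj, ← hsum]
    exact Finset.sum_congr rfl fun i hi => by rw [hd' i hi]

end Indexed

section Ext

variable {A Q E D S : Type*} [Group A] [Group Q] [LinearOrder Q] [MulLeftMono Q]
  [MulRightMono Q] [DivisionRing E] [DivisionRing D] [Ring S]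
  [Nontrivial S] (π : A →* Q) (ψ : MonoidAlgebra E π.ker →+* D) (α : A →* (D ≃+* D))
  (hα : ∀ (a : A) (n m : π.ker) (e : E), (m : A) = a * n * a⁻¹ →
    α a (ψ (MonoidAlgebra.single n e)) = ψ (MonoidAlgebra.single m e))
  (σ : D →+* S) (ρ : A →* S) (hr1 : ∀ a d, ρ a * σ d = σ (α a d) * ρ a)
  (hr2 : ∀ n : π.ker, ρ n = σ (gu ψ n))

/-- constants -/
noncomputable def mnC (Q S : Type*) [Group Q] [LinearOrder Q] [MulLeftMono Q]
    [MulRightMono Q] [Ring S] : S →+* MN Q S where
  toFun s := MN.single 1 s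
  map_one' := rfl
  map_mul' x y := by rw [single_mul_single, mul_one]
  map_zero' := by
    rw [eq_zero_iff]
    intro a
    rw [MN.coeff_single]
    split_ifs <;> rfl
  map_add' x y := by
    ext a
    rw [coeff_add, Pi.add_apply, MN.coeff_single, MN.coeff_single, MN.coeff_single]
    split_ifs
    · rfl
    · rw [add_zero]

/-- monomials -/
noncomputable def mnU : A →* MN Q S where
  toFun a := MN.single (π a) (ρ a)
  map_one' := by rw [map_one, map_one]; rfl
  map_mul' a b := by rw [single_mul_single, map_mul, map_mul]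

/-- the ring homomorphism to the Malcev-Neumann ring -/
noncomputable def extHom0 : MonoidAlgebra E A →+* MN Q S :=
  MonoidAlgebra.liftNCRingHom
    ((mnC Q S).comp (σ.comp (ψ.comp MonoidAlgebra.singleOneRingHom))) (mnU π ρ) (by
      intro e a
      change MN.single 1 (σ (ψ (MonoidAlgebra.single 1 e))) * MN.single (π a) (ρ a) =
        MN.single (π a) (ρ a) * MN.single 1 (σ (ψ (MonoidAlgebra.single 1 e)))
      rw [single_mul_single, single_mul_single, one_mul, mul_one, hr1,
        hα a 1 1 e (by rw [OneMemClass.coe_one, mul_one, mul_inv_cancel])])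

omit [Nontrivial S] in
theorem extHom0_single (a : A) (e : E) :
    extHom0 π ψ α hα σ ρ hr1 (MonoidAlgebra.single a e) =
      MN.single (π a) (σ (ψ (MonoidAlgebra.single 1 e)) * ρ a) := by
  unfold extHom0
  rw [MonoidAlgebra.liftNCRingHom_single]
  change MN.single 1 (σ (ψ (MonoidAlgebra.single 1 e))) * MN.single (π a) (ρ a) = _
  rw [single_mul_single, one_mul]

omit [Nontrivial S] in
theorem extHom0_mem (B : Subgroup A) {a : A} (ha : a ∈ B) (e : E) :
    extHom0 π ψ α hα σ ρ hr1 (MonoidAlgebra.single a e) ∈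
      grSubring (grFam π ψ hα σ ρ hr1 hr2 B) := by
  rw [extHom0_single]
  intro q
  rw [MN.coeff_single]
  split_ifs with h
  · exact Or.inr ⟨a, ha, _, single_mem_KK ψ (Subgroup.one_mem _) e, h.symm, rfl⟩
  · exact zero_mem _

/-- the embedding of the group ring in the division ring -/
noncomputable def extHom : MonoidAlgebra E A →+* grSubring (grFam π ψ hα σ ρ hr1 hr2 ⊤) :=
  (extHom0 π ψ α hα σ ρ hr1).codRestrict _ (by
    intro x
    induction x using MonoidAlgebra.induction_linear with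
    | zero => rw [map_zero]; exact zero_mem _
    | add x y hx hy => rw [map_add]; exact add_mem hx hy
    | single a e => exact extHom0_mem π ψ α hα σ ρ hr1 hr2 ⊤ trivial e)

theorem extHom_single (a : A) (e : E) :
    (extHom π ψ α hα σ ρ hr1 hr2 (MonoidAlgebra.single a e)).1 =
      MN.single (π a) (σ (ψ (MonoidAlgebra.single 1 e)) * ρ a) :=
  extHom0_single π ψ α hα σ ρ hr1 a e

theorem extHom_KK (B : Subgroup A) {x : grSubring (grFam π ψ hα σ ρ hr1 hr2 ⊤)}
    (hx : x ∈ KK (extHom π ψ α hα σ ρ hr1 hr2) B) :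
    x.1 ∈ grSubring (grFam π ψ hα σ ρ hr1 hr2 B) := by
  unfold KK at hx
  induction hx using Subfield.closure_induction with
  | mem x hx =>
    obtain ⟨a, ha, e, rfl⟩ := hx
    exact extHom0_mem π ψ α hα σ ρ hr1 hr2 B ha e
  | one => exact one_mem _
  | add x y _ _ h1 h2 => exact add_mem h1 h2
  | neg x _ h1 => exact neg_mem h1
  | inv x _ h1 =>
    by_cases hx0 : x = 0
    · rw [hx0, inv_zero]
      exact zero_mem _
    · obtain ⟨y, hyF, hy1, hy2⟩ := grSubring_inv _ h1 (fun h => hx0 (Subtype.ext h))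
      have h3 : x.1 * (x⁻¹).1 = 1 := congrArg Subtype.val (mul_inv_cancel₀ hx0)
      have h4 : (x⁻¹).1 = y := by
        calc (x⁻¹).1 = y * x.1 * (x⁻¹).1 := by rw [hy2, one_mul]
          _ = y := by rw [mul_assoc, h3, mul_one]
      rw [h4]
      exact hyF
  | mul x y _ _ h1 h2 => exact mul_mem h1 h2

theorem extHom_linnellFree (hψ : LinnellFree ψ) :
    LinnellFree (extHom π ψ α hα σ ρ hr1 hr2) := by
  classical
  intro B s hs d hd hsum a0 ha0
  apply Subtype.ext
  rw [ZeroMemClass.coe_zero, eq_zero_iff]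
  intro q0
  by_contra hne
  have hform : ∀ a ∈ s, ∀ q, (d a).1.coeff q = 0 ∨ ∃ b ∈ B, ∃ e ∈ KK ψ (B.subgroupOf π.ker),
      π b = q ∧ (d a).1.coeff q = σ e * ρ b := fun a ha q => extHom_KK π ψ α hα σ ρ hr1 hr2 B
        (hd a ha) q
  -- the coefficient of the sum
  have hcoef : ∑ a ∈ s, (d a).1.coeff (q0 * π a0 * (π a)⁻¹) * ρ a = 0 := by
    have h1 := congrArg (fun x : grSubring (grFam π ψ hα σ ρ hr1 hr2 ⊤) =>
      x.1.coeff (q0 * π a0)) hsum
    rw [ZeroMemClass.coe_zero, MN.coeff_zero, Pi.zero_apply] at h1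
    rw [← h1, AddSubmonoidClass.coe_finsetSum]
    have h2 : ∀ (t : Finset A) (y : A → MN Q S) (q : Q),
        (∑ a ∈ t, y a).coeff q = ∑ a ∈ t, (y a).coeff q := by
      intro t y q
      induction t using Finset.induction_on with
      | empty => rfl
      | insert a t ha ih =>
        rw [Finset.sum_insert ha, Finset.sum_insert ha, coeff_add, Pi.add_apply, ih]
    rw [h2]
    apply Finset.sum_congr rfl
    intro a _
    change _ = ((d a).1 * (gu (extHom π ψ α hα σ ρ hr1 hr2) a).1).coeff _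
    unfold gu
    rw [extHom_single, ← MonoidAlgebra.one_def, map_one, map_one, one_mul, mul_single_coeff]
  -- choose the components
  obtain h0 | ⟨b0, hb0, e0, he0, hq0, h0⟩ := hform a0 ha0 q0
  · exact hne h0
  have hform' : ∀ a, ∃ b : A, ∃ e : D, a ∈ s → (d a).1.coeff (q0 * π a0 * (π a)⁻¹) ≠ 0 →
      b ∈ B ∧ e ∈ KK ψ (B.subgroupOf π.ker) ∧ π b = q0 * π a0 * (π a)⁻¹ ∧
        (d a).1.coeff (q0 * π a0 * (π a)⁻¹) = σ e * ρ b := by
    intro a
    by_cases ha : a ∈ s
    · rcases hform a ha (q0 * π a0 * (π a)⁻¹) with h | ⟨b, hb, e, he, h1, h2⟩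
      · exact ⟨1, 0, fun _ h' => absurd h h'⟩
      · exact ⟨b, e, fun _ _ => ⟨hb, he, h1, h2⟩⟩
    · exact ⟨1, 0, fun h => absurd h ha⟩
  choose b e hbe using hform'
  let t : Finset A := s.filter fun a => (d a).1.coeff (q0 * π a0 * (π a)⁻¹) ≠ 0
  have ht : ∀ a ∈ t, a ∈ s ∧ b a ∈ B ∧ e a ∈ KK ψ (B.subgroupOf π.ker) ∧
      π (b a) = q0 * π a0 * (π a)⁻¹ ∧
        (d a).1.coeff (q0 * π a0 * (π a)⁻¹) = σ (e a) * ρ (b a) ∧
        (d a).1.coeff (q0 * π a0 * (π a)⁻¹) ≠ 0 := by
    intro a ha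
    rw [Finset.mem_filter] at ha
    obtain ⟨h1, h2, h3, h4⟩ := hbe a ha.1 ha.2
    exact ⟨ha.1, h1, h2, h3, h4, ha.2⟩
  have hker : ∀ a, a ∈ t → b a * a * (b0 * a0)⁻¹ ∈ π.ker := by
    intro a ha
    obtain ⟨_, _, _, h3, _⟩ := ht a ha
    rw [MonoidHom.mem_ker, map_mul, map_inv, map_mul, map_mul, h3, hq0]
    group
  let n : A → π.ker := fun a => if h : a ∈ t then ⟨b a * a * (b0 * a0)⁻¹, hker a h⟩ else 1
  have hn : ∀ a ∈ t, (n a : A) = b a * a * (b0 * a0)⁻¹ := by
    intro a ha
    simp only [n]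
    rw [dif_pos ha]
  have hσinj : Function.Injective σ := σ.injective
  have hρ : ρ (b0 * a0) * ρ (b0 * a0)⁻¹ = 1 := by rw [← map_mul, mul_inv_cancel, map_one]
  have key : ∑ a ∈ t, e a * gu ψ (n a) = 0 := by
    apply hσinj
    rw [map_zero]
    have h1 : σ (∑ a ∈ t, e a * gu ψ (n a)) * ρ (b0 * a0) = 0 := by
      rw [map_sum, Finset.sum_mul, ← hcoef, ← Finset.sum_filter_add_sum_filter_not s
        (fun a => (d a).1.coeff (q0 * π a0 * (π a)⁻¹) ≠ 0)]
      have h2 : ∑ a ∈ s with ¬ (d a).1.coeff (q0 * π a0 * (π a)⁻¹) ≠ 0,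
          (d a).1.coeff (q0 * π a0 * (π a)⁻¹) * ρ a = 0 := by
        apply Finset.sum_eq_zero
        intro a ha
        rw [Finset.mem_filter, not_not] at ha
        rw [ha.2, zero_mul]
      rw [h2, add_zero]
      apply Finset.sum_congr rfl
      intro a ha
      obtain ⟨_, _, _, _, h5, _⟩ := ht a ha
      rw [h5, map_mul, mul_assoc, ← hr2, ← map_mul, hn a ha, inv_mul_cancel_right, map_mul,
        mul_assoc]
    calc σ (∑ a ∈ t, e a * gu ψ (n a)) = σ (∑ a ∈ t, e a * gu ψ (n a)) * ρ (b0 * a0) *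
          ρ (b0 * a0)⁻¹ := by rw [mul_assoc, hρ, mul_one]
      _ = 0 := by rw [h1, zero_mul]
  have hzero := hψ.indexed (B.subgroupOf π.ker) t n (by
    intro a ha c hc hac
    obtain ⟨ha1, ha2, _⟩ := ht a ha
    obtain ⟨hc1, hc2, _⟩ := ht c hc
    rw [Subgroup.mem_subgroupOf, Subgroup.coe_mul, Subgroup.coe_inv, hn a ha, hn c hc] at hac
    apply hs a ha1 c hc1
    have h1 : a * c⁻¹ = (b a)⁻¹ * (b a * a * (b0 * a0)⁻¹ * (b c * c * (b0 * a0)⁻¹)⁻¹) * b c := by
      group
    rw [h1]
    exact B.mul_mem (B.mul_mem (B.inv_mem ha2) hac) hc2) e (fun a ha => (ht a ha).2.2.1) key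
  have ha0t : a0 ∈ t := by
    rw [Finset.mem_filter]
    refine ⟨ha0, ?_⟩
    rw [mul_inv_cancel_right]
    exact hne
  obtain ⟨_, _, _, _, h5, h6⟩ := ht a0 ha0t
  rw [hzero a0 ha0t, map_zero, zero_mul] at h5
  exact h6 h5

end Ext

section Concrete

variable {A Q E D : Type*} [Group A] [Group Q] [DivisionRing E] [DivisionRing D]
  (π : A →* Q) (ψ : MonoidAlgebra E π.ker →+* D) (α : A →* (D ≃+* D))

/-- The induced module. -/
def indMod : AddSubgroup (A → D) where
  carrier := {f | ∀ (n : π.ker) (a : A), f (n * a) = gu ψ n * f a}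
  zero_mem' := fun n a => by rw [Pi.zero_apply, Pi.zero_apply, mul_zero]
  add_mem' := fun hf hg n a => by rw [Pi.add_apply, Pi.add_apply, hf n a, hg n a, mul_add]
  neg_mem' := fun hf n a => by rw [Pi.neg_apply, Pi.neg_apply, hf n a, mul_neg]

open Classical in
theorem indMod_nontrivial : Nontrivial (indMod π ψ) := by
  let f : A → D := fun a => if h : a ∈ π.ker then gu ψ ⟨a, h⟩ else 0
  have hf : f ∈ indMod π ψ := by
    intro n a
    simp only [f]
    by_cases ha : a ∈ π.ker
    · rw [dif_pos ha, dif_pos (π.ker.mul_mem n.2 ha), ← gu_mul]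
      rfl
    · have h2 : ¬ ((n : A) * a ∈ π.ker) := by
        intro h
        apply ha
        have := π.ker.mul_mem (π.ker.inv_mem n.2) h
        rwa [inv_mul_cancel_left] at this
      rw [dif_neg ha, dif_neg h2, mul_zero]
  refine ⟨⟨f, hf⟩, 0, ?_⟩
  intro h
  have h1 : f 1 = 0 := congrArg (fun g : indMod π ψ => g.1 1) h
  simp only [f] at h1
  rw [dif_pos π.ker.one_mem] at h1
  exact gu_ne_zero ψ _ h1

theorem indEnd_nontrivial : Nontrivial (AddMonoid.End (indMod π ψ)) := by
  have := indMod_nontrivial π ψ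
  refine ⟨0, 1, fun h => ?_⟩
  obtain ⟨f, hf⟩ := exists_ne (0 : indMod π ψ)
  apply hf
  have h1 : (0 : AddMonoid.End (indMod π ψ)) f = (1 : AddMonoid.End (indMod π ψ)) f := by rw [h]
  exact h1.symm

/-- translation -/
def indRho : A →* AddMonoid.End (indMod π ψ) where
  toFun g :=
    { toFun := fun f => ⟨fun a => f.1 (a * g), fun n a => by
        have := f.2 n (a * g)
        rw [← mul_assoc] at this
        exact this⟩
      map_zero' := rfl
      map_add' := fun _ _ => rfl }
  map_one' := by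
    ext f a
    change f.1 (a * 1) = f.1 a
    rw [mul_one]
  map_mul' g h := by
    ext f a
    change f.1 (a * (g * h)) = f.1 (a * g * h)
    rw [mul_assoc]

variable (hα2 : ∀ (n : π.ker) (d : D), α n d = gu ψ n * d * gu ψ n⁻¹)

/-- multiplication by a twisted scalar -/
def indSigma : D →+* AddMonoid.End (indMod π ψ) where
  toFun d :=
    { toFun := fun f => ⟨fun a => α a d * f.1 a, fun n a => by
        have h1 := f.2 n a
        change α (n * a) d * f.1 (n * a) = gu ψ n * (α a d * f.1 a)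
        rw [map_mul, RingAut.mul_apply, hα2, h1]
        simp only [mul_assoc]
        rw [← mul_assoc (gu ψ n⁻¹), gu_inv_mul, one_mul]⟩
      map_zero' := by
        ext a
        exact mul_zero _
      map_add' := fun f g => by
        ext a
        exact mul_add _ _ _ }
  map_one' := by
    ext f a
    change α a 1 * f.1 a = f.1 a
    rw [map_one, one_mul]
  map_mul' d d' := by
    ext f a
    change α a (d * d') * f.1 a = α a d * (α a d' * f.1 a)
    rw [map_mul, mul_assoc]
  map_zero' := by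
    ext f a
    change α a 0 * f.1 a = 0
    rw [map_zero, zero_mul]
  map_add' d d' := by
    ext f a
    change α a (d + d') * f.1 a = α a d * f.1 a + α a d' * f.1 a
    rw [map_add, add_mul]

theorem indRho_sigma (a : A) (d : D) :
    indRho π ψ a * indSigma π ψ α hα2 d = indSigma π ψ α hα2 (α a d) * indRho π ψ a := by
  ext f b
  change α (b * a) d * f.1 (b * a) = α b (α a d) * f.1 (b * a)
  rw [map_mul, RingAut.mul_apply]

theorem indRho_ker (hα : ∀ (a : A) (n m : π.ker) (e : E), (m : A) = a * n * a⁻¹ →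
    α a (ψ (MonoidAlgebra.single n e)) = ψ (MonoidAlgebra.single m e)) (n : π.ker) :
    indRho π ψ n = indSigma π ψ α hα2 (gu ψ n) := by
  ext f b
  change f.1 (b * n) = α b (gu ψ n) * f.1 b
  unfold gu
  rw [hα b n ⟨b * n * b⁻¹, (MonoidHom.normal_ker π).conj_mem n n.2 b⟩ 1 rfl]
  have h1 := f.2 ⟨b * n * b⁻¹, (MonoidHom.normal_ker π).conj_mem n n.2 b⟩ b
  simp only [inv_mul_cancel_right] at h1
  exact h1

end Concrete

end Vale.Agent.P201
end
end

section

section

/-!
Isomorphisms of division rings from balanced relations.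
-/

namespace Vale.Agent.P201

section Iso

variable {D1 D2 : Type*} [DivisionRing D1] [DivisionRing D2]

theorem rc_lift_fst {s : Set (D1 × D2)} {x : D1} (hx : RC (Prod.fst '' s) x) :
    ∃ z, RC s z ∧ z.1 = x := by
  induction hx with
  | @base x hx =>
    obtain ⟨z, hz, rfl⟩ := hx
    exact ⟨z, RC.base hz, rfl⟩
  | zero => exact ⟨0, RC.zero, rfl⟩
  | one => exact ⟨1, RC.one, rfl⟩
  | @add x y _ _ h1 h2 =>
    obtain ⟨z, hz, rfl⟩ := h1
    obtain ⟨w, hw, rfl⟩ := h2
    exact ⟨z + w, RC.add hz hw, rfl⟩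
  | @mul x y _ _ h1 h2 =>
    obtain ⟨z, hz, rfl⟩ := h1
    obtain ⟨w, hw, rfl⟩ := h2
    exact ⟨z * w, RC.mul hz hw, rfl⟩
  | @neg x _ h1 =>
    obtain ⟨z, hz, rfl⟩ := h1
    exact ⟨-z, RC.neg hz, rfl⟩
  | @inv x _ h1 =>
    obtain ⟨z, hz, rfl⟩ := h1
    exact ⟨z⁻¹, RC.inv hz, rfl⟩

theorem rc_lift_snd {s : Set (D1 × D2)} {x : D2} (hx : RC (Prod.snd '' s) x) :
    ∃ z, RC s z ∧ z.2 = x := by
  induction hx with
  | @base x hx =>
    obtain ⟨z, hz, rfl⟩ := hx
    exact ⟨z, RC.base hz, rfl⟩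
  | zero => exact ⟨0, RC.zero, rfl⟩
  | one => exact ⟨1, RC.one, rfl⟩
  | @add x y _ _ h1 h2 =>
    obtain ⟨z, hz, rfl⟩ := h1
    obtain ⟨w, hw, rfl⟩ := h2
    exact ⟨z + w, RC.add hz hw, rfl⟩
  | @mul x y _ _ h1 h2 =>
    obtain ⟨z, hz, rfl⟩ := h1
    obtain ⟨w, hw, rfl⟩ := h2
    exact ⟨z * w, RC.mul hz hw, rfl⟩
  | @neg x _ h1 =>
    obtain ⟨z, hz, rfl⟩ := h1
    exact ⟨-z, RC.neg hz, rfl⟩
  | @inv x _ h1 =>
    obtain ⟨z, hz, rfl⟩ := h1
    exact ⟨z⁻¹, RC.inv hz, rfl⟩

/-- A balanced relation whose projections generate is the graph of an isomorphism. -/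
theorem exists_iso_of_balanced (s : Set (D1 × D2)) (hbal : ∀ z, RC s z → (z.1 = 0 ↔ z.2 = 0))
    (h1 : ∀ x : D1, RC (Prod.fst '' s) x) (h2 : ∀ y : D2, RC (Prod.snd '' s) y) :
    ∃ θ : D1 ≃+* D2, ∀ z, RC s z → θ z.1 = z.2 := by
  have hfun : ∀ z w, RC s z → RC s w → z.1 = w.1 → z.2 = w.2 := by
    intro z w hz hw h
    have h3 := (hbal (z + -w) (RC.add hz (RC.neg hw))).1 (by
      change z.1 + -w.1 = 0
      rw [h, add_neg_cancel])
    change z.2 + -w.2 = 0 at h3
    exact add_neg_eq_zero.1 h3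
  have hfun' : ∀ z w, RC s z → RC s w → z.2 = w.2 → z.1 = w.1 := by
    intro z w hz hw h
    have h3 := (hbal (z + -w) (RC.add hz (RC.neg hw))).2 (by
      change z.2 + -w.2 = 0
      rw [h, add_neg_cancel])
    change z.1 + -w.1 = 0 at h3
    exact add_neg_eq_zero.1 h3
  choose F hF1 hF2 using fun x => rc_lift_fst (h1 x)
  choose G hG1 hG2 using fun x => rc_lift_snd (h2 x)
  have key : ∀ z, RC s z → (F z.1).2 = z.2 := fun z hz => hfun _ _ (hF1 _) hz (hF2 _)
  refine ⟨{ toFun := fun x => (F x).2, invFun := fun y => (G y).1, left_inv := ?_, right_inv := ?_,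
            map_mul' := ?_, map_add' := ?_ }, key⟩
  · intro x
    change (G (F x).2).1 = x
    rw [hfun' _ _ (hG1 _) (hF1 x) (hG2 _), hF2]
  · intro y
    change (F (G y).1).2 = y
    rw [hfun _ _ (hF1 _) (hG1 y) (hF2 _), hG2]
  · intro x y
    refine hfun _ (F x * F y) (hF1 _) (RC.mul (hF1 x) (hF1 y)) ?_
    rw [hF2]
    change _ = (F x).1 * (F y).1
    rw [hF2, hF2]
  · intro x y
    refine hfun _ (F x + F y) (hF1 _) (RC.add (hF1 x) (hF1 y)) ?_
    rw [hF2]
    change _ = (F x).1 + (F y).1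
    rw [hF2, hF2]

end Iso

section Gen

variable {G E D : Type*} [Group G] [DivisionRing E] [DivisionRing D]
  (ψ : MonoidAlgebra E G →+* D)

/-- ring homomorphisms are determined by their values on the group ring -/
theorem hom_ext_of_gen {D' : Type*} [DivisionRing D'] (hgen : ∀ x : D, x ∈ KK ψ ⊤)
    (f g : D →+* D')
    (h : ∀ n e, f (ψ (MonoidAlgebra.single n e)) = g (ψ (MonoidAlgebra.single n e))) : f = g := by
  ext x
  have hx := hgen x
  unfold KK at hx
  induction hx using Subfield.closure_induction with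
  | mem x hx =>
    obtain ⟨n, hn, e, rfl⟩ := hx
    exact h n e
  | one => rw [map_one, map_one]
  | add x y _ _ h1 h2 => rw [map_add, map_add, h1, h2]
  | neg x _ h1 => rw [map_neg, map_neg, h1]
  | inv x _ h1 => rw [map_inv₀, map_inv₀, h1]
  | mul x y _ _ h1 h2 => rw [map_mul, map_mul, h1, h2]

/-- restriction of the codomain to the closure of the image -/
noncomputable def toKK : MonoidAlgebra E G →+* KK ψ ⊤ :=
  ψ.codRestrict (KK ψ ⊤) (by
    intro x
    induction x using MonoidAlgebra.induction_linear with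
    | zero => rw [map_zero]; exact zero_mem _
    | add x y hx hy => rw [map_add]; exact add_mem hx hy
    | single a e => exact single_mem_KK ψ (Subgroup.mem_top a) e)

theorem mem_KK_toKK {M : Subgroup G} {x : KK ψ ⊤} (hx : x ∈ KK (toKK ψ) M) :
    (x : D) ∈ KK ψ M := by
  unfold KK at hx
  induction hx using Subfield.closure_induction with
  | mem x hx =>
    obtain ⟨n, hn, e, rfl⟩ := hx
    exact single_mem_KK ψ hn e
  | one => exact one_mem _
  | add x y _ _ h1 h2 => exact add_mem h1 h2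
  | neg x _ h1 => exact neg_mem h1
  | inv x _ h1 => exact inv_mem h1
  | mul x y _ _ h1 h2 => exact mul_mem h1 h2

theorem toKK_gen (x : KK ψ ⊤) : x ∈ KK (toKK ψ) ⊤ := by
  obtain ⟨x, hx⟩ := x
  unfold KK at hx
  induction hx using Subfield.closure_induction with
  | mem x hx =>
    obtain ⟨n, hn, e, rfl⟩ := hx
    exact single_mem_KK (toKK ψ) hn e
  | one => exact one_mem _
  | add x y _ _ h1 h2 => exact add_mem h1 h2
  | neg x _ h1 => exact neg_mem h1
  | inv x _ h1 => exact inv_mem h1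
  | mul x y _ _ h1 h2 => exact mul_mem h1 h2

theorem LinnellFree.toKK {ψ : MonoidAlgebra E G →+* D} (hψ : LinnellFree ψ) :
    LinnellFree (toKK ψ) := by
  intro N s hs d hd hsum a ha
  apply Subtype.ext
  refine hψ N s hs (fun a => (d a : D)) (fun a ha => mem_KK_toKK ψ (hd a ha)) ?_ a ha
  have h1 := congrArg (Subtype.val : KK ψ ⊤ → D) hsum
  rw [AddSubmonoidClass.coe_finsetSum] at h1
  exact h1

end Gen

section Alpha

variable {A E D : Type*} [Group A] [DivisionRing E] [DivisionRing D] (N : Subgroup A)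
  (hN : N.Normal) (ψ : MonoidAlgebra E N →+* D) (hgen : ∀ x : D, x ∈ KK ψ ⊤)

/-- conjugation on a normal subgroup -/
def cjn (a : A) (n : N) : N := ⟨a * n * a⁻¹, hN.conj_mem n n.2 a⟩

include hgen in
/-- Conjugation extends to the division ring. -/
theorem exists_alpha (hbal : ∀ a : A, ∀ z : D × D, RC {z | ∃ (n : N) (e : E),
      z = (ψ (MonoidAlgebra.single n e), ψ (MonoidAlgebra.single (cjn N hN a n) e))} z →
        (z.1 = 0 ↔ z.2 = 0)) :
    ∃ α : A →* (D ≃+* D), (∀ (a : A) (n m : N) (e : E), (m : A) = a * n * a⁻¹ →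
      α a (ψ (MonoidAlgebra.single n e)) = ψ (MonoidAlgebra.single m e)) ∧
      (∀ (n : N) (d : D), α n d = gu ψ n * d * gu ψ n⁻¹) := by
  have h1 : ∀ a : A, ∃ θ : D ≃+* D, ∀ (n : N) (e : E),
      θ (ψ (MonoidAlgebra.single n e)) = ψ (MonoidAlgebra.single (cjn N hN a n) e) := by
    intro a
    obtain ⟨θ, hθ⟩ := exists_iso_of_balanced {z | ∃ (n : N) (e : E),
      z = (ψ (MonoidAlgebra.single n e), ψ (MonoidAlgebra.single (cjn N hN a n) e))} (hbal a)
      (by
        intro x
        have hx := hgen x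
        unfold KK at hx
        rw [← rc_iff_mem_closure] at hx
        refine RC.mono ?_ hx
        rintro _ ⟨n, -, e, rfl⟩
        exact ⟨_, ⟨n, e, rfl⟩, rfl⟩)
      (by
        intro x
        have hx := hgen x
        unfold KK at hx
        rw [← rc_iff_mem_closure] at hx
        refine RC.mono ?_ hx
        rintro _ ⟨n, -, e, rfl⟩
        refine ⟨_, ⟨cjn N hN a⁻¹ n, e, rfl⟩, ?_⟩
        have h2 : cjn N hN a (cjn N hN a⁻¹ n) = n := by
          apply Subtype.ext
          change a * (a⁻¹ * n * a⁻¹⁻¹) * a⁻¹ = n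
          group
        change ψ (MonoidAlgebra.single (cjn N hN a (cjn N hN a⁻¹ n)) e) = _
        rw [h2])
    exact ⟨θ, fun n e => hθ _ (RC.base ⟨n, e, rfl⟩)⟩
  choose θ hθ using h1
  have hext : ∀ f g : D ≃+* D, (∀ n e, f (ψ (MonoidAlgebra.single n e)) =
      g (ψ (MonoidAlgebra.single n e))) → f = g := by
    intro f g h
    have h2 := hom_ext_of_gen ψ hgen (f : D →+* D) (g : D →+* D) h
    ext x
    exact congrArg (fun k : D →+* D => k x) h2
  refine ⟨MonoidHom.mk' θ ?_, ?_, ?_⟩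
  · intro a b
    apply hext
    intro n e
    rw [hθ, RingAut.mul_apply, hθ, hθ]
    congr 2
    apply Subtype.ext
    change a * b * n * (a * b)⁻¹ = a * (b * n * b⁻¹) * a⁻¹
    group
  · intro a n m e h
    change θ a (ψ (MonoidAlgebra.single n e)) = _
    rw [hθ]
    congr 2
    exact Subtype.ext h.symm
  · intro n d
    let κ : D →+* D :=
      { toFun := fun d => gu ψ n * d * gu ψ n⁻¹
        map_one' := by rw [mul_one, gu_mul_inv]
        map_mul' := fun x y => by
          have h3 := gu_inv_mul ψ n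
          calc gu ψ n * (x * y) * gu ψ n⁻¹ = gu ψ n * x * 1 * (y * gu ψ n⁻¹) := by
                rw [mul_one]; simp only [mul_assoc]
            _ = gu ψ n * x * (gu ψ n⁻¹ * gu ψ n) * (y * gu ψ n⁻¹) := by rw [h3]
            _ = gu ψ n * x * gu ψ n⁻¹ * (gu ψ n * y * gu ψ n⁻¹) := by simp only [mul_assoc]
        map_zero' := by rw [mul_zero, zero_mul]
        map_add' := fun x y => by rw [mul_add, add_mul] }
    have h2 := hom_ext_of_gen ψ hgen (θ (n : A) : D →+* D) κ (by
      intro m e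
      change θ (n : A) (ψ (MonoidAlgebra.single m e)) =
        gu ψ n * ψ (MonoidAlgebra.single m e) * gu ψ n⁻¹
      rw [hθ]
      unfold gu
      rw [← map_mul, ← map_mul, MonoidAlgebra.single_mul_single, MonoidAlgebra.single_mul_single,
        one_mul, mul_one]
      rfl)
    exact congrArg (fun k : D →+* D => k d) h2

end Alpha

end Vale.Agent.P201
end
end

section

section

/-!
Uniqueness of Hughes free division rings relative to Ore subgroups.
-/

namespace Vale.Agent.P201

section Bal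

variable {C E D1 D2 : Type*} [Group C] [DivisionRing E] [DivisionRing D1] [DivisionRing D2]
  {ψ1 : MonoidAlgebra E C →+* D1} {ψ2 : MonoidAlgebra E C →+* D2}
  {P : Subgroup C → Prop}
  (hPm : ∀ H L : Subgroup C, H ≤ L → P L → P H)
  (hPc : ∀ (u : C) (H : Subgroup C), P (cj u H) → P H)
  (hPb : ∀ (H : Subgroup C) (z : D1 × D2), P H → DR ψ1 ψ2 H z → (z.1 = 0 ↔ z.2 = 0))
  (h1 : HughesFree ψ1) (h2 : HughesFree ψ2)
  (hLI : ∀ H : Subgroup C, H.FG → ¬ P H → ∃ f : C → ℤ, IsHomOn H f ∧ ∃ h ∈ H, f h ≠ 0)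

include hPm hPc hPb h1 h2 hLI in
theorem exists_OGd {z : D1 × D2}
    (hz : RC {z | ∃ (g : C) (e : E), z = (ψ1 (MonoidAlgebra.single g e),
      ψ2 (MonoidAlgebra.single g e))} z) : ∃ H, OGd ψ1 ψ2 P H z := by
  induction hz with
  | base hx =>
    obtain ⟨g, e, rfl⟩ := hx
    refine ⟨Subgroup.zpowers g, ?_⟩
    have h3 := (OGd.scalar (ψ1 := ψ1) (ψ2 := ψ2) (P := P) e).trans hPm bot_le (fg_zpowers g)
      (Subgroup.mem_zpowers g)
    have h4 : sc2 ψ1 ψ2 e * gu2 ψ1 ψ2 g =
        (ψ1 (MonoidAlgebra.single g e), ψ2 (MonoidAlgebra.single g e)) := by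
      unfold sc2 gu2 gu
      rw [Prod.mk_mul_mk, ← map_mul, ← map_mul, MonoidAlgebra.single_mul_single, one_mul, mul_one]
    rwa [h4] at h3
  | zero => exact ⟨⊥, OGd.zero⟩
  | one =>
    refine ⟨⊥, ?_⟩
    have h5 : sc2 ψ1 ψ2 (1 : E) = 1 := sc2_one
    rw [← h5]
    exact OGd.scalar 1
  | add _ _ ih1 ih2 =>
    obtain ⟨H, hH⟩ := ih1
    obtain ⟨H', hH'⟩ := ih2
    exact ⟨_, hH.add hPm hH'⟩
  | mul _ _ ih1 ih2 =>
    obtain ⟨H, hH⟩ := ih1
    obtain ⟨H', hH'⟩ := ih2
    exact ⟨_, hH.mul hPm hPc hH'⟩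
  | neg _ ih =>
    obtain ⟨H, hH⟩ := ih
    exact ⟨_, hH.neg hPm hPc⟩
  | inv _ ih =>
    obtain ⟨H, hH⟩ := ih
    exact ⟨_, hH.inv hPm hPc hPb h1 h2 hLI⟩

end Bal

/-- Every finitely generated subgroup has a left Ore group ring or a nonzero homomorphism to the
integers. -/
def OLI (E C : Type*) [Group C] [DivisionRing E] : Prop :=
  ∀ H : Subgroup C, H.FG → LeftOre (MonoidAlgebra E H) ∨
    ∃ f : C → ℤ, IsHomOn H f ∧ ∃ h ∈ H, f h ≠ 0

section Main

variable {C E D1 D2 : Type*} [Group C] [DivisionRing E] [DivisionRing D1] [DivisionRing D2]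
  {ψ1 : MonoidAlgebra E C →+* D1} {ψ2 : MonoidAlgebra E C →+* D2}

/-- Uniqueness of Hughes free division rings of fractions, relative to Ore subgroups. -/
theorem ore_hughes_balanced (h1 : HughesFree ψ1) (h2 : HughesFree ψ2)
    (hi1 : Function.Injective ψ1) (hi2 : Function.Injective ψ2) (hLI : OLI E C) {z : D1 × D2}
    (hz : RC {z | ∃ (g : C) (e : E), z = (ψ1 (MonoidAlgebra.single g e),
      ψ2 (MonoidAlgebra.single g e))} z) : z.1 = 0 ↔ z.2 = 0 := by
  have hPm : ∀ H L : Subgroup C, H ≤ L → LeftOre (MonoidAlgebra E L) →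
      LeftOre (MonoidAlgebra E H) := fun H L h hL =>
    leftOre_comap (Subgroup.inclusion h) (Subgroup.inclusion_injective h) hL
  have hPc : ∀ (u : C) (H : Subgroup C), LeftOre (MonoidAlgebra E (cj u H)) →
      LeftOre (MonoidAlgebra E H) := by
    intro u H h
    refine leftOre_comap ((MulAut.conj u).toMonoidHom.subgroupMap H) ?_ h
    intro x y hxy
    apply Subtype.ext
    have h3 : u * x * u⁻¹ = u * y * u⁻¹ := congrArg Subtype.val hxy
    exact mul_left_cancel (mul_right_cancel h3)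
  have hPb : ∀ (H : Subgroup C) (z : D1 × D2), LeftOre (MonoidAlgebra E H) →
      DR ψ1 ψ2 H z → (z.1 = 0 ↔ z.2 = 0) := by
    intro H z hH hz
    have hmi : Function.Injective (MonoidAlgebra.mapDomainRingHom E H.subtype) := by
      intro x y hxy
      exact MonoidAlgebra.mapDomain_injective H.subtype_injective hxy
    refine balanced_of_ore (ψ1.comp (MonoidAlgebra.mapDomainRingHom E H.subtype))
      (ψ2.comp (MonoidAlgebra.mapDomainRingHom E H.subtype)) (hi1.comp hmi) (hi2.comp hmi) hH ?_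
    refine RC.mono ?_ hz
    rintro _ ⟨g, hg, e, rfl⟩
    refine ⟨⟨g, hg⟩, e, ?_⟩
    rw [RingHom.comp_apply, RingHom.comp_apply, MonoidAlgebra.mapDomainRingHom_apply,
      MonoidAlgebra.mapDomain_single]
    rfl
  have hLI' : ∀ H : Subgroup C, H.FG → ¬ LeftOre (MonoidAlgebra E H) →
      ∃ f : C → ℤ, IsHomOn H f ∧ ∃ h ∈ H, f h ≠ 0 := fun H hfg hn => (hLI H hfg).resolve_left hn
  obtain ⟨H, hH⟩ := exists_OGd (P := fun H : Subgroup C => LeftOre (MonoidAlgebra E H))
    hPm hPc hPb h1 h2 hLI' hz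
  exact hH.balanced hPb h1 h2 hLI'

end Main

section OLI

variable {E : Type*} [DivisionRing E]

theorem OLI.comap {A C : Type*} [Group A] [Group C] (h : OLI E A) (φ : C →* A)
    (hφ : Function.Injective φ) : OLI E C := by
  intro H hfg
  rcases h (H.map φ) (fg_map hfg φ) with h1 | ⟨f, hf, x, hx, hx'⟩
  · left
    refine leftOre_comap (φ.subgroupMap H) ?_ h1
    intro x y hxy
    exact Subtype.ext (hφ (congrArg Subtype.val hxy))
  · right
    obtain ⟨c, hc, rfl⟩ := hx
    refine ⟨fun c => f (φ c), ?_, c, hc, hx'⟩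
    intro a ha b hb
    simp only
    rw [map_mul]
    exact hf _ ⟨a, ha, rfl⟩ _ ⟨b, hb, rfl⟩

theorem OLI.of_ore {A : Type*} [Group A] (h : LeftOre (MonoidAlgebra E A)) : OLI E A :=
  fun H _ => Or.inl (leftOre_comap H.subtype H.subtype_injective h)

open Classical in
theorem OLI.ext {A : Type*} [Group A] (N : Subgroup A) [N.Normal] (h : OLI E N)
    (hQ : BiOrderable (A ⧸ N)) : OLI E A := by
  intro H hfg
  by_cases hHN : H ≤ N
  · have hfg' : (H.subgroupOf N).FG := by
      have e := Subgroup.subgroupOfEquivOfLe hHN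
      rw [← Group.fg_iff_subgroup_fg] at hfg ⊢
      exact Group.fg_of_surjective (f := e.symm.toMonoidHom) e.symm.surjective
    rcases h (H.subgroupOf N) hfg' with h1 | ⟨f, hf, x, hx, hx'⟩
    · left
      exact leftOre_comap (Subgroup.subgroupOfEquivOfLe hHN).symm.toMonoidHom
        (Subgroup.subgroupOfEquivOfLe hHN).symm.injective h1
    · right
      refine ⟨fun a => if ha : a ∈ N then f ⟨a, ha⟩ else 0, ?_, x, hx, ?_⟩
      · intro a ha b hb
        have ha' := hHN ha
        have hb' := hHN hb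
        simp only
        rw [dif_pos (N.mul_mem ha' hb'), dif_pos ha', dif_pos hb']
        exact hf ⟨a, ha'⟩ ha ⟨b, hb'⟩ hb
      · simp only
        rw [dif_pos x.2]
        exact hx'
  · right
    obtain ⟨_, _, _⟩ := hQ
    obtain ⟨f, hf, q, hq, hq'⟩ := exists_hom_of_fg (H.map (QuotientGroup.mk' N)) (fg_map hfg _) (by
        intro hbot
        apply hHN
        rw [Subgroup.map_eq_bot_iff, QuotientGroup.ker_mk'] at hbot
        exact hbot)
    obtain ⟨x, hx, rfl⟩ := hq
    refine ⟨fun a => f (QuotientGroup.mk' N a), ?_, x, hx, hq'⟩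
    intro a ha b hb
    simp only
    rw [map_mul]
    exact hf _ ⟨a, ha, rfl⟩ _ ⟨b, hb, rfl⟩

end OLI

end Vale.Agent.P201
end
end

section

section

/-!
Rings with stable letters: words, the module of normal forms and the action on it.
-/

namespace Vale.Agent.P201

namespace HNN

open Finsupp

/-- Letters: an edge, a direction, and a basis label. -/
structure Ltr {Ed : Type*} (J : Ed → Bool → Type*) where
  e : Ed
  s : Bool
  j : J e s

section Words

variable {Ed : Type*} {J : Ed → Bool → Type*}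

/-- `y` has the direction opposite to the direction of `x`. -/
def Opp (x y : Ltr J) : Prop := y.e = x.e ∧ y.s = !x.s

/-- the letters `x`, `y` may be adjacent in a reduced word -/
def Ok (o : ∀ e s, J e s) (x y : Ltr J) : Prop := x.j = o x.e x.s → ¬ Opp x y

/-- reduced lists of letters -/
def Red (o : ∀ e s, J e s) (l : List (Ltr J)) : Prop := l.IsChain (Ok o)

/-- reduced words -/
abbrev Wd (o : ∀ e s, J e s) : Type _ := {l : List (Ltr J) // Red o l}

variable {o : ∀ e s, J e s}

theorem red_nil : Red o [] := by simp [Red]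

theorem red_cons {x : Ltr J} {l : List (Ltr J)} :
    Red o (x :: l) ↔ (∀ y ∈ l.head?, Ok o x y) ∧ Red o l := by
  unfold Red
  rw [List.isChain_cons]

theorem red_append {l l' : List (Ltr J)} :
    Red o (l ++ l') ↔ Red o l ∧ Red o l' ∧
      ∀ x ∈ l.getLast?, ∀ y ∈ l'.head?, Ok o x y := by
  unfold Red
  rw [List.isChain_append]

theorem not_red_cons {x : Ltr J} {w : Wd o} (h : ¬ Red o (x :: w.1)) :
    ∃ (y : Ltr J) (l : List (Ltr J)), w.1 = y :: l ∧ x.j = o x.e x.s ∧ Opp x y ∧ Red o l := by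
  obtain ⟨l, hl⟩ := w
  rcases l with _ | ⟨y, l⟩
  · exact absurd (red_cons.2 ⟨by simp, hl⟩) h
  · refine ⟨y, l, rfl, ?_⟩
    by_contra hcon
    apply h
    refine red_cons.2 ⟨?_, hl⟩
    intro z hz
    simp only [List.head?_cons, Option.mem_def, Option.some.injEq] at hz
    subst hz
    intro h1 h2
    exact hcon ⟨h1, h2, (red_cons.1 hl).2⟩

/-- The empty word. -/
def Wd.nil (o : ∀ e s, J e s) : Wd o := ⟨[], red_nil⟩

/-- The tail of a reduced word. -/
def Wd.tl (w : Wd o) : Wd o := ⟨w.1.tail, by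
  obtain ⟨l, hl⟩ := w
  rcases l with _ | ⟨y, l⟩
  · exact red_nil
  · exact (red_cons.1 hl).2⟩

end Words

/-- Data for a ring with stable letters. -/
structure HData (R : Type*) [Ring R] (Ed : Type*) (F : Ed → Type*) [∀ e, DivisionRing (F e)]
    (J : Ed → Bool → Type*) where
  σ : ∀ e : Ed, Bool → (F e →+* R)
  o : ∀ e s, J e s
  rep : ∀ e s, R ≃+ (J e s →₀ F e)
  rep_mul : ∀ e s (f : F e) (r : R), rep e s (σ e (!s) f * r) = f • rep e s r
  rep_one : ∀ e s, rep e s 1 = single (o e s) 1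

section Act

variable {R : Type*} [Ring R] {Ed : Type*} {F : Ed → Type*} [∀ e, DivisionRing (F e)]
  {J : Ed → Bool → Type*} (H : HData R Ed F J)

/-- basis elements -/
noncomputable def HData.b (e : Ed) (s : Bool) (j : J e s) : R := (H.rep e s).symm (single j 1)

/-- basis element attached to a letter -/
noncomputable def HData.bl (x : Ltr J) : R := H.b x.e x.s x.j

theorem rep_b (e : Ed) (s : Bool) (j : J e s) : H.rep e s (H.b e s j) = single j 1 := by
  simp [HData.b]

theorem b_o (e : Ed) (s : Bool) : H.b e s (H.o e s) = 1 := by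
  rw [HData.b, AddEquiv.symm_apply_eq, H.rep_one]

theorem rep_gen (e : Ed) (s : Bool) (f : F e) (j : J e s) :
    H.rep e s (H.σ e (!s) f * H.b e s j) = single j f := by
  rw [H.rep_mul, rep_b, smul_single, smul_eq_mul, mul_one]

theorem rep_symm_single (e : Ed) (s : Bool) (f : F e) (j : J e s) :
    (H.rep e s).symm (single j f) = H.σ e (!s) f * H.b e s j := by
  rw [AddEquiv.symm_apply_eq, rep_gen]

theorem rep_σ (e : Ed) (s : Bool) (f : F e) :
    H.rep e s (H.σ e (!s) f) = single (H.o e s) f := by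
  have h := rep_gen H e s f (H.o e s)
  rwa [b_o, mul_one] at h

/-- The module of normal forms. -/
abbrev HData.V : Type _ := Wd H.o →₀ R

/-- left multiplication by elements of the base ring -/
noncomputable def HData.L : R →+* AddMonoid.End H.V := Module.toAddMonoidEnd R _

@[simp] theorem L_apply (r : R) (v : H.V) : H.L r v = r • v := rfl

open Classical in
/-- action of a stable letter on a generator -/
noncomputable def HData.K (e : Ed) (s : Bool) (w : Wd H.o) (j : J e s) : F e →+ H.V :=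
  if h : Red H.o (⟨e, s, j⟩ :: w.1) then
    (singleAddHom (⟨⟨e, s, j⟩ :: w.1, h⟩ : Wd H.o)).comp (H.σ e s).toAddMonoidHom
  else
    (singleAddHom w.tl).comp ((AddMonoidHom.mulRight
      (match w.1.head? with
        | Option.some x => H.bl x
        | Option.none => 0)).comp (H.σ e s).toAddMonoidHom)

theorem K_red {e : Ed} {s : Bool} {w : Wd H.o} {j : J e s} (h : Red H.o (⟨e, s, j⟩ :: w.1))
    (f : F e) : H.K e s w j f = single ⟨⟨e, s, j⟩ :: w.1, h⟩ (H.σ e s f) := by
  rw [HData.K, dif_pos h]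
  rfl

theorem K_not_red {e : Ed} {s : Bool} {x : Ltr J} {l : List (Ltr J)} (hl : Red H.o (x :: l))
    (hx : x.e = e) (hx' : x.s = !s) (f : F e) :
    H.K e s ⟨x :: l, hl⟩ (H.o e s) f = single ⟨l, (red_cons.1 hl).2⟩ (H.σ e s f * H.bl x) := by
  rw [HData.K, dif_neg]
  · rfl
  · intro h
    exact (red_cons.1 h).1 x (by simp) rfl ⟨hx, hx'⟩

/-- The stable letters. -/
noncomputable def HData.T (e : Ed) (s : Bool) : AddMonoid.End H.V :=
  Finsupp.liftAddHom fun w =>
    (Finsupp.liftAddHom fun j => H.K e s w j).comp (H.rep e s).toAddMonoidHom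

theorem T_gen (e : Ed) (s : Bool) (w : Wd H.o) (j : J e s) (f : F e) :
    H.T e s (single w (H.σ e (!s) f * H.b e s j)) = H.K e s w j f := by
  have h1 : H.T e s (single w (H.σ e (!s) f * H.b e s j)) =
      (Finsupp.liftAddHom fun j => H.K e s w j) (H.rep e s (H.σ e (!s) f * H.b e s j)) := by
    change (Finsupp.liftAddHom fun w => (Finsupp.liftAddHom fun j => H.K e s w j).comp
      (H.rep e s).toAddMonoidHom) (single w (H.σ e (!s) f * H.b e s j)) = _
    rw [Finsupp.liftAddHom_apply_single]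
    rfl
  rw [h1, rep_gen, Finsupp.liftAddHom_apply_single]

theorem T_red {e : Ed} {s : Bool} {w : Wd H.o} {j : J e s} (h : Red H.o (⟨e, s, j⟩ :: w.1))
    (f : F e) : H.T e s (single w (H.σ e (!s) f * H.b e s j)) =
      single ⟨⟨e, s, j⟩ :: w.1, h⟩ (H.σ e s f) := by
  rw [T_gen, K_red H h]

theorem T_not_red {e : Ed} {s : Bool} {x : Ltr J} {l : List (Ltr J)} (hl : Red H.o (x :: l))
    (hx : x.e = e) (hx' : x.s = !s) (f : F e) :
    H.T e s (single ⟨x :: l, hl⟩ (H.σ e (!s) f)) =
      single ⟨l, (red_cons.1 hl).2⟩ (H.σ e s f * H.bl x) := by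
  have h := T_gen H e s ⟨x :: l, hl⟩ (H.o e s) f
  rw [b_o, mul_one] at h
  rw [h, K_not_red H hl hx hx']

/-- Induction principle with respect to one direction. -/
theorem V_ind (e : Ed) (s : Bool) {P : H.V → Prop}
    (h : ∀ w j f, P (single w (H.σ e (!s) f * H.b e s j))) (h0 : P 0)
    (ha : ∀ u v, P u → P v → P (u + v)) (v : H.V) : P v := by
  induction v using Finsupp.induction_linear with
  | zero => exact h0
  | add f g hf hg => exact ha f g hf hg
  | single w r =>
    obtain ⟨φ, rfl⟩ := (H.rep e s).symm.surjective r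
    induction φ using Finsupp.induction_linear with
    | zero => rw [map_zero, single_zero]; exact h0
    | add f g hf hg => rw [map_add, single_add]; exact ha _ _ hf hg
    | single j f => rw [rep_symm_single]; exact h w j f

theorem T_L (e : Ed) (s : Bool) (g : F e) (v : H.V) :
    H.T e s (H.L (H.σ e (!s) g) v) = H.L (H.σ e s g) (H.T e s v) := by
  induction v using V_ind H e s with
  | h0 => simp
  | ha u v hu hv => rw [map_add, map_add, hu, hv, map_add, map_add]
  | h w j f =>
    rw [L_apply, smul_single, smul_eq_mul, ← mul_assoc, ← map_mul, T_gen, T_gen, L_apply]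
    by_cases hr : Red H.o (⟨e, s, j⟩ :: w.1)
    · rw [K_red H hr, K_red H hr, smul_single, smul_eq_mul, map_mul]
    · obtain ⟨y, l, hw, hj, hopp, hl⟩ := not_red_cons hr
      obtain ⟨w, hw'⟩ := w
      dsimp only at hw hj
      subst hw
      subst hj
      rw [K_not_red H hw' hopp.1 hopp.2, K_not_red H hw' hopp.1 hopp.2, smul_single, smul_eq_mul,
        map_mul, mul_assoc]

theorem T_mul_L (e : Ed) (s : Bool) (g : F e) :
    H.T e s * H.L (H.σ e (!s) g) = H.L (H.σ e s g) * H.T e s :=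
  end_ext fun v => T_L H e s g v

theorem T_T (e : Ed) (s : Bool) (v : H.V) : H.T e s (H.T e (!s) v) = v := by
  induction v using V_ind H e (!s) with
  | h0 => simp
  | ha u v hu hv => rw [map_add, map_add, hu, hv]
  | h w j f =>
    rw [T_gen]
    by_cases hr : Red H.o (⟨e, !s, j⟩ :: w.1)
    · rw [K_red H hr, T_not_red H hr rfl rfl, Bool.not_not]
      rfl
    · obtain ⟨y, l, hw, hj, hopp, hl⟩ := not_red_cons hr
      obtain ⟨w, hw'⟩ := w
      dsimp only at hw hj
      subst hw
      subst hj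
      rw [K_not_red H hw' hopp.1 hopp.2, b_o, mul_one]
      obtain ⟨ye, ys, yj⟩ := y
      obtain ⟨h1, h2⟩ := hopp
      dsimp only at h1 h2
      subst h1
      cases s
      · change ys = false at h2
        subst h2
        exact T_red H hw' f
      · change ys = true at h2
        subst h2
        exact T_red H hw' f

theorem T_T' (e : Ed) (s : Bool) (v : H.V) : H.T e (!s) (H.T e s v) = v := by
  have h := T_T H e (!s) v
  rwa [Bool.not_not] at h

/-- The operator attached to a list of letters. -/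
noncomputable def HData.op (l : List (Ltr J)) : AddMonoid.End H.V :=
  (l.map fun x => H.T x.e x.s * H.L (H.bl x)).prod

@[simp] theorem op_nil : H.op [] = 1 := by simp [HData.op]

theorem op_cons (x : Ltr J) (l : List (Ltr J)) :
    H.op (x :: l) = H.T x.e x.s * H.L (H.bl x) * H.op l := by simp [HData.op]

theorem op_append (l l' : List (Ltr J)) : H.op (l ++ l') = H.op l * H.op l' := by
  simp [HData.op]

/-- The operator given by a normal form. -/
noncomputable def HData.Phi : H.V →+ AddMonoid.End H.V :=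
  Finsupp.liftAddHom fun w => (AddMonoidHom.mulRight (H.op w.1)).comp (H.L).toAddMonoidHom

theorem Phi_single (w : Wd H.o) (r : R) : H.Phi (single w r) = H.L r * H.op w.1 := by
  simp [HData.Phi]

/-- The ring generated by the base ring and the stable letters. -/
noncomputable def HData.S : Subring (AddMonoid.End H.V) :=
  Subring.closure (Set.range H.L ∪ Set.range fun p : Ed × Bool => H.T p.1 p.2)

theorem L_mem (r : R) : H.L r ∈ H.S := Subring.subset_closure (Or.inl ⟨r, rfl⟩)

theorem T_mem (e : Ed) (s : Bool) : H.T e s ∈ H.S :=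
  Subring.subset_closure (Or.inr ⟨(e, s), rfl⟩)

theorem op_mem (l : List (Ltr J)) : H.op l ∈ H.S := by
  induction l with
  | nil => rw [op_nil]; exact one_mem _
  | cons x l ih =>
    rw [op_cons]
    exact mul_mem (mul_mem (T_mem H _ _) (L_mem H _)) ih

theorem Phi_mem (v : H.V) : H.Phi v ∈ H.S := by
  induction v using Finsupp.induction_linear with
  | zero => rw [map_zero]; exact zero_mem _
  | add f g hf hg => rw [map_add]; exact add_mem hf hg
  | single w c =>
    rw [Phi_single]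
    exact mul_mem (L_mem H c) (op_mem H w.1)

theorem op_single (l : List (Ltr J)) (z : Wd H.o) (h : Red H.o (l ++ z.1)) :
    H.op l (single z 1) = single ⟨l ++ z.1, h⟩ 1 := by
  induction l with
  | nil => rw [op_nil]; rfl
  | cons x l ih =>
    have h' := red_cons.1 h
    rw [op_cons, end_mul, end_mul, ih h'.2, L_apply, smul_single, smul_eq_mul, mul_one]
    have h2 := T_red H (e := x.e) (s := x.s) (w := ⟨l ++ z.1, h'.2⟩) (j := x.j) h 1
    rw [map_one, one_mul, map_one] at h2
    exact h2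

theorem op_vac (w : Wd H.o) : H.op w.1 (single (Wd.nil H.o) 1) = single w 1 := by
  have h : Red H.o (w.1 ++ (Wd.nil H.o).1) := by
    simpa [Wd.nil] using w.2
  rw [op_single H w.1 (Wd.nil H.o) h]
  congr 1
  exact Subtype.ext (by simp [Wd.nil])

theorem Phi_L (r : R) (v : H.V) : H.Phi (H.L r v) = H.L r * H.Phi v := by
  induction v using Finsupp.induction_linear with
  | zero => simp
  | add f g hf hg => rw [map_add, map_add, hf, hg, map_add, mul_add]
  | single w c => rw [L_apply, smul_single, Phi_single, Phi_single, smul_eq_mul, map_mul, mul_assoc]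

theorem Phi_T (e : Ed) (s : Bool) (v : H.V) : H.Phi (H.T e s v) = H.T e s * H.Phi v := by
  induction v using V_ind H e s with
  | h0 => simp
  | ha u v hu hv => rw [map_add, map_add, hu, hv, map_add, mul_add]
  | h w j f =>
    rw [Phi_single, map_mul, mul_assoc, ← mul_assoc, T_mul_L, T_gen, mul_assoc]
    by_cases hr : Red H.o (⟨e, s, j⟩ :: w.1)
    · rw [K_red H hr, Phi_single, op_cons, mul_assoc]
      rfl
    · obtain ⟨y, l, hw, hj, hopp, hl⟩ := not_red_cons hr
      obtain ⟨w, hw'⟩ := w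
      dsimp only at hw hj
      subst hw
      subst hj
      rw [K_not_red H hw' hopp.1 hopp.2, Phi_single, b_o, map_one, one_mul, op_cons, map_mul,
        hopp.1, hopp.2]
      rw [mul_assoc, mul_assoc]
      congr 1
      have h3 : H.T e s * H.T e (!s) = 1 := end_ext fun v => T_T H e s v
      dsimp only
      rw [← mul_assoc, h3, one_mul]

theorem Phi_mul {t : AddMonoid.End H.V} (ht : t ∈ H.S) (v : H.V) :
    H.Phi (t v) = t * H.Phi v := by
  induction ht using Subring.closure_induction generalizing v with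
  | mem x hx =>
    rcases hx with ⟨r, rfl⟩ | ⟨⟨e, s⟩, rfl⟩
    · exact Phi_L H r v
    · exact Phi_T H e s v
  | zero => simp
  | one => simp
  | add x y _ _ hx hy => rw [end_add, map_add, hx, hy, add_mul]
  | neg x _ hx =>
    rw [end_neg, map_neg, hx]
    exact end_ext fun _ => rfl
  | mul x y _ _ hx hy => rw [end_mul, hx, hy, mul_assoc]

/-- The vacuum vector. -/
noncomputable def HData.vac : H.V := single (Wd.nil H.o) 1

theorem Phi_vac : H.Phi H.vac = 1 := by
  rw [HData.vac, Phi_single]; simp [Wd.nil]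

theorem eq_Phi {t : AddMonoid.End H.V} (ht : t ∈ H.S) : t = H.Phi (t H.vac) := by
  rw [Phi_mul H ht, Phi_vac, mul_one]

theorem Phi_apply_vac (v : H.V) : H.Phi v H.vac = v := by
  induction v using Finsupp.induction_linear with
  | zero => simp
  | add f g hf hg => rw [map_add, end_add, hf, hg]
  | single w c =>
    rw [Phi_single, end_mul, HData.vac, op_vac H, L_apply, smul_single,
      smul_eq_mul, mul_one]

theorem Phi_Phi (u v : H.V) : H.Phi (H.Phi u v) = H.Phi u * H.Phi v :=
  Phi_mul H (Phi_mem H u) v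

theorem Phi_L_vac (r : R) : H.Phi (H.L r H.vac) = H.L r :=
  (eq_Phi H (L_mem H r)).symm

/-- moving an operator of `S` through `Phi` -/
theorem Phi_right {t : AddMonoid.End H.V} (ht : t ∈ H.S) (x v : H.V) :
    H.Phi x (t v) = H.Phi (H.Phi x (t H.vac)) v := by
  rw [Phi_Phi, ← eq_Phi H ht, end_mul]

end Act

end HNN

end Vale.Agent.P201
end
end

section

section

/-!
Filtration by length on the module of normal forms of a ring with stable letters.
-/

namespace Vale.Agent.P201

namespace HNN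

open Finsupp

section Preds

variable {Ed : Type*} {J : Ed → Bool → Type*}

/-- the list ends with a letter of direction `(e, s)` -/
def EndsDir (e : Ed) (s : Bool) (l : List (Ltr J)) : Prop := ∃ x ∈ l.getLast?, x.e = e ∧ x.s = s

/-- the list ends with the trivial letter of direction `(e, s)` -/
def EndsO (o : ∀ e s, J e s) (e : Ed) (s : Bool) (l : List (Ltr J)) : Prop :=
  (⟨e, s, o e s⟩ : Ltr J) ∈ l.getLast?

/-- the list starts with a letter of direction `(e, s)` -/
def StartsDir (e : Ed) (s : Bool) (l : List (Ltr J)) : Prop := ∃ x ∈ l.head?, x.e = e ∧ x.s = s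

/-- a predicate on lists that depends on the last letter only -/
def LastPred (E : List (Ltr J) → Prop) : Prop := ∀ x l, l ≠ [] → (E (x :: l) ↔ E l)

theorem lastPred_dir (e : Ed) (s : Bool) : LastPred (EndsDir (J := J) e s) := by
  intro x l hl
  unfold EndsDir
  rw [List.getLast?_cons_of_ne_nil hl]

theorem lastPred_not {E : List (Ltr J) → Prop} (h : LastPred E) : LastPred fun l => ¬ E l :=
  fun x l hl => not_congr (h x l hl)

theorem lastPred_o (o : ∀ e s, J e s) (e : Ed) (s : Bool) : LastPred (EndsO o e s) := by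
  intro x l hl
  unfold EndsO
  rw [List.getLast?_cons_of_ne_nil hl]

/-- words of length `< n`, or of length `n` and satisfying `E` -/
def GP {o : ∀ e s, J e s} (E : List (Ltr J) → Prop) (n : ℕ) (w : Wd o) : Prop :=
  w.1.length < n ∨ (w.1.length = n ∧ E w.1)

/-- words of length `< n` -/
def LtP {o : ∀ e s, J e s} (n : ℕ) (w : Wd o) : Prop := w.1.length < n

theorem exists_append {l : List (Ltr J)} (h : l ≠ []) :
    ∃ (l' : List (Ltr J)) (x : Ltr J), l = l' ++ [x] :=
  ⟨l.dropLast, l.getLast h, (List.dropLast_append_getLast h).symm⟩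

theorem endsDir_append {e : Ed} {s : Bool} {l : List (Ltr J)} {x : Ltr J} :
    EndsDir e s (l ++ [x]) ↔ x.e = e ∧ x.s = s := by
  simp [EndsDir]

theorem endsO_append {o : ∀ e s, J e s} {e : Ed} {s : Bool} {l : List (Ltr J)} {x : Ltr J} :
    EndsO o e s (l ++ [x]) ↔ x = ⟨e, s, o e s⟩ := by
  simp [EndsO]

end Preds

section Filt

variable {R : Type*} [Ring R] {Ed : Type*} {F : Ed → Type*} [∀ e, DivisionRing (F e)]
  {J : Ed → Bool → Type*} (H : HData R Ed F J)

/-- Vectors supported on words satisfying `P`. -/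
def Sup (P : Wd H.o → Prop) : Submodule R H.V where
  carrier := {v | ∀ w, ¬ P w → v w = 0}
  zero_mem' := fun w _ => rfl
  add_mem' := fun {u v} hu hv w hw => by
    change u w + v w = 0
    rw [hu w hw, hv w hw, add_zero]
  smul_mem' := fun c v hv w hw => by
    change c * v w = 0
    rw [hv w hw, mul_zero]

variable {H}

theorem mem_Sup {P : Wd H.o → Prop} {v : H.V} :
    v ∈ Sup H P ↔ ∀ w, ¬ P w → v w = 0 := Iff.rfl

theorem Sup_mono {P Q : Wd H.o → Prop} (h : ∀ w, P w → Q w) {v : H.V}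
    (hv : v ∈ Sup H P) : v ∈ Sup H Q := fun w hw => hv w fun hp => hw (h w hp)

theorem single_mem_Sup {P : Wd H.o → Prop} {w : Wd H.o} (hw : P w) (c : R) :
    (single w c : H.V) ∈ Sup H P := by
  classical
  intro u hu
  rw [Finsupp.single_apply, if_neg]
  rintro rfl
  exact hu hw

/-- An additive map sends `Sup P` into an additive subgroup as soon as it does so on singles. -/
theorem Sup_map {M : Type*} [AddCommGroup M] {P : Wd H.o → Prop} (T : H.V →+ M)
    (N : AddSubgroup M) (h : ∀ w, P w → ∀ c, T (single w c) ∈ N) {v : H.V}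
    (hv : v ∈ Sup H P) : T v ∈ N := by
  classical
  rw [← Finsupp.sum_single v, Finsupp.sum, map_sum]
  refine sum_mem fun w hw => h w ?_ _
  by_contra hP
  exact (Finsupp.mem_support_iff.1 hw) (hv w hP)

theorem Lt_mono {n m : ℕ} (h : n ≤ m) {v : H.V}
    (hv : v ∈ Sup H (LtP n)) : v ∈ Sup H (LtP m) :=
  Sup_mono (fun _ hw => lt_of_lt_of_le hw h) hv

theorem G_mono {E : List (Ltr J) → Prop} {n m : ℕ} (h : n ≤ m) {v : H.V}
    (hv : v ∈ Sup H (GP E n)) : v ∈ Sup H (GP E m) := by
  refine Sup_mono (fun w hw => ?_) hv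
  unfold GP at hw ⊢
  rcases hw with hw | ⟨hw, hw'⟩
  · left; omega
  · rcases Nat.lt_or_ge w.1.length m with h1 | h1
    · left; exact h1
    · right; exact ⟨by omega, hw'⟩

theorem Lt_G {E : List (Ltr J) → Prop} {n : ℕ} {v : H.V}
    (hv : v ∈ Sup H (LtP n)) : v ∈ Sup H (GP E n) :=
  Sup_mono (fun _ hw => Or.inl hw) hv

theorem G_Lt {E : List (Ltr J) → Prop} {n : ℕ} {v : H.V}
    (hv : v ∈ Sup H (GP E n)) : v ∈ Sup H (LtP (n + 1)) :=
  Sup_mono (fun w hw => by
    unfold LtP
    rcases hw with hw | ⟨hw, _⟩ <;> omega) hv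

/-- image of a generator under a stable letter -/
theorem T_single_mem {P : Wd H.o → Prop} (e : Ed) (s : Bool) (w : Wd H.o) (r : R)
    (h1 : ∀ (j : J e s) (h : Red H.o (⟨e, s, j⟩ :: w.1)), P ⟨⟨e, s, j⟩ :: w.1, h⟩)
    (h2 : w.1 ≠ [] → P w.tl) : H.T e s (single w r) ∈ Sup H P := by
  obtain ⟨φ, rfl⟩ := (H.rep e s).symm.surjective r
  induction φ using Finsupp.induction_linear with
  | zero => rw [map_zero, single_zero, map_zero]; exact zero_mem _
  | add f g hf hg => rw [map_add, single_add, map_add]; exact add_mem hf hg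
  | single j f =>
    rw [rep_symm_single, T_gen]
    by_cases hr : Red H.o (⟨e, s, j⟩ :: w.1)
    · rw [K_red H hr]
      exact single_mem_Sup (h1 j hr) _
    · obtain ⟨y, l, hw, hj, hopp, hl⟩ := not_red_cons hr
      obtain ⟨w, hw'⟩ := w
      dsimp only at hw hj
      subst hw
      subst hj
      rw [K_not_red H hw' hopp.1 hopp.2]
      exact single_mem_Sup (h2 (by simp)) _

theorem T_Lt (e : Ed) (s : Bool) {n : ℕ} {v : H.V} (hv : v ∈ Sup H (LtP n)) :
    H.T e s v ∈ Sup H (LtP (n + 1)) := by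
  refine Sup_map (H.T e s) (Sup H (LtP (n + 1))).toAddSubgroup ?_ hv
  intro w hw c
  refine T_single_mem e s w c ?_ ?_
  · intro j h
    unfold LtP at hw ⊢
    simpa using hw
  · intro _
    unfold LtP Wd.tl at *
    simp only [List.length_tail]
    omega

theorem T_G {E : List (Ltr J) → Prop} (hE : LastPred E) (e : Ed) (s : Bool) {n : ℕ} (hn : 1 ≤ n)
    {v : H.V} (hv : v ∈ Sup H (GP E n)) : H.T e s v ∈ Sup H (GP E (n + 1)) := by
  refine Sup_map (H.T e s) (Sup H (GP E (n + 1))).toAddSubgroup ?_ hv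
  intro w hw c
  refine T_single_mem e s w c ?_ ?_
  · intro j h
    rcases hw with hw | ⟨hw, hw'⟩
    · left
      simpa using hw
    · right
      refine ⟨by simpa using hw, ?_⟩
      rw [hE]
      · exact hw'
      · intro h0
        rw [h0] at hw
        simp at hw
        omega
  · intro _
    left
    have h3 : w.1.length ≤ n := by
      rcases hw with hw | ⟨hw, _⟩ <;> omega
    unfold Wd.tl
    simp only [List.length_tail]
    omega

theorem op_Lt (l : List (Ltr J)) {n : ℕ} {v : H.V} (hv : v ∈ Sup H (LtP n)) :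
    H.op l v ∈ Sup H (LtP (n + l.length)) := by
  induction l with
  | nil => rw [op_nil]; exact hv
  | cons x l ih =>
    rw [op_cons, end_mul, end_mul, List.length_cons, ← add_assoc]
    exact T_Lt _ _ (Submodule.smul_mem _ _ ih)

theorem op_G {E : List (Ltr J) → Prop} (hE : LastPred E) (l : List (Ltr J)) {n : ℕ} (hn : 1 ≤ n)
    {v : H.V} (hv : v ∈ Sup H (GP E n)) : H.op l v ∈ Sup H (GP E (n + l.length)) := by
  induction l with
  | nil => rw [op_nil]; exact hv
  | cons x l ih =>
    rw [op_cons, end_mul, end_mul, List.length_cons, ← add_assoc]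
    exact T_G hE _ _ (by omega) (Submodule.smul_mem _ _ ih)

theorem Phi_Lt {n m : ℕ} {x v : H.V} (hx : x ∈ Sup H (LtP (n + 1)))
    (hv : v ∈ Sup H (LtP m)) : H.Phi x v ∈ Sup H (LtP (n + m)) := by
  refine Sup_map (M := H.V)
    ((AddMonoidHom.eval v).comp H.Phi) (Sup H (LtP (n + m))).toAddSubgroup ?_ hx
  intro w hw c
  change H.Phi (single w c) v ∈ Sup H (LtP (n + m))
  rw [Phi_single, end_mul]
  refine Submodule.smul_mem _ _ (Lt_mono ?_ (op_Lt w.1 hv))
  unfold LtP at hw
  omega

theorem vac_mem (r : R) : H.L r H.vac ∈ Sup H (LtP 1) :=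
  Submodule.smul_mem _ _ (single_mem_Sup (by simp [LtP, Wd.nil]) 1)

theorem L_vac (r : R) : H.L r H.vac = single (Wd.nil H.o) r := by
  rw [L_apply, HData.vac, smul_single, smul_eq_mul, mul_one]

/-- right multiplication by elements of the base ring preserves the length filtration -/
theorem right_Lt {n : ℕ} {x : H.V} (hx : x ∈ Sup H (LtP n)) (r : R) :
    H.Phi x (H.L r H.vac) ∈ Sup H (LtP n) := by
  rcases n with _ | n
  · have : x = 0 := by
      ext w
      exact hx w (by simp [LtP])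
    rw [this, map_zero]
    exact zero_mem _
  · exact Phi_Lt hx (vac_mem r)

theorem T_vac_dir (e : Ed) (s : Bool) (r : R) :
    H.T e s (H.L r H.vac) ∈ Sup H (GP (EndsDir e s) 1) := by
  rw [L_vac]
  refine T_single_mem e s _ _ ?_ ?_
  · intro j h
    right
    simp [Wd.nil, EndsDir]
  · intro h
    exact absurd rfl h

theorem T_vac (e : Ed) (s : Bool) :
    H.T e s H.vac = single ⟨[⟨e, s, H.o e s⟩], by simp [Red]⟩ 1 := by
  have h := T_red H (e := e) (s := s) (w := Wd.nil H.o) (j := H.o e s) (by simp [Red, Wd.nil]) 1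
  rw [map_one, one_mul, map_one, b_o] at h
  exact h

/-- behaviour of the last letter under right multiplication by the base ring -/
theorem right_last {E : List (Ltr J) → Prop} (hE : LastPred E) {w : Wd H.o}
    {l : List (Ltr J)} {x : Ltr J} (hw : w.1 = l ++ [x]) {r : R}
    (h : H.T x.e x.s (H.L (H.bl x * r) H.vac) ∈ Sup H (GP E 1)) (c : R) :
    H.Phi (single w c) (H.L r H.vac) ∈ Sup H (GP E w.1.length) := by
  rw [Phi_single, end_mul, hw, op_append, end_mul, op_cons, op_nil, mul_one, end_mul]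
  have h1 : H.L (H.bl x) (H.L r H.vac) = H.L (H.bl x * r) H.vac := by
    rw [map_mul, end_mul]
  rw [h1]
  refine Submodule.smul_mem _ _ ?_
  refine G_mono ?_ (op_G hE l le_rfl h)
  simp
  omega

theorem right_ND {e : Ed} {s : Bool} {n : ℕ} {x : H.V}
    (hx : x ∈ Sup H (GP (fun l => ¬ EndsDir e s l) n)) (r : R) :
    H.Phi x (H.L r H.vac) ∈ Sup H (GP (fun l => ¬ EndsDir e s l) n) := by
  refine Sup_map (M := H.V) ((AddMonoidHom.eval (H.L r H.vac)).comp H.Phi)
    (Sup H (GP (fun l => ¬ EndsDir e s l) n)).toAddSubgroup ?_ hx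
  intro w hw c
  change H.Phi (single w c) (H.L r H.vac) ∈ Sup H (GP (fun l => ¬ EndsDir e s l) n)
  rcases hw with hw | ⟨hw, hw'⟩
  · exact Lt_G (right_Lt (single_mem_Sup hw c) r)
  · by_cases hnil : w.1 = []
    · have h1 : w = Wd.nil H.o := Subtype.ext hnil
      subst h1
      rw [Phi_single, end_mul]
      change c • (H.op [] (H.L r H.vac)) ∈ _
      rw [op_nil, end_one, L_vac]
      exact Submodule.smul_mem _ _ (single_mem_Sup (Or.inr ⟨hw, hw'⟩) _)
    · obtain ⟨l, y, hl⟩ := exists_append hnil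
      rw [← hw]
      refine right_last (lastPred_not (lastPred_dir e s)) hl ?_ c
      refine Sup_mono ?_ (T_vac_dir y.e y.s (H.bl y * r))
      rintro u (hu | ⟨hu, hu'⟩)
      · exact Or.inl hu
      · right
        refine ⟨hu, fun hu2 => ?_⟩
        apply hw'
        rw [hl, endsDir_append]
        obtain ⟨z, hz, hz'⟩ := hu'
        obtain ⟨z', hz2, hz3⟩ := hu2
        simp only [Option.mem_def] at hz hz2
        rw [hz] at hz2
        simp only [Option.some.injEq] at hz2
        subst hz2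
        exact ⟨hz'.1 ▸ hz3.1, hz'.2 ▸ hz3.2⟩

theorem right_EO {e : Ed} {s : Bool} {n : ℕ} {x : H.V}
    (hx : x ∈ Sup H (GP (EndsO H.o e s) n)) (f : F e) :
    H.Phi x (H.L (H.σ e (!s) f) H.vac) ∈ Sup H (GP (EndsO H.o e s) n) := by
  refine Sup_map (M := H.V) ((AddMonoidHom.eval (H.L (H.σ e (!s) f) H.vac)).comp H.Phi)
    (Sup H (GP (EndsO H.o e s) n)).toAddSubgroup ?_ hx
  intro w hw c
  change H.Phi (single w c) (H.L (H.σ e (!s) f) H.vac) ∈ Sup H (GP (EndsO H.o e s) n)
  rcases hw with hw | ⟨hw, hw'⟩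
  · exact Lt_G (right_Lt (single_mem_Sup hw c) _)
  · have hnil : w.1 ≠ [] := by
      rintro h
      rw [h] at hw'
      simp [EndsO] at hw'
    obtain ⟨l, y, hl⟩ := exists_append hnil
    rw [hl, endsO_append] at hw'
    subst hw'
    rw [← hw]
    refine right_last (lastPred_o _ e s) hl ?_ c
    have h1 : H.bl ⟨e, s, H.o e s⟩ = 1 := b_o H e s
    rw [h1, one_mul]
    dsimp only
    rw [T_L, T_vac]
    exact Submodule.smul_mem _ _ (single_mem_Sup (Or.inr (by simp [EndsO])) _)

theorem right_EO' {e : Ed} {s : Bool} {n : ℕ} {x : H.V}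
    (hx : x ∈ Sup H (GP (EndsO H.o e (!s)) n)) (f : F e) :
    H.Phi x (H.L (H.σ e s f) H.vac) ∈ Sup H (GP (EndsO H.o e (!s)) n) := by
  have h := right_EO hx f
  rwa [Bool.not_not] at h

/-- A right linear functional separating a vector from the lower part of the filtration. -/
theorem exists_functional {e : Ed} {s : Bool} {n : ℕ} {x : H.V}
    (hx : x ∉ Sup H (GP (EndsO H.o e (!s)) n)) :
    ∃ lam : H.V →+ F e, (∀ v f, lam (H.Phi v (H.L (H.σ e s f) H.vac)) = lam v * f) ∧
      (∀ v ∈ Sup H (GP (EndsO H.o e (!s)) n), lam v = 0) ∧ lam x ≠ 0 := by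
  let _ : Module (F e)ᵐᵒᵖ H.V :=
    { smul := fun a v => H.Phi v (H.L (H.σ e s a.unop) H.vac)
      one_smul := fun v => by
        change H.Phi v (H.L (H.σ e s (1 : F e)) H.vac) = v
        rw [map_one, map_one, end_one, Phi_apply_vac H]
      mul_smul := fun a c v => by
        change H.Phi v (H.L (H.σ e s (c.unop * a.unop)) H.vac) =
          H.Phi (H.Phi v (H.L (H.σ e s c.unop) H.vac)) (H.L (H.σ e s a.unop) H.vac)
        rw [← Phi_right H (L_mem H _), map_mul, map_mul, end_mul]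
      smul_zero := fun a => by
        change H.Phi 0 _ = 0
        rw [map_zero]; rfl
      smul_add := fun a u v => by
        change H.Phi (u + v) _ = H.Phi u _ + H.Phi v _
        rw [map_add]; rfl
      add_smul := fun a c v => by
        change H.Phi v (H.L (H.σ e s (a.unop + c.unop)) H.vac) =
          H.Phi v (H.L (H.σ e s a.unop) H.vac) + H.Phi v (H.L (H.σ e s c.unop) H.vac)
        rw [map_add, map_add, end_add, map_add]
      zero_smul := fun v => by
        change H.Phi v (H.L (H.σ e s (0 : F e)) H.vac) = 0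
        rw [map_zero, map_zero, end_zero, map_zero] }
  let N : Submodule (F e)ᵐᵒᵖ H.V :=
    { carrier := {v | v ∈ Sup H (GP (EndsO H.o e (!s)) n)}
      zero_mem' := zero_mem (Sup H (GP (EndsO H.o e (!s)) n))
      add_mem' := fun hu hv => (Sup H (GP (EndsO H.o e (!s)) n)).add_mem hu hv
      smul_mem' := fun a v hv => right_EO' hv a.unop }
  have hxN : x ∉ N := hx
  obtain ⟨f, hf1, hf2⟩ := Submodule.exists_le_ker_of_notMem hxN
  refine ⟨(MulOpposite.opAddEquiv (α := F e)).symm.toAddMonoidHom.comp f.toAddMonoidHom,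
    ?_, ?_, ?_⟩
  · intro v a
    change (f (H.Phi v (H.L (H.σ e s a) H.vac))).unop = (f v).unop * a
    have h : f (H.Phi v (H.L (H.σ e s a) H.vac)) = (MulOpposite.op a) • f v :=
      f.map_smul (MulOpposite.op a) v
    rw [h]
    rfl
  · intro v hv
    change (f v).unop = 0
    have : f v = 0 := hf2 hv
    rw [this]
    rfl
  · change (f x).unop ≠ 0
    simpa using hf1

end Filt

end HNN

end Vale.Agent.P201
end
end

section

section

/-!
Top coefficients of products in a ring with stable letters.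
-/

namespace Vale.Agent.P201

namespace HNN

open Finsupp

section Top

variable {R : Type*} [Ring R] {Ed : Type*} {F : Ed → Type*} [∀ e, DivisionRing (F e)]
  {J : Ed → Bool → Type*} {H : HData R Ed F J}

theorem op_single_not_red {w f : Wd H.o} (h : ¬ Red H.o (w.1 ++ f.1)) :
    H.op w.1 (single f 1) ∈ Sup H (LtP (w.1.length + f.1.length)) := by
  rw [red_append] at h
  push Not at h
  obtain ⟨x, hx, y, hy, hxy⟩ := h w.2 f.2
  have hnil : w.1 ≠ [] := by
    rintro h0
    rw [h0] at hx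
    simp at hx
  obtain ⟨l, x', hl⟩ := exists_append hnil
  rw [hl] at hx
  have hx2 : x' = x := by simpa using hx
  subst hx2
  obtain ⟨f, hf⟩ := f
  rcases f with _ | ⟨z, f⟩
  · simp at hy
  simp only [List.head?_cons, Option.mem_def, Option.some.injEq] at hy
  subst hy
  unfold Ok at hxy
  push Not at hxy
  obtain ⟨hxo, hopp⟩ := hxy
  obtain ⟨xe, xs, xj⟩ := x'
  dsimp only at hxo
  subst hxo
  rw [hl, op_append, end_mul, op_cons, op_nil, mul_one, end_mul]
  have h1 : H.bl ⟨xe, xs, H.o xe xs⟩ = 1 := b_o H xe xs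
  have h2 := T_not_red H hf hopp.1 hopp.2 1
  rw [map_one, map_one, one_mul] at h2
  rw [h1, map_one, end_one]
  dsimp only at h2 ⊢
  rw [h2]
  refine Lt_mono ?_ (op_Lt l (n := f.length + 1) (single_mem_Sup ?_ _))
  · simp
    omega
  · unfold LtP
    simp

open Classical in
/-- Top coefficients of a product with a word. -/
theorem Phi_single_top {n : ℕ} {x : H.V} (hx : x ∈ Sup H (LtP (n + 1)))
    (f t : Wd H.o) (ht : t.1.length = n + f.1.length) :
    H.Phi x (single f 1) t =
      if h : ∃ u : Wd H.o, u.1 ++ f.1 = t.1 then x h.choose else 0 := by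
  have h1 : H.Phi x (single f 1) t =
      ∑ w ∈ x.support, x w * H.op w.1 (single f 1) t := by
    conv_lhs => rw [← Finsupp.sum_single x, Finsupp.sum, map_sum]
    have h2 : ∀ (A : Finset (Wd H.o)),
        (∑ z ∈ A, H.Phi (single z (x z))) (single f 1) t =
        ∑ z ∈ A, x z * H.op z.1 (single f 1) t := by
      intro A
      induction A using Finset.induction_on with
      | empty => rfl
      | insert z A hz ih =>
        rw [Finset.sum_insert hz, Finset.sum_insert hz, end_add, Finsupp.add_apply, ih, Phi_single,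
          end_mul, L_apply]
        rfl
    exact h2 _
  have h3 : ∀ w ∈ x.support, w.1 ++ f.1 ≠ t.1 → x w * H.op w.1 (single f 1) t = 0 := by
    intro w hw hne
    have hlen : w.1.length < n + 1 := by
      by_contra h
      exact Finsupp.mem_support_iff.1 hw (hx w h)
    by_cases h : Red H.o (w.1 ++ f.1)
    · rw [op_single H w.1 f h, Finsupp.single_apply, if_neg, mul_zero]
      intro h4
      exact hne (congrArg Subtype.val h4)
    · rw [op_single_not_red h t, mul_zero]
      unfold LtP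
      omega
  rw [h1]
  split_ifs with h
  · have hu := h.choose_spec
    set u := h.choose
    by_cases hus : u ∈ x.support
    · rw [Finset.sum_eq_single u]
      · have h5 : Red H.o (u.1 ++ f.1) := by rw [hu]; exact t.2
        rw [op_single H u.1 f h5, Finsupp.single_apply, if_pos (Subtype.ext hu), mul_one]
      · intro w hw hwu
        apply h3 w hw
        intro h6
        rw [← hu] at h6
        exact hwu (Subtype.ext (List.append_cancel_right h6))
      · intro h7
        exact absurd hus h7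
    · rw [Finsupp.notMem_support_iff.1 hus]
      apply Finset.sum_eq_zero
      intro w hw
      apply h3 w hw
      intro h6
      rw [← hu] at h6
      have : w = u := Subtype.ext (List.append_cancel_right h6)
      rw [this] at hw
      exact hus hw
  · apply Finset.sum_eq_zero
    intro w hw
    apply h3 w hw
    intro h6
    exact h ⟨w, h6⟩

theorem Phi_single_top_append {n : ℕ} {x : H.V} (hx : x ∈ Sup H (LtP (n + 1)))
    (u f : Wd H.o) (h : Red H.o (u.1 ++ f.1)) (hu : u.1.length = n) :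
    H.Phi x (single f 1) ⟨u.1 ++ f.1, h⟩ = x u := by
  rw [Phi_single_top hx f ⟨u.1 ++ f.1, h⟩ (by simp [hu])]
  have h1 : ∃ u' : Wd H.o, u'.1 ++ f.1 = u.1 ++ f.1 := ⟨u, rfl⟩
  rw [dif_pos h1]
  congr 1
  exact Subtype.ext (List.append_cancel_right h1.choose_spec)

theorem Phi_single_top_ne {n : ℕ} {x : H.V} (hx : x ∈ Sup H (LtP (n + 1)))
    (f t : Wd H.o) (ht : t.1.length = n + f.1.length) (h : ∀ u : Wd H.o, u.1 ++ f.1 ≠ t.1) :
    H.Phi x (single f 1) t = 0 := by
  rw [Phi_single_top hx f t ht, dif_neg]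
  rintro ⟨u, hu⟩
  exact h u hu

/-- expansion of a product along the right factor -/
theorem Phi_expand (x y : H.V) (t : Wd H.o) :
    H.Phi x y t = ∑ w ∈ y.support, H.Phi x (single w (y w)) t := by
  conv_lhs => rw [← Finsupp.sum_single y, Finsupp.sum, map_sum]
  rw [Finsupp.finsetSum_apply]

theorem Phi_single_right (x : H.V) (w : Wd H.o) (r : R) :
    H.Phi x (single w r) = H.Phi (H.Phi x (H.L r H.vac)) (single w 1) := by
  rw [← Phi_right H (L_mem H r), L_apply, smul_single, smul_eq_mul, mul_one]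

/-- The top coefficient of a product. -/
theorem Phi_top {n m : ℕ} {x y : H.V} (hx : x ∈ Sup H (LtP (n + 1)))
    (hy : y ∈ Sup H (LtP (m + 1))) (u f : Wd H.o) (hu : u.1.length = n) (hf : f.1.length = m)
    (h : Red H.o (u.1 ++ f.1)) :
    H.Phi x y ⟨u.1 ++ f.1, h⟩ = H.Phi x (H.L (y f) H.vac) u := by
  rw [Phi_expand]
  by_cases hyf : y f = 0
  · rw [hyf]
    have h0 : H.Phi x (H.L 0 H.vac) u = 0 := by
      rw [map_zero, end_zero, map_zero]; rfl
    rw [h0]
    refine Finset.sum_eq_zero fun w hw => ?_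
    have hwf : w ≠ f := by
      rintro rfl
      exact Finsupp.mem_support_iff.1 hw hyf
    have hwm : w.1.length ≤ m := by
      by_contra h
      exact Finsupp.mem_support_iff.1 hw (hy w (by unfold LtP; omega))
    rcases Nat.lt_or_ge w.1.length m with h3 | h3
    · have h4 : H.Phi x (single w (y w)) ∈ Sup H (LtP (n + (w.1.length + 1))) :=
        Phi_Lt hx (single_mem_Sup (by unfold LtP; omega) _)
      refine h4 _ ?_
      unfold LtP
      simp only [List.length_append]
      omega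
    · rw [Phi_single_right]
      refine Phi_single_top_ne (right_Lt hx _) w _ (by simp; omega) ?_
      intro u' hu'
      apply hwf
      apply Subtype.ext
      simp only at hu'
      exact (List.append_inj_right' hu' (by omega))
  rw [Finset.sum_eq_single f]
  · rw [Phi_single_right, Phi_single_top_append (right_Lt hx _) u f h hu]
  · intro w hw hwf
    have hwm : w.1.length ≤ m := by
      by_contra h
      exact Finsupp.mem_support_iff.1 hw (hy w (by unfold LtP; omega))
    rcases Nat.lt_or_ge w.1.length m with h3 | h3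
    · have h4 : H.Phi x (single w (y w)) ∈ Sup H (LtP (n + (w.1.length + 1))) :=
        Phi_Lt hx (single_mem_Sup (by unfold LtP; omega) _)
      refine h4 _ ?_
      unfold LtP
      simp only [List.length_append]
      omega
    · rw [Phi_single_right]
      refine Phi_single_top_ne (right_Lt hx _) w _ (by simp; omega) ?_
      intro u' hu'
      apply hwf
      apply Subtype.ext
      simp only at hu'
      exact (List.append_inj_right' hu' (by omega))
  · intro h5
    exact absurd (Finsupp.mem_support_iff.2 hyf) h5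

end Top

end HNN

end Vale.Agent.P201
end
end

section

section

/-!
The linear functional argument for rings with stable letters.
-/

namespace Vale.Agent.P201

namespace HNN

open Finsupp

section Unit

variable {R : Type*} [Ring R] {Ed : Type*} {F : Ed → Type*} [∀ e, DivisionRing (F e)]
  {J : Ed → Bool → Type*} {H : HData R Ed F J}

variable (H) in
/-- `U ↦ ∑ U_j * t * b_j` -/
noncomputable def Psi (e : Ed) (s : Bool) : (J e s →₀ H.V) →+ H.V :=
  Finsupp.liftAddHom fun j =>
    (AddMonoidHom.eval (H.T e s (H.L (H.b e s j) H.vac))).comp H.Phi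

theorem Psi_single (e : Ed) (s : Bool) (j : J e s) (u : H.V) :
    Psi H e s (single j u) = H.Phi u (H.T e s (H.L (H.b e s j) H.vac)) := by
  rw [Psi, Finsupp.liftAddHom_apply_single]
  rfl

theorem TL_mem (e : Ed) (s : Bool) (r : R) : H.T e s * H.L r ∈ H.S :=
  mul_mem (T_mem H e s) (L_mem H r)

theorem T_basis_vac (e : Ed) (s : Bool) (j : J e s) :
    H.T e s (H.L (H.b e s j) H.vac) = single (⟨[⟨e, s, j⟩], by simp [Red]⟩ : Wd H.o) 1 := by
  have h := T_red H (e := e) (s := s) (w := Wd.nil H.o) (j := j) (by simp [Red, Wd.nil]) 1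
  rw [map_one, one_mul, map_one] at h
  rw [L_vac]
  exact h

theorem red_snoc {e : Ed} {s : Bool} {j : J e s} {w : Wd H.o}
    (h : ¬ EndsO H.o e (!s) w.1) : Red H.o (w.1 ++ [⟨e, s, j⟩]) := by
  refine red_append.2 ⟨w.2, by simp [Red], ?_⟩
  intro x hx y hy hxo hopp
  simp only [List.head?_cons, Option.mem_def, Option.some.injEq] at hy
  subst hy
  apply h
  obtain ⟨xe, xs, xj⟩ := x
  obtain ⟨h1, h2⟩ := hopp
  dsimp only at h1 h2 hxo
  subst h1
  subst hxo
  have h3 : xs = !s := by rw [h2]; simp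
  subst h3
  exact hx

theorem not_endsO_of_red {e : Ed} {s : Bool} {j : J e s} {l : List (Ltr J)}
    (h : Red H.o (l ++ [⟨e, s, j⟩])) : ¬ EndsO H.o e (!s) l := by
  intro h1
  have h2 := (red_append.1 h).2.2 _ h1 ⟨e, s, j⟩ (by simp) rfl
  exact h2 ⟨rfl, by simp⟩

theorem decomp (e : Ed) (s : Bool) {k : ℕ} {x : H.V} (hx : x ∈ Sup H (LtP (k + 2))) :
    ∃ U : J e s →₀ H.V,
      (∀ j, U j ∈ Sup H fun w => w.1.length = k ∧ ¬ EndsO H.o e (!s) w.1) ∧
      ∃ x' ∈ Sup H (GP (fun l => ¬ EndsDir e s l) (k + 1)), x = Psi H e s U + x' := by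
  classical
  let N : AddSubgroup H.V :=
    { carrier := {x | ∃ U : J e s →₀ H.V,
        (∀ j, U j ∈ Sup H fun w => w.1.length = k ∧ ¬ EndsO H.o e (!s) w.1) ∧
        ∃ x' ∈ Sup H (GP (fun l => ¬ EndsDir e s l) (k + 1)), x = Psi H e s U + x'}
      zero_mem' := ⟨0, fun j => zero_mem _, 0, zero_mem _, by simp⟩
      add_mem' := by
        rintro x y ⟨U, hU, x', hx', rfl⟩ ⟨V, hV, y', hy', rfl⟩
        refine ⟨U + V, fun j => add_mem (hU j) (hV j), x' + y', add_mem hx' hy', ?_⟩
        rw [map_add]; abel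
      neg_mem' := by
        rintro x ⟨U, hU, x', hx', rfl⟩
        refine ⟨-U, fun j => neg_mem (hU j), -x', neg_mem hx', ?_⟩
        have h1 : Psi H e s (-U) = -Psi H e s U := (Psi H e s).map_neg U
        rw [h1]; abel }
  refine Sup_map (AddMonoidHom.id _) N ?_ hx
  intro w hw c
  change ∃ U : J e s →₀ H.V,
        (∀ j, U j ∈ Sup H fun w => w.1.length = k ∧ ¬ EndsO H.o e (!s) w.1) ∧
        ∃ x' ∈ Sup H (GP (fun l => ¬ EndsDir e s l) (k + 1)), single w c = Psi H e s U + x'
  by_cases hend : w.1.length = k + 1 ∧ EndsDir e s w.1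
  · obtain ⟨hlen, hend⟩ := hend
    have hnil : w.1 ≠ [] := by
      intro h
      rw [h] at hlen
      simp at hlen
    obtain ⟨l, y, hl⟩ := exists_append hnil
    rw [hl, endsDir_append] at hend
    obtain ⟨ye, ys, yj⟩ := y
    obtain ⟨h1, h2⟩ := hend
    dsimp only at h1 h2
    subst h1
    subst h2
    have hred : Red H.o (l ++ [⟨ye, ys, yj⟩]) := by rw [← hl]; exact w.2
    have hlk : l.length = k := by
      rw [hl] at hlen
      simpa using hlen
    refine ⟨single yj (single ⟨l, (red_append.1 hred).1⟩ c), fun j' => ?_, 0, zero_mem _, ?_⟩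
    · rw [Finsupp.single_apply]
      split_ifs
      · exact single_mem_Sup ⟨hlk, not_endsO_of_red hred⟩ c
      · exact zero_mem _
    · rw [Psi_single, T_basis_vac, add_zero, Phi_single, end_mul, L_apply]
      have h := op_single H l ⟨[⟨ye, ys, yj⟩], by simp [Red]⟩ hred
      rw [h, smul_single, smul_eq_mul, mul_one]
      congr 1
      exact Subtype.ext hl
  · refine ⟨0, fun j => zero_mem _, single w c, single_mem_Sup ?_ c, by simp⟩
    unfold LtP at hw
    unfold GP
    push Not at hend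
    rcases Nat.lt_or_ge w.1.length (k + 1) with h1 | h1
    · exact Or.inl h1
    · exact Or.inr ⟨by omega, hend (by omega)⟩

theorem Psi_coeff {e : Ed} {s : Bool} {k : ℕ} (U : J e s →₀ H.V)
    (hU : ∀ j, U j ∈ Sup H (LtP (k + 1))) {w : Wd H.o} (hw : w.1.length = k) {j' : J e s}
    (hred : Red H.o (w.1 ++ [⟨e, s, j'⟩])) :
    Psi H e s U ⟨w.1 ++ [⟨e, s, j'⟩], hred⟩ = U j' w := by
  classical
  have h3 : Psi H e s U ⟨w.1 ++ [⟨e, s, j'⟩], hred⟩ =
      ∑ j ∈ U.support, H.Phi (U j) (H.T e s (H.L (H.b e s j) H.vac))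
        ⟨w.1 ++ [⟨e, s, j'⟩], hred⟩ := by
    rw [Psi, Finsupp.liftAddHom_apply, Finsupp.sum, Finsupp.finsetSum_apply]
    rfl
  rw [h3]
  by_cases hsup : j' ∈ U.support
  · rw [Finset.sum_eq_single j']
    · rw [T_basis_vac]
      exact Phi_single_top_append (hU j') w ⟨[⟨e, s, j'⟩], by simp [Red]⟩ hred hw
    · intro j _ hjj'
      rw [T_basis_vac]
      refine Phi_single_top_ne (hU j) _ _ (by simp [hw]) ?_
      intro u hu
      simp only at hu
      have h5 := congrArg List.getLast? hu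
      simp at h5
      exact hjj' h5
    · intro h7
      exact absurd hsup h7
  · rw [Finsupp.notMem_support_iff.1 hsup]
    rw [Finset.sum_eq_zero]
    · rfl
    · intro j hj
      have hjj' : j ≠ j' := by
        rintro rfl
        exact hsup hj
      rw [T_basis_vac]
      refine Phi_single_top_ne (hU j) _ _ (by simp [hw]) ?_
      intro u hu
      simp only at hu
      have h5 := congrArg List.getLast? hu
      simp at h5
      exact hjj' h5

variable (H) in
/-- coefficients after right multiplication -/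
noncomputable def VV (e : Ed) (s : Bool) (r : R) :
    (J e s →₀ H.V) →+ (J e s →₀ H.V) :=
  Finsupp.liftAddHom fun j =>
    { toFun := fun u => (H.rep e s (H.b e s j * r)).mapRange
        (fun g => H.Phi u (H.L (H.σ e s g) H.vac)) (by simp)
      map_zero' := by ext; simp [end_zero]
      map_add' := fun u v => by ext; simp [end_add] }

theorem VV_single (e : Ed) (s : Bool) (r : R) (j : J e s) (u : H.V) :
    VV H e s r (single j u) = (H.rep e s (H.b e s j * r)).mapRange
      (fun g => H.Phi u (H.L (H.σ e s g) H.vac)) (by simp) := by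
  rw [VV, Finsupp.liftAddHom_apply_single]
  rfl

theorem Psi_mapRange (e : Ed) (s : Bool) (u : H.V) (φ : J e s →₀ F e) :
    Psi H e s (φ.mapRange (fun g => H.Phi u (H.L (H.σ e s g) H.vac)) (by simp)) =
      H.Phi u (H.T e s (H.L ((H.rep e s).symm φ) H.vac)) := by
  induction φ using Finsupp.induction_linear with
  | zero => simp
  | add f g hf hg =>
    rw [Finsupp.mapRange_add (fun a c => by rw [map_add, map_add, end_add, map_add]), map_add,
      hf, hg, map_add, map_add, end_add, map_add, map_add]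
  | single j c =>
    rw [Finsupp.mapRange_single, Psi_single, rep_symm_single, ← Phi_right H (L_mem H _), ← T_L,
      map_mul, end_mul]

theorem Psi_VV (e : Ed) (s : Bool) (r : R) (U : J e s →₀ H.V) :
    Psi H e s (VV H e s r U) = H.Phi (Psi H e s U) (H.L r H.vac) := by
  induction U using Finsupp.induction_linear with
  | zero => simp
  | add f g hf hg => rw [map_add, map_add, hf, hg, map_add, map_add, end_add]
  | single j u =>
    rw [VV_single, Psi_mapRange, AddEquiv.symm_apply_apply, Psi_single]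
    have h := Phi_right H (TL_mem e s (H.b e s j)) u (H.L r H.vac)
    rw [end_mul, end_mul] at h
    rw [← h, map_mul, end_mul]

theorem lam_VV {e : Ed} {s : Bool} {lam : H.V →+ F e}
    (hlam : ∀ v f, lam (H.Phi v (H.L (H.σ e s f) H.vac)) = lam v * f)
    (r : R) (U : J e s →₀ H.V) (j' : J e s) :
    H.rep e s ((H.rep e s).symm (U.mapRange lam (map_zero lam)) * r) j' =
      lam (VV H e s r U j') := by
  induction U using Finsupp.induction_linear with
  | zero => simp
  | add f g hf hg =>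
    rw [Finsupp.mapRange_add (fun a c => map_add lam a c), map_add, add_mul, map_add,
      Finsupp.add_apply, hf, hg, map_add, Finsupp.add_apply, map_add]
  | single j u =>
    rw [VV_single, Finsupp.mapRange_apply, hlam, Finsupp.mapRange_single, rep_symm_single,
      mul_assoc, H.rep_mul, Finsupp.smul_apply, smul_eq_mul]

theorem VV_mem (e : Ed) (s : Bool) (r : R) {k : ℕ} (U : J e s →₀ H.V)
    (hU : ∀ j, U j ∈ Sup H (LtP k)) (j' : J e s) : VV H e s r U j' ∈ Sup H (LtP k) := by
  classical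
  have h : VV H e s r U = U.sum fun j u => VV H e s r (single j u) := by
    conv_lhs => rw [← Finsupp.sum_single U, Finsupp.sum, map_sum]
    rfl
  rw [h, Finsupp.sum, Finsupp.finsetSum_apply]
  refine sum_mem fun j _ => ?_
  rw [VV_single, Finsupp.mapRange_apply]
  exact right_Lt (hU j) _

theorem exists_p {e : Ed} {s : Bool} {k : ℕ} {x : H.V} (hx : x ∈ Sup H (LtP (k + 2)))
    (hx2 : x ∉ Sup H (GP (fun l => ¬ EndsDir e s l) (k + 1))) :
    ∃ p : R, p ≠ 0 ∧
      (∀ r : R, H.Phi x (H.L r H.vac) ∈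
        Sup H (GP (fun l => EndsDir e s l → EndsO H.o e s l) (k + 1)) →
          ∃ f : F e, p * r = H.σ e (!s) f) ∧
      (∀ r : R, H.Phi x (H.L r H.vac) ∈ Sup H (GP (fun l => ¬ EndsDir e s l) (k + 1)) →
          p * r = 0) := by
  classical
  obtain ⟨U, hU, x', hx', rfl⟩ := decomp e s hx
  have hULt : ∀ j, U j ∈ Sup H (LtP (k + 1)) := fun j =>
    Sup_mono (fun w hw => by unfold LtP; omega) (hU j)
  -- some coefficient is nonzero
  obtain ⟨j0, hUj0⟩ : ∃ j, U j ∉ Sup H (GP (EndsO H.o e (!s)) k) := by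
    by_contra hcon
    push Not at hcon
    apply hx2
    have h1 : U = 0 := by
      ext j w
      by_cases hw : w.1.length = k ∧ ¬ EndsO H.o e (!s) w.1
      · exact hcon j w (fun h => by
          rcases h with h | ⟨_, h⟩
          · omega
          · exact hw.2 h)
      · exact hU j w hw
    rw [h1, map_zero, zero_add]
    exact hx'
  obtain ⟨lam, hlam1, hlam2, hlam3⟩ := exists_functional hUj0
  have key : ∀ (r : R) (E : List (Ltr J) → Prop) (j' : J e s),
      (∀ w : Wd H.o, w.1.length = k → ¬ E (w.1 ++ [⟨e, s, j'⟩])) →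
      H.Phi (Psi H e s U + x') (H.L r H.vac) ∈ Sup H (GP E (k + 1)) →
      H.rep e s ((H.rep e s).symm (U.mapRange lam (map_zero lam)) * r) j' = 0 := by
    intro r E j' hE hr
    rw [lam_VV hlam1]
    apply hlam2
    intro w hw
    have hVLt := VV_mem e s r U hULt
    by_cases hwk : w.1.length < k + 1
    swap
    · exact hVLt j' w hwk
    unfold GP at hw
    push Not at hw
    have hlen : w.1.length = k := by omega
    have hred : Red H.o (w.1 ++ [⟨e, s, j'⟩]) := red_snoc (hw.2 hlen)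
    rw [← Psi_coeff (VV H e s r U) hVLt hlen hred, Psi_VV]
    have h1 : H.Phi (Psi H e s U + x') (H.L r H.vac) ⟨w.1 ++ [⟨e, s, j'⟩], hred⟩ = 0 := by
      refine hr _ ?_
      rintro (h | ⟨_, h⟩)
      · simp only [List.length_append, List.length_singleton] at h
        omega
      · exact hE w hlen h
    rw [map_add, end_add, Finsupp.add_apply] at h1
    have h2 : H.Phi x' (H.L r H.vac) ⟨w.1 ++ [⟨e, s, j'⟩], hred⟩ = 0 := by
      refine right_ND hx' r _ ?_
      rintro (h | ⟨_, h⟩)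
      · simp only [List.length_append, List.length_singleton] at h
        omega
      · apply h
        rw [endsDir_append]
        exact ⟨rfl, rfl⟩
    rwa [h2, add_zero] at h1
  refine ⟨(H.rep e s).symm (U.mapRange lam (map_zero lam)), ?_, ?_, ?_⟩
  · intro h
    apply hlam3
    have h2 := congrArg (fun z => H.rep e s z j0) h
    simpa using h2
  · intro r hr
    refine ⟨H.rep e s ((H.rep e s).symm (U.mapRange lam (map_zero lam)) * r) (H.o e s), ?_⟩
    apply (H.rep e s).injective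
    rw [rep_σ]
    ext j'
    by_cases hj' : j' = H.o e s
    · subst hj'
      rw [Finsupp.single_eq_same]
    · rw [Finsupp.single_apply, if_neg (fun h => hj' h.symm)]
      refine key r _ j' ?_ hr
      intro w _ h
      have h3 := h (endsDir_append.2 ⟨rfl, rfl⟩)
      rw [endsO_append] at h3
      simp only [Ltr.mk.injEq, heq_eq_eq, true_and] at h3
      exact hj' h3
  · intro r hr
    apply (H.rep e s).injective
    rw [map_zero]
    ext j'
    refine key r _ j' ?_ hr
    intro w _ h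
    exact h (endsDir_append.2 ⟨rfl, rfl⟩)

theorem eq_zero_of_Lt_zero {x : H.V} (hx : x ∈ Sup H (LtP 0)) : x = 0 := by
  ext w
  exact hx w (by simp [LtP])

theorem eq_L_vac {x : H.V} (hx : x ∈ Sup H (LtP 1)) :
    x = H.L (x (Wd.nil H.o)) H.vac := by
  classical
  ext w
  rw [L_vac, Finsupp.single_apply]
  split_ifs with h
  · rw [h]
  · apply hx
    unfold LtP
    intro h1
    apply h
    apply Subtype.ext
    have : w.1 = [] := List.length_eq_zero_iff.1 (by omega)
    rw [this]
    rfl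

/-- right multiplication by a nonzero element of the base ring is injective -/
theorem right_inj [NoZeroDivisors R] {x : H.V} (hx : x ≠ 0) {r : R}
    (h : H.Phi x (H.L r H.vac) = 0) : r = 0 := by
  classical
  have hex : ∃ n, x ∈ Sup H (LtP n) := by
    refine ⟨(x.support.sup fun w => w.1.length) + 1, fun w hw => ?_⟩
    by_contra h
    apply hw
    unfold LtP
    have := Finset.le_sup (f := fun w : Wd H.o => w.1.length) (Finsupp.mem_support_iff.2 h)
    omega
  let n := Nat.find hex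
  have hn : x ∈ Sup H (LtP n) := Nat.find_spec hex
  have hmin : ∀ m < n, x ∉ Sup H (LtP m) := fun m hm => Nat.find_min hex hm
  rcases hnn : n with _ | _ | k
  · rw [hnn] at hn
    exact absurd (eq_zero_of_Lt_zero hn) hx
  · rw [hnn] at hn
    have h1 := eq_L_vac hn
    rw [h1, Phi_L_vac] at h
    have h2 : H.L (x (Wd.nil H.o)) (H.L r H.vac) =
        H.L (x (Wd.nil H.o) * r) H.vac := by rw [map_mul, end_mul]
    rw [h2, L_vac, single_eq_zero] at h
    rcases mul_eq_zero.1 h with h3 | h3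
    · rw [h3, map_zero, end_zero] at h1
      exact absurd h1 hx
    · exact h3
  · rw [hnn] at hn
    have h1 := hmin (k + 1) (by omega)
    -- a top word
    rw [mem_Sup] at h1
    push Not at h1
    obtain ⟨w, hw1, hw2⟩ := h1
    have hwlen : w.1.length = k + 1 := by
      have : w.1.length < k + 1 + 1 := by
        by_contra h3
        exact hw2 (hn w h3)
      unfold LtP at hw1
      omega
    have hnil : w.1 ≠ [] := by
      intro h
      rw [h] at hwlen
      simp at hwlen
    obtain ⟨l, y, hl⟩ := exists_append hnil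
    have hnd : x ∉ Sup H (GP (fun l => ¬ EndsDir y.e y.s l) (k + 1)) := by
      intro h3
      apply hw2
      apply h3
      rintro (h4 | ⟨_, h4⟩)
      · omega
      · apply h4
        rw [hl, endsDir_append]
        exact ⟨rfl, rfl⟩
    obtain ⟨p, hp, _, hp2⟩ := exists_p hn hnd
    have h4 := hp2 r (by rw [h]; exact zero_mem _)
    exact (mul_eq_zero.1 h4).resolve_left hp

end Unit

end HNN

end Vale.Agent.P201
end
end

section

section

/-!
A ring with stable letters over a domain is a domain.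
-/

namespace Vale.Agent.P201

namespace HNN

open Finsupp

section Dom

variable {R : Type*} [Ring R] {Ed : Type*} {F : Ed → Type*} [∀ e, DivisionRing (F e)]
  {J : Ed → Bool → Type*} {H : HData R Ed F J}

theorem red_app {w : Wd H.o} {x : Ltr J} {l : List (Ltr J)} (hl : Red H.o (x :: l))
    (h : ¬ EndsO H.o x.e (!x.s) w.1) : Red H.o (w.1 ++ x :: l) := by
  refine red_append.2 ⟨w.2, hl, ?_⟩
  intro y hy z hz hyo hopp
  simp only [List.head?_cons, Option.mem_def, Option.some.injEq] at hz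
  subst hz
  apply h
  obtain ⟨ye, ys, yj⟩ := y
  obtain ⟨xe, xs, xj⟩ := x
  obtain ⟨h1, h2⟩ := hopp
  dsimp only at h1 h2 hyo
  subst h1
  subst hyo
  have h3 : ys = !xs := by rw [h2]; simp
  subst h3
  exact hy

theorem Phi_L_L (x : H.V) (r r' : R) :
    H.Phi (H.Phi x (H.L r H.vac)) (H.L r' H.vac) = H.Phi x (H.L (r * r') H.vac) := by
  rw [← Phi_right H (L_mem H r), map_mul, end_mul]

/-- multiplying on the right by a stable letter -/
theorem right_T_single {e : Ed} {s : Bool} (w : Wd H.o) (c : R) :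
    H.Phi (single w c) (H.T e s H.vac) ∈ Sup H (GP (EndsO H.o e s) (w.1.length + 1)) := by
  rw [Phi_single, end_mul]
  refine Submodule.smul_mem _ _ ?_
  rw [add_comm]
  refine op_G (lastPred_o _ e s) w.1 le_rfl ?_
  rw [T_vac]
  exact single_mem_Sup (Or.inr (by simp [EndsO])) _

theorem right_T_ends {e : Ed} {s : Bool} {w : Wd H.o} (hw : EndsO H.o e (!s) w.1) (c : R) :
    H.Phi (single w c) (H.T e s H.vac) ∈ Sup H (LtP w.1.length) := by
  have hnil : w.1 ≠ [] := by
    rintro h
    rw [h] at hw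
    simp [EndsO] at hw
  obtain ⟨l, y, hl⟩ := exists_append hnil
  have hy := hw
  rw [hl, endsO_append] at hy
  subst hy
  rw [Phi_single, end_mul, hl, op_append, end_mul, op_cons, op_nil, mul_one, end_mul]
  have h1 : H.bl ⟨e, !s, H.o e (!s)⟩ = 1 := b_o H e (!s)
  rw [h1, map_one, end_one]
  dsimp only
  rw [T_T']
  refine Submodule.smul_mem _ _ (Lt_mono ?_ (op_Lt l (n := 1) ?_))
  · simp
    omega
  · exact single_mem_Sup (by simp [LtP, Wd.nil]) 1

/-- if `x` is short enough or ends in the right letter then `x * t` is shorter than expected -/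
theorem right_T_short {e : Ed} {s : Bool} {k : ℕ} {x : H.V}
    (hx : x ∈ Sup H fun w => w.1.length < k ∨ (w.1.length ≤ k + 1 ∧ EndsO H.o e (!s) w.1)) :
    H.Phi x (H.T e s H.vac) ∈ Sup H (LtP (k + 1)) := by
  refine Sup_map (M := H.V) ((AddMonoidHom.eval (H.T e s H.vac)).comp H.Phi)
    (Sup H (LtP (k + 1))).toAddSubgroup ?_ hx
  intro w hw c
  change H.Phi (single w c) (H.T e s H.vac) ∈ Sup H (LtP (k + 1))
  rcases hw with hw | ⟨hw, hw'⟩
  · exact Lt_mono (by omega) (G_Lt (right_T_single w c))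
  · exact Lt_mono (by omega) (right_T_ends hw' c)

/-- vectors whose long words have length `l + 1`, start in direction `(e, s)` and have
coefficients in the image of `σ e s` -/
def QQ (H : HData R Ed F J) (e : Ed) (s : Bool) (l : ℕ) : AddSubgroup H.V where
  carrier := {v | ∀ w : Wd H.o, l + 1 ≤ w.1.length → ∃ g : F e, v w = H.σ e s g ∧
    (g ≠ 0 → w.1.length = l + 1 ∧ StartsDir e s w.1)}
  zero_mem' := fun w _ => ⟨0, by simp, by simp⟩
  add_mem' := by
    intro u v hu hv w hw
    obtain ⟨g, hg, hg'⟩ := hu w hw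
    obtain ⟨g2, hg2, hg2'⟩ := hv w hw
    refine ⟨g + g2, by rw [Finsupp.add_apply, hg, hg2, map_add], fun h => ?_⟩
    by_cases h0 : g = 0
    · apply hg2'
      rintro rfl
      exact h (by rw [h0, add_zero])
    · exact hg' h0
  neg_mem' := by
    intro u hu w hw
    obtain ⟨g, hg, hg'⟩ := hu w hw
    refine ⟨-g, by rw [Finsupp.neg_apply, hg, map_neg], fun h => hg' (by simpa using h)⟩

theorem Lt_QQ {e : Ed} {s : Bool} {l : ℕ} {v : H.V} (hv : v ∈ Sup H (LtP (l + 1))) :
    v ∈ QQ H e s l := by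
  intro w hw
  refine ⟨0, ?_, fun h => absurd rfl h⟩
  rw [map_zero]
  apply hv
  unfold LtP
  omega

theorem T_short_QQ {e : Ed} {s : Bool} {l : ℕ} (w : Wd H.o) (hw : w.1.length ≤ l) (r : R) :
    H.T e s (single w r) ∈ QQ H e s l := by
  classical
  obtain ⟨φ, rfl⟩ := (H.rep e s).symm.surjective r
  induction φ using Finsupp.induction_linear with
  | zero => rw [map_zero, single_zero, map_zero]; exact zero_mem _
  | add f g hf hg => rw [map_add, single_add, map_add]; exact add_mem hf hg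
  | single j f =>
    rw [rep_symm_single, T_gen]
    by_cases hr : Red H.o (⟨e, s, j⟩ :: w.1)
    · rw [K_red H hr]
      intro w' hw'
      rw [Finsupp.single_apply]
      split_ifs with h
      · subst h
        refine ⟨f, rfl, fun _ => ⟨?_, ?_⟩⟩
        · simp only [List.length_cons] at hw' ⊢
          omega
        · exact ⟨⟨e, s, j⟩, by simp, rfl, rfl⟩
      · exact ⟨0, by simp, by simp⟩
    · obtain ⟨y, m, hy, hj, hopp, hm⟩ := not_red_cons hr
      obtain ⟨w, hw'⟩ := w
      dsimp only at hy hj hw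
      subst hy
      subst hj
      rw [K_not_red H hw' hopp.1 hopp.2]
      refine Lt_QQ (single_mem_Sup ?_ _)
      unfold LtP
      simp only [List.length_cons] at hw ⊢
      omega

/-- expansion of the action of a stable letter on a generator -/
theorem T_single (e : Ed) (s : Bool) (w : Wd H.o) (r : R) :
    H.T e s (single w r) = (H.rep e s r).sum fun j f => H.K e s w j f := by
  change (Finsupp.liftAddHom fun w => (Finsupp.liftAddHom fun j => H.K e s w j).comp
      (H.rep e s).toAddMonoidHom) (single w r) = _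
  rw [Finsupp.liftAddHom_apply_single]
  change (Finsupp.liftAddHom fun j => H.K e s w j) (H.rep e s r) = _
  rw [Finsupp.liftAddHom_apply]

theorem K_short {e : Ed} {s : Bool} {w : Wd H.o} {j : J e s}
    (h : ¬ Red H.o (⟨e, s, j⟩ :: w.1)) (f : F e) : H.K e s w j f ∈ Sup H (LtP w.1.length) := by
  obtain ⟨y, m, hy, hj, hopp, hm⟩ := not_red_cons h
  obtain ⟨w, hw'⟩ := w
  dsimp only at hy hj
  subst hy
  subst hj
  rw [K_not_red H hw' hopp.1 hopp.2]
  refine single_mem_Sup ?_ _
  unfold LtP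
  simp

theorem T_single_short {e : Ed} {s : Bool} {w : Wd H.o} {r : R}
    (h : ∀ j, H.rep e s r j ≠ 0 → ¬ Red H.o (⟨e, s, j⟩ :: w.1)) :
    H.T e s (single w r) ∈ Sup H (LtP w.1.length) := by
  rw [T_single, Finsupp.sum]
  refine sum_mem fun j hj => ?_
  exact K_short (h j (Finsupp.mem_support_iff.1 hj)) _

theorem QQ_start {e : Ed} {s : Bool} {l : ℕ} {v : H.V} (hv : v ∈ QQ H e s l) {w : Wd H.o}
    (hw : l + 1 ≤ w.1.length) (h : v w ≠ 0) :
    w.1.length = l + 1 ∧ ∃ (j : J e s) (m : List (Ltr J)) (g : F e), w.1 = ⟨e, s, j⟩ :: m ∧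
      g ≠ 0 ∧ v w = H.σ e s g := by
  obtain ⟨g, hg, hg'⟩ := hv w hw
  have hg0 : g ≠ 0 := by
    rintro rfl
    exact h (by rw [hg, map_zero])
  obtain ⟨h1, x, hx, h2, h3⟩ := hg' hg0
  refine ⟨h1, ?_⟩
  obtain ⟨w, hw'⟩ := w
  rcases w with _ | ⟨y, m⟩
  · simp at hx
  simp only [List.head?_cons, Option.mem_def, Option.some.injEq] at hx
  subst hx
  obtain ⟨ye, ys, yj⟩ := y
  dsimp only at h2 h3
  subst h2
  subst h3
  exact ⟨yj, m, g, rfl, hg0, hg⟩

/-- the opposite stable letter shortens the long part -/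
theorem T_QQ {e : Ed} {s : Bool} {l : ℕ} {v : H.V} (hv : v ∈ QQ H e s l) :
    H.T e (!s) (v.filter fun w => ¬ w.1.length < l + 1) ∈ Sup H (LtP (l + 1)) := by
  classical
  rw [← Finsupp.sum_single (v.filter fun w => ¬ w.1.length < l + 1), Finsupp.sum, map_sum]
  refine sum_mem fun w hw => ?_
  rw [Finsupp.support_filter, Finset.mem_filter, Finsupp.mem_support_iff] at hw
  obtain ⟨hw1, hw2⟩ := hw
  rw [Finsupp.filter_apply, if_pos hw2]
  obtain ⟨hlen, j, m, g, hm, -, hg⟩ := QQ_start hv (by omega) hw1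
  obtain ⟨w, hw'⟩ := w
  dsimp only at hm
  subst hm
  rw [hg]
  have h1 : H.σ e s g = H.σ e (!(!s)) g := by rw [Bool.not_not]
  rw [h1, T_not_red H hw' rfl (by simp)]
  refine single_mem_Sup ?_ _
  change m.length < l + 1
  simp only [List.length_cons] at hlen
  omega

theorem exists_top {n : ℕ} {x : H.V} (hx : x ∈ Sup H (LtP (n + 1)))
    (hx1 : x ∉ Sup H (LtP n)) : ∃ u : Wd H.o, u.1.length = n ∧ x u ≠ 0 := by
  by_contra hcon
  push Not at hcon
  apply hx1
  intro w hw
  by_cases h : w.1.length < n + 1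
  · unfold LtP at hw
    exact hcon w (by omega)
  · exact hx w h

theorem not_endsDir_of_endsO {e e' : Ed} {s s' : Bool} {l : List (Ltr J)}
    (h : EndsO H.o e s l) (h' : EndsDir e' s' l) : e' = e ∧ s' = s := by
  obtain ⟨x, hx, h1, h2⟩ := h'
  simp only [Option.mem_def] at hx
  have h3 : l.getLast? = Option.some ⟨e, s, H.o e s⟩ := h
  rw [hx] at h3
  simp only [Option.some.injEq] at h3
  subst h3
  exact ⟨h1.symm, h2.symm⟩

/-- the core reduction step -/
theorem core {e : Ed} {s : Bool} {k l : ℕ} {x2 y2 : H.V}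
    (hx2 : x2 ∈ Sup H (GP (EndsO H.o e (!s)) (k + 1)))
    (hx1 : H.Phi x2 (H.T e s H.vac) ∉ Sup H (LtP (k + 1)))
    (hy2 : y2 ∈ QQ H e s l)
    (hy1 : H.T e (!s) y2 ∉ Sup H (LtP (l + 1)))
    (h : H.Phi x2 y2 = 0) : x2 ∈ Sup H (LtP (k + 1)) ∧ y2 ∈ Sup H (LtP (l + 1)) := by
  classical
  set xh := x2.filter fun w => w.1.length < k + 1 with hxh
  set xt := x2.filter fun w => ¬ w.1.length < k + 1 with hxt
  set yh := y2.filter fun w => w.1.length < l + 1 with hyh
  set yt := y2.filter fun w => ¬ w.1.length < l + 1 with hyt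
  have hxsum : xh + xt = x2 := Finsupp.filter_add_filter_not x2 _
  have hysum : yh + yt = y2 := Finsupp.filter_add_filter_not y2 _
  have hxt1 : ∀ w : Wd H.o, w.1.length < k + 1 → xt w = 0 := fun w hw =>
    Finsupp.filter_apply_neg _ _ (not_not.2 hw)
  have hxt2 : ∀ w : Wd H.o, ¬ w.1.length < k + 1 → xt w = x2 w := fun w hw =>
    Finsupp.filter_apply_pos _ _ hw
  have hyt1 : ∀ w : Wd H.o, w.1.length < l + 1 → yt w = 0 := fun w hw =>
    Finsupp.filter_apply_neg _ _ (not_not.2 hw)
  have hyt2 : ∀ w : Wd H.o, ¬ w.1.length < l + 1 → yt w = y2 w := fun w hw =>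
    Finsupp.filter_apply_pos _ _ hw
  have hxhLt : xh ∈ Sup H (LtP (k + 1)) := fun w hw =>
    Finsupp.filter_apply_neg _ _ hw
  have hyhLt : yh ∈ Sup H (LtP (l + 1)) := fun w hw =>
    Finsupp.filter_apply_neg _ _ hw
  have hxtS : xt ∈ Sup H fun w => w.1.length = k + 1 ∧ EndsO H.o e (!s) w.1 := by
    intro w hw
    by_cases h1 : w.1.length < k + 1
    · exact hxt1 w h1
    · rw [hxt2 w h1]
      refine hx2 w ?_
      rintro (h2 | h2)
      · exact h1 h2
      · exact hw h2
  have hytst : ∀ w : Wd H.o, yt w ≠ 0 → w.1.length = l + 1 ∧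
      ∃ (j : J e s) (m : List (Ltr J)) (g : F e), w.1 = ⟨e, s, j⟩ :: m ∧
      g ≠ 0 ∧ yt w = H.σ e s g := by
    intro w hw
    have h1 : ¬ w.1.length < l + 1 := fun h => hw (hyt1 w h)
    rw [hyt2 w h1] at hw ⊢
    exact QQ_start hy2 (by omega) hw
  have hytLt : yt ∈ Sup H (LtP (l + 2)) := by
    intro w hw
    by_contra h2
    have h3 := (hytst w h2).1
    unfold LtP at hw
    omega
  have hxtLt : xt ∈ Sup H (LtP (k + 2)) :=
    Sup_mono (fun w hw => by unfold LtP; omega) hxtS
  -- the word of `xh`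
  have hxh' : xh ∉ Sup H (GP (EndsO H.o e (!s)) k) := by
    intro h1
    apply hx1
    apply right_T_short
    rw [← hxsum]
    refine add_mem (Sup_mono ?_ h1) (Sup_mono ?_ hxtS)
    · rintro w (h2 | ⟨h2, h3⟩)
      · exact Or.inl h2
      · exact Or.inr ⟨by omega, h3⟩
    · rintro w ⟨h2, h3⟩
      exact Or.inr ⟨by omega, h3⟩
  -- the word of `yh`
  obtain ⟨f, hfl, j', hg, hfr⟩ : ∃ f : Wd H.o, f.1.length = l ∧ ∃ j' : J e (!s),
      H.rep e (!s) (yh f) j' ≠ 0 ∧ Red H.o (⟨e, !s, j'⟩ :: f.1) := by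
    by_contra hcon
    push Not at hcon
    apply hy1
    rw [← hysum, map_add]
    refine add_mem ?_ (T_QQ hy2)
    rw [← Finsupp.sum_single yh, Finsupp.sum, map_sum]
    refine sum_mem fun w hw => ?_
    have hwl : w.1.length < l + 1 := by
      by_contra h1
      exact Finsupp.mem_support_iff.1 hw (hyhLt w h1)
    rcases Nat.lt_or_ge w.1.length l with h1 | h1
    · exact Lt_mono (by omega) (T_Lt e (!s) (single_mem_Sup (P := LtP l) h1 _))
    · exact Lt_mono (by omega) (T_single_short (fun j hj => hcon w (by omega) j hj))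
  -- products
  have hxy : H.Phi x2 y2 = H.Phi xh yh + H.Phi xt yt + H.Phi xh yt + H.Phi xt yh := by
    rw [← hxsum, ← hysum]
    simp only [map_add, end_add]
    abel
  have hp1 : H.Phi xh yh ∈ Sup H (LtP (k + l + 1)) :=
    Lt_mono (by omega) (Phi_Lt hxhLt hyhLt)
  have hp2 : H.Phi xt yt ∈ Sup H (LtP (k + l + 1)) := by
    refine Sup_map (M := H.V) ((AddMonoidHom.eval yt).comp H.Phi)
      (Sup H (LtP (k + l + 1))).toAddSubgroup ?_ hxtS
    rintro w ⟨hw, hw'⟩ c
    change H.Phi (single w c) yt ∈ Sup H (LtP (k + l + 1))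
    have hnil : w.1 ≠ [] := by
      intro h
      rw [h] at hw
      simp at hw
    obtain ⟨m, y, hm⟩ := exists_append hnil
    rw [hm, endsO_append] at hw'
    subst hw'
    rw [Phi_single, end_mul, hm, op_append, end_mul, op_cons, op_nil, mul_one, end_mul]
    have h1 : H.bl ⟨e, !s, H.o e (!s)⟩ = 1 := b_o H e (!s)
    rw [h1, map_one, end_one]
    have hml : m.length = k := by
      rw [hm] at hw
      simpa using hw
    exact Submodule.smul_mem _ _ (Lt_mono (by omega) (op_Lt m (T_QQ hy2)))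
  have hcoef : ∀ t : Wd H.o, t.1.length = k + l + 1 →
      H.Phi xh yt t + H.Phi xt yh t = 0 := by
    intro t ht
    have h1 : H.Phi x2 y2 t = 0 := by rw [h]; rfl
    rw [hxy, Finsupp.add_apply, Finsupp.add_apply, Finsupp.add_apply,
      hp1 t (by unfold LtP; omega), hp2 t (by unfold LtP; omega), zero_add, zero_add] at h1
    exact h1
  have hxt0 : xt = 0 := by
    by_contra hne
    set x' := H.Phi xt (H.T e s H.vac) with hx'
    have hx'Lt : x' ∈ Sup H (LtP (k + 1)) := by
      apply right_T_short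
      refine Sup_mono ?_ hxtS
      rintro w ⟨h1, h2⟩
      exact Or.inr ⟨by omega, h2⟩
    have hxtx' : H.Phi x' (H.T e (!s) H.vac) = xt := by
      rw [hx', ← Phi_right H (T_mem H e s), T_T, Phi_apply_vac]
    have hx'G : x' ∉ Sup H (GP (EndsO H.o e s) k) := by
      intro h1
      apply hne
      have h2 : H.Phi x' (H.T e (!s) H.vac) ∈ Sup H (LtP (k + 1)) := by
        apply right_T_short
        rw [Bool.not_not]
        refine Sup_mono ?_ h1
        rintro w (h2 | ⟨h2, h3⟩)
        · exact Or.inl h2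
        · exact Or.inr ⟨by omega, h3⟩
      rw [hxtx'] at h2
      ext w
      by_cases h3 : w.1.length < k + 1
      · exact hxt1 w h3
      · exact h2 w h3
    set g := H.rep e (!s) (yh f) j' with hgdef
    have hx'g : H.Phi x' (H.L (H.σ e (!s) g) H.vac) ∉ Sup H (GP (EndsO H.o e s) k) := by
      intro h1
      apply hx'G
      have h2 := right_EO h1 g⁻¹
      rwa [Phi_L_L, ← map_mul, mul_inv_cancel₀ hg,
        map_one, map_one, end_one, Phi_apply_vac] at h2
    rw [mem_Sup] at hx'g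
    push Not at hx'g
    obtain ⟨u, hu1, hu2⟩ := hx'g
    have hul : u.1.length < k + 1 := by
      by_contra h1
      exact hu2 (right_Lt hx'Lt _ u h1)
    unfold GP at hu1
    push Not at hu1
    have hulen : u.1.length = k := by omega
    have hured : Red H.o (u.1 ++ [⟨e, !s, j'⟩]) := by
      apply red_snoc
      rw [Bool.not_not]
      exact hu1.2 hulen
    have hcoe : H.Phi xt (H.L (yh f) H.vac) ⟨u.1 ++ [⟨e, !s, j'⟩], hured⟩ ≠ 0 := by
      have h1 : H.Phi xt (H.L (yh f) H.vac) = Psi H e (!s) ((H.rep e (!s) (yh f)).mapRange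
          (fun g => H.Phi x' (H.L (H.σ e (!s) g) H.vac)) (by simp)) := by
        rw [Psi_mapRange, AddEquiv.symm_apply_apply, Phi_right H (T_mem H e (!s)), hxtx']
      rw [h1, Psi_coeff _ _ hulen hured, Finsupp.mapRange_apply]
      · exact hu2
      · intro j
        rw [Finsupp.mapRange_apply]
        exact right_Lt hx'Lt _
    have hred3 : Red H.o ((u.1 ++ [⟨e, !s, j'⟩]) ++ f.1) := by
      rw [List.append_assoc]
      exact red_app hfr (by simpa using hu1.2 hulen)
    have h1 := hcoef ⟨(u.1 ++ [⟨e, !s, j'⟩]) ++ f.1, hred3⟩ (by simp; omega)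
    have h2 : H.Phi xh yt ⟨(u.1 ++ [⟨e, !s, j'⟩]) ++ f.1, hred3⟩ = 0 := by
      have hred4 : Red H.o (u.1 ++ (⟨⟨e, !s, j'⟩ :: f.1, hfr⟩ : Wd H.o).1) := by
        have h5 := hred3
        rw [List.append_assoc] at h5
        exact h5
      have h4 := Phi_top hxhLt hytLt u ⟨⟨e, !s, j'⟩ :: f.1, hfr⟩ hulen (by simp [hfl]) hred4
      have h5 : (⟨(u.1 ++ [⟨e, !s, j'⟩]) ++ f.1, hred3⟩ : Wd H.o) =
          ⟨u.1 ++ (⟨⟨e, !s, j'⟩ :: f.1, hfr⟩ : Wd H.o).1, hred4⟩ := by
        apply Subtype.ext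
        simp
      rw [h5, h4]
      have h6 : yt ⟨⟨e, !s, j'⟩ :: f.1, hfr⟩ = 0 := by
        by_contra h7
        obtain ⟨_, j, m, g', hm, _⟩ := hytst _ h7
        simp only [List.cons.injEq, Ltr.mk.injEq] at hm
        have := hm.1.2.1
        cases s <;> simp at this
      rw [h6, map_zero, end_zero, map_zero]
      rfl
    rw [h2, zero_add] at h1
    have h3 := Phi_top hxtLt hyhLt ⟨u.1 ++ [⟨e, !s, j'⟩], hured⟩ f (by simp [hulen]) hfl hred3
    rw [h3] at h1
    exact hcoe h1
  have hyt0 : yt = 0 := by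
    by_contra hne
    obtain ⟨w, hw⟩ : ∃ w, yt w ≠ 0 := by
      by_contra hcon
      push Not at hcon
      exact hne (Finsupp.ext hcon)
    obtain ⟨hwl, j, m, g, hm, hg0, hgw⟩ := hytst w hw
    have hxg : H.Phi xh (H.L (H.σ e s g) H.vac) ∉ Sup H (GP (EndsO H.o e (!s)) k) := by
      intro h1
      apply hxh'
      have h2 := right_EO' h1 g⁻¹
      rwa [Phi_L_L, ← map_mul, mul_inv_cancel₀ hg0,
        map_one, map_one, end_one, Phi_apply_vac] at h2
    rw [mem_Sup] at hxg
    push Not at hxg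
    obtain ⟨u, hu1, hu2⟩ := hxg
    have hul : u.1.length < k + 1 := by
      by_contra h1
      exact hu2 (right_Lt hxhLt _ u h1)
    unfold GP at hu1
    push Not at hu1
    have hulen : u.1.length = k := by omega
    obtain ⟨w, hw'⟩ := w
    dsimp only at hm
    subst hm
    have hred : Red H.o (u.1 ++ ⟨e, s, j⟩ :: m) := red_app hw' (hu1.2 hulen)
    have hwl' : m.length = l := by simpa using hwl
    have h1 := hcoef ⟨u.1 ++ ⟨e, s, j⟩ :: m, hred⟩ (by simp [hulen, hwl']; omega)
    rw [hxt0, map_zero, end_zero] at h1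
    have h3 := Phi_top hxhLt hytLt u ⟨⟨e, s, j⟩ :: m, hw'⟩ hulen (by simp [hwl']) hred
    have h4 : H.Phi xh yt ⟨u.1 ++ ⟨e, s, j⟩ :: m, hred⟩ = 0 := by
      simpa using h1
    rw [h3, hgw] at h4
    exact hu2 h4
  rw [← hxsum, ← hysum, hxt0, hyt0, add_zero, add_zero]
  exact ⟨hxhLt, hyhLt⟩

theorem Phi_dom_aux [NoZeroDivisors R] (N : ℕ) : ∀ n m : ℕ, n + m ≤ N →
    ∀ x ∈ Sup H (LtP n), ∀ y ∈ Sup H (LtP m), H.Phi x y = 0 → x = 0 ∨ y = 0 := by
  induction N with
  | zero =>
    intro n m hnm x hx y _ _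
    have hn : n = 0 := by omega
    subst hn
    exact Or.inl (eq_zero_of_Lt_zero hx)
  | succ N ih =>
    intro n m hnm x hx y hy hxy
    rcases n with _ | n
    · exact Or.inl (eq_zero_of_Lt_zero hx)
    rcases m with _ | m
    · exact Or.inr (eq_zero_of_Lt_zero hy)
    by_cases hx1 : x ∈ Sup H (LtP n)
    · exact ih n (m + 1) (by omega) x hx1 y hy hxy
    by_cases hy1 : y ∈ Sup H (LtP m)
    · exact ih (n + 1) m (by omega) x hx y hy1 hxy
    rcases n with _ | k
    · right
      have h1 := eq_L_vac hx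
      set c := x (Wd.nil H.o)
      have h2 : c ≠ 0 := by
        intro h3
        rw [h3, map_zero, end_zero] at h1
        exact hx1 (by rw [h1]; exact zero_mem _)
      rw [h1, Phi_L_vac] at hxy
      ext w
      have h3 : c * y w = 0 := by
        have h4 := congrArg (fun v : H.V => v w) hxy
        exact h4
      exact (mul_eq_zero.1 h3).resolve_left h2
    rcases m with _ | l
    · have h1 := eq_L_vac hy
      by_cases hx0 : x = 0
      · exact Or.inl hx0
      right
      rw [h1] at hxy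
      rw [h1, right_inj hx0 hxy, map_zero, end_zero]
    exfalso
    obtain ⟨u0, hu0l, hu0⟩ := exists_top hx hx1
    obtain ⟨f0, hf0l, hf0⟩ := exists_top hy hy1
    obtain ⟨m0, z, hz⟩ := exists_append (l := u0.1) (by
      intro h
      rw [h] at hu0l
      simp at hu0l)
    obtain ⟨e, s, jz⟩ := z
    have hxnd : x ∉ Sup H (GP (fun l => ¬ EndsDir e s l) (k + 1)) := by
      intro h3
      apply hu0
      apply h3
      rintro (h4 | ⟨_, h4⟩)
      · omega
      · apply h4
        rw [hz, endsDir_append]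
        exact ⟨rfl, rfl⟩
    obtain ⟨p, hp, hp1, hp2⟩ := exists_p hx hxnd
    have keyA : ∀ f : Wd H.o, f.1.length = l + 1 → y f ≠ 0 →
        (∃ (j : J e (!s)) (m : List (Ltr J)), f.1 = ⟨e, !s, j⟩ :: m) ∧
          H.Phi x (H.L (y f) H.vac) ∈ Sup H (GP (EndsO H.o e s) (k + 1)) := by
      intro f hfl hf
      obtain ⟨f, hfw⟩ := f
      rcases f with _ | ⟨⟨ce, cs, cj⟩, m⟩
      · simp at hfl
      have hE : H.Phi x (H.L (y ⟨⟨ce, cs, cj⟩ :: m, hfw⟩) H.vac) ∈
          Sup H (GP (EndsO H.o ce (!cs)) (k + 1)) := by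
        intro u hu
        by_cases hul : u.1.length < k + 2
        swap
        · exact right_Lt hx _ u hul
        unfold GP at hu
        push Not at hu
        have hulen : u.1.length = k + 1 := by omega
        have hred : Red H.o (u.1 ++ ⟨ce, cs, cj⟩ :: m) := red_app hfw (hu.2 hulen)
        have h1 := Phi_top hx hy u ⟨⟨ce, cs, cj⟩ :: m, hfw⟩ hulen hfl hred
        rw [← h1, hxy]
        rfl
      by_cases hdir : e = ce ∧ s = !cs
      · obtain ⟨rfl, h2⟩ := hdir
        have h3 : cs = !s := by rw [h2]; simp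
        subst h3
        rw [Bool.not_not] at hE
        exact ⟨⟨cj, m, rfl⟩, hE⟩
      · exfalso
        have h1 := hp2 _ (Sup_mono (fun w hw => by
          rcases hw with hw | ⟨hw, hw'⟩
          · exact Or.inl hw
          · exact Or.inr ⟨hw, fun h => hdir (not_endsDir_of_endsO hw' h)⟩) hE)
        rcases mul_eq_zero.1 h1 with h2 | h2
        · exact hp h2
        · exact hf h2
    have keyB : ∀ f : Wd H.o, f.1.length = l + 1 → y f ≠ 0 →
        ∃ g : F e, p * y f = H.σ e (!s) g := by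
      intro f hfl hf
      refine hp1 _ (Sup_mono (fun w hw => ?_) (keyA f hfl hf).2)
      rcases hw with hw | ⟨hw, hw'⟩
      · exact Or.inl hw
      · exact Or.inr ⟨hw, fun _ => hw'⟩
    obtain ⟨g0, hg0⟩ := keyB f0 hf0l hf0
    have hg00 : g0 ≠ 0 := by
      rintro rfl
      rw [map_zero] at hg0
      rcases mul_eq_zero.1 hg0 with h2 | h2
      · exact hp h2
      · exact hf0 h2
    set u := y f0 * H.σ e (!s) g0⁻¹ with hu
    have hpu : p * u = 1 := by
      rw [hu, ← mul_assoc, hg0, ← map_mul, mul_inv_cancel₀ hg00, map_one]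
    have hup : u * p = 1 := by
      have h1 : p * (u * p - 1) = 0 := by
        rw [mul_sub, ← mul_assoc, hpu, one_mul, mul_one, sub_self]
      exact sub_eq_zero.1 ((mul_eq_zero.1 h1).resolve_left hp)
    set x1 := H.Phi x (H.L u H.vac) with hx1def
    have hx1G : x1 ∈ Sup H (GP (EndsO H.o e s) (k + 1)) := by
      rw [hx1def, hu, ← Phi_L_L]
      exact right_EO (keyA f0 hf0l hf0).2 _
    have hx1x : H.Phi x1 (H.L p H.vac) = x := by
      rw [hx1def, Phi_L_L, hup, map_one, end_one, Phi_apply_vac]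
    have hx1n : x1 ∉ Sup H (LtP (k + 1)) := fun h => hx1 (by rw [← hx1x]; exact right_Lt h p)
    set x2 := H.Phi x1 (H.T e (!s) H.vac) with hx2def
    have hx2G : x2 ∈ Sup H (GP (EndsO H.o e (!s)) (k + 1)) := by
      refine Sup_map (M := H.V) ((AddMonoidHom.eval (H.T e (!s) H.vac)).comp H.Phi)
        (Sup H (GP (EndsO H.o e (!s)) (k + 1))).toAddSubgroup ?_ hx1G
      intro w hw c
      change H.Phi (single w c) (H.T e (!s) H.vac) ∈ Sup H (GP (EndsO H.o e (!s)) (k + 1))
      rcases hw with hw | ⟨hw, hw'⟩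
      · exact G_mono (by omega) (right_T_single w c)
      · rw [← hw]
        refine Lt_G (right_T_ends ?_ c)
        rwa [Bool.not_not]
    have hx2x : H.Phi x2 (H.T e s H.vac) = x1 := by
      rw [hx2def, ← Phi_right H (T_mem H e (!s)), T_T', Phi_apply_vac]
    set y1 := H.L p y with hy1def
    have hy1y : H.L u y1 = y := by
      rw [hy1def, ← end_mul, ← map_mul, hup, map_one, end_one]
    have hy1n : y1 ∉ Sup H (LtP (l + 1)) := fun h => hy1 (by
      rw [← hy1y]; exact Submodule.smul_mem _ _ h)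
    set y2 := H.T e s y1 with hy2def
    have hy2Q : y2 ∈ QQ H e s l := by
      have h1 : y2 = ∑ w ∈ y.support, H.T e s (single w (p * y w)) := by
        rw [hy2def, hy1def]
        conv_lhs => rw [← Finsupp.sum_single y, Finsupp.sum, map_sum, map_sum]
        refine Finset.sum_congr rfl fun w _ => ?_
        rw [L_apply, smul_single, smul_eq_mul]
      rw [h1]
      refine sum_mem fun w hw => ?_
      have hyw := Finsupp.mem_support_iff.1 hw
      have hwl : w.1.length < l + 2 := by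
        by_contra h2
        exact hyw (hy w h2)
      rcases Nat.lt_or_ge w.1.length (l + 1) with h2 | h2
      · exact T_short_QQ w (by omega) _
      · have h3 : w.1.length = l + 1 := by omega
        obtain ⟨g, hg⟩ := keyB w h3 hyw
        obtain ⟨⟨j, m, hm⟩, -⟩ := keyA w h3 hyw
        rw [hg]
        obtain ⟨w, hw'⟩ := w
        dsimp only at hm
        subst hm
        rw [T_not_red H hw' rfl rfl]
        refine Lt_QQ (single_mem_Sup ?_ _)
        change m.length < l + 1
        simp only [List.length_cons] at h3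
        omega
    have hy2y : H.T e (!s) y2 = y1 := by rw [hy2def, T_T']
    have h0 : H.Phi x2 y2 = 0 := by
      rw [hx2def, ← Phi_right H (T_mem H e (!s)), hy2y, hx1def,
        ← Phi_right H (L_mem H u), hy1y, hxy]
    obtain ⟨hc1, hc2⟩ := core hx2G (by rw [hx2x]; exact hx1n) hy2Q (by rw [hy2y]; exact hy1n) h0
    rcases ih (k + 1) (l + 1) (by omega) x2 hc1 y2 hc2 h0 with h | h
    · apply hx1n
      rw [← hx2x, h, map_zero, end_zero]
      exact zero_mem _
    · apply hy1n
      rw [← hy2y, h, map_zero]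
      exact zero_mem _

theorem exists_Lt (x : H.V) : ∃ n, x ∈ Sup H (LtP n) := by
  refine ⟨(x.support.sup fun w => w.1.length) + 1, fun w hw => ?_⟩
  by_contra h
  apply hw
  unfold LtP
  have := Finset.le_sup (f := fun w : Wd H.o => w.1.length) (Finsupp.mem_support_iff.2 h)
  omega

theorem Phi_dom [NoZeroDivisors R] {x y : H.V} (hxy : H.Phi x y = 0) :
    x = 0 ∨ y = 0 := by
  obtain ⟨n, hn⟩ := exists_Lt x
  obtain ⟨m, hm⟩ := exists_Lt y
  exact Phi_dom_aux (n + m) n m le_rfl x hn y hm hxy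

/-- A ring with stable letters over a domain is a domain. -/
theorem S_dom [NoZeroDivisors R] {a c : AddMonoid.End H.V}
    (ha : a ∈ H.S) (hc : c ∈ H.S) (hac : a * c = 0) : a = 0 ∨ c = 0 := by
  have h1 : H.Phi (a H.vac) (c H.vac) = 0 := by
    rw [← eq_Phi H ha, ← end_mul, hac, end_zero]
  rcases Phi_dom h1 with h | h
  · left
    rw [eq_Phi H ha, h, map_zero]
  · right
    rw [eq_Phi H hc, h, map_zero]

end Dom

end HNN

end Vale.Agent.P201
end
end

section

section

/-!
Normal forms for a groupoid of generators inside a ring with stable letters.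
-/

namespace Vale.Agent.P201

namespace HNN

open Finsupp

/-- Group data realised in a ring with stable letters. -/
structure GD (G Q : Type*) [Group G] {R : Type*} [Ring R] {Ed : Type*} {F : Ed → Type*}
    [∀ e, DivisionRing (F e)] {J : Ed → Bool → Type*} (H : HData R Ed F J) where
  A : Q → Subgroup G
  en : Ed → Bool → Q
  τ : Ed → Bool → G
  τ_inv : ∀ e s, τ e s * τ e (!s) = 1
  u : Q → G → R
  u_one : ∀ q, u q 1 = 1
  u_mul : ∀ q g h, g ∈ A q → h ∈ A q → u q (g * h) = u q g * u q h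
  el : ∀ e s, J e s → G
  good : ∀ e s, Set (J e s)
  el_o : ∀ e s, el e s (H.o e s) = 1
  el_mem : ∀ e s, ∀ j ∈ good e s, el e s j ∈ A (en e (!s))
  b_el : ∀ e s, ∀ j ∈ good e s, H.b e s j = u (en e (!s)) (el e s j)
  dec : ∀ e s, ∀ h ∈ A (en e (!s)), ∃ c c' : G, c ∈ A (en e (!s)) ∧ c' ∈ A (en e s) ∧
    τ e s * c = c' * τ e s ∧
    (∃ f : F e, H.σ e (!s) f = u (en e (!s)) c ∧ H.σ e s f = u (en e s) c') ∧
    ∃ j ∈ good e s, h = c * el e s j

section NF

variable {G Q : Type*} [Group G] {R : Type*} [Ring R] {Ed : Type*} {F : Ed → Type*}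
  [∀ e, DivisionRing (F e)] {J : Ed → Bool → Type*} {H : HData R Ed F J} (D : GD G Q H)

/-- group element attached to a list of letters -/
def GD.rho (l : List (Ltr J)) : G := (l.map fun x => D.τ x.e x.s * D.el x.e x.s x.j).prod

theorem rho_nil : D.rho [] = 1 := by simp [GD.rho]

theorem rho_cons (x : Ltr J) (l : List (Ltr J)) :
    D.rho (x :: l) = D.τ x.e x.s * D.el x.e x.s x.j * D.rho l := by simp [GD.rho]

/-- composable lists of good letters -/
def GD.Ty : Q → List (Ltr J) → Prop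
  | _, [] => True
  | q, x :: l => D.en x.e x.s = q ∧ x.j ∈ D.good x.e x.s ∧ GD.Ty (D.en x.e (!x.s)) l

/-- normal forms -/
def GD.NF (q : Q) (x : AddMonoid.End H.V) (g : G) : Prop :=
  ∃ h ∈ D.A q, ∃ w : Wd H.o, D.Ty q w.1 ∧ x = H.L (D.u q h) * H.op w.1 ∧ g = h * D.rho w.1

theorem NF_one (q : Q) : D.NF q 1 1 := by
  refine ⟨1, one_mem _, Wd.nil H.o, trivial, ?_, ?_⟩
  · rw [D.u_one, map_one]
    simp [Wd.nil]
  · rw [one_mul]
    exact (rho_nil D).symm

theorem NF_u {q : Q} {a : G} (ha : a ∈ D.A q) {x : AddMonoid.End H.V} {g : G}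
    (h : D.NF q x g) : D.NF q (H.L (D.u q a) * x) (a * g) := by
  obtain ⟨c, hc, w, hw, rfl, rfl⟩ := h
  refine ⟨a * c, mul_mem ha hc, w, hw, ?_, ?_⟩
  · rw [D.u_mul q a c ha hc, map_mul, mul_assoc]
  · rw [mul_assoc]

theorem NF_T {e : Ed} {s : Bool} {x : AddMonoid.End H.V} {g : G}
    (h : D.NF (D.en e (!s)) x g) : D.NF (D.en e s) (H.T e s * x) (D.τ e s * g) := by
  obtain ⟨k, hk, w, hw, rfl, rfl⟩ := h
  obtain ⟨c, c', hc, hc', hcc, ⟨f, hf, hf'⟩, j, hj, rfl⟩ := D.dec e s k hk
  have hkey : H.T e s * (H.L (D.u (D.en e (!s)) (c * D.el e s j)) * H.op w.1) =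
      H.L (D.u (D.en e s) c') * (H.T e s * H.L (H.b e s j) * H.op w.1) := by
    rw [D.u_mul _ _ _ hc (D.el_mem e s j hj), map_mul, ← hf, ← D.b_el e s j hj, ← hf']
    rw [← mul_assoc, ← mul_assoc, T_mul_L, mul_assoc, mul_assoc, mul_assoc]
  rw [hkey]
  by_cases hr : Red H.o (⟨e, s, j⟩ :: w.1)
  · refine ⟨c', hc', ⟨⟨e, s, j⟩ :: w.1, hr⟩, ⟨rfl, hj, hw⟩, ?_, ?_⟩
    · rw [op_cons]
      rfl
    · rw [rho_cons]
      simp only [← mul_assoc]
      rw [hcc]
  · obtain ⟨y, l, hy, hjo, hopp, hl⟩ := not_red_cons hr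
    obtain ⟨w, hw'⟩ := w
    dsimp only at hy hjo hw
    subst hy
    subst hjo
    obtain ⟨ye, ys, yj⟩ := y
    obtain ⟨h1, h2⟩ := hopp
    dsimp only at h1 h2
    subst h1
    have hTT : H.T ye s * H.T ye (!s) = 1 := end_ext fun v => T_T H ye s v
    subst h2
    obtain ⟨-, hyj, hty⟩ := hw
    dsimp only at hyj hty
    have hel := D.el_mem ye (!s) yj hyj
    have hbe := D.b_el ye (!s) yj hyj
    rw [Bool.not_not] at hty hel hbe
    refine ⟨c' * D.el ye (!s) yj, mul_mem hc' hel, ⟨l, hl⟩, hty, ?_, ?_⟩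
    · have h5 : H.T ye s * (H.T ye (!s) * H.L (H.b ye (!s) yj) * H.op l) =
          H.L (H.b ye (!s) yj) * H.op l := by
        rw [← mul_assoc, ← mul_assoc, hTT, one_mul]
      rw [b_o, map_one, mul_one, op_cons, D.u_mul _ _ _ hc' hel, map_mul, mul_assoc (H.L _)]
      congr 1
      rw [← hbe]
      exact h5
    · rw [rho_cons, D.el_o, mul_one]
      simp only [← mul_assoc]
      rw [hcc, mul_assoc c', D.τ_inv, mul_one]

theorem NF_mem {q : Q} {x : AddMonoid.End H.V} {g : G} (h : D.NF q x g) : x ∈ H.S := by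
  obtain ⟨k, hk, w, hw, rfl, rfl⟩ := h
  exact mul_mem (L_mem H _) (op_mem H _)

theorem Ty_commute {r : R} (hr : ∀ q, ∀ a ∈ D.A q, Commute r (D.u q a))
    (hrT : ∀ e s, Commute (H.L r) (H.T e s)) : ∀ (l : List (Ltr J)) (q : Q), D.Ty q l →
      Commute (H.L r) (H.op l) := by
  intro l
  induction l with
  | nil => intro q _; rw [op_nil]; exact Commute.one_right _
  | cons x l ih =>
    intro q hq
    obtain ⟨h1, h2, h3⟩ := hq
    rw [op_cons]
    refine Commute.mul_right (Commute.mul_right (hrT _ _) ?_) (ih _ h3)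
    unfold HData.bl
    rw [D.b_el _ _ _ h2]
    exact (hr _ _ (D.el_mem _ _ _ h2)).map H.L

theorem NF_commute {r : R} (hr : ∀ q, ∀ a ∈ D.A q, Commute r (D.u q a))
    (hrT : ∀ e s, Commute (H.L r) (H.T e s)) {q : Q} {x : AddMonoid.End H.V} {g : G}
    (h : D.NF q x g) : Commute (H.L r) x := by
  obtain ⟨k, hk, w, hw, rfl, rfl⟩ := h
  exact Commute.mul_right ((hr _ _ hk).map H.L) (Ty_commute D hr hrT _ _ hw)

/-- Elements with different normal forms are independent. -/
theorem NF_indep {E : Type*} [DivisionRing E] {q : Q} (θ : MonoidAlgebra E (D.A q) →+* R)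
    (hθ : Function.Injective θ)
    (hu : ∀ a : D.A q, θ (MonoidAlgebra.single a 1) = D.u q a) {I : Type*} (S : Finset I)
    (x : I → AddMonoid.End H.V) (m : I → G) (hm : Set.InjOn m S)
    (hx : ∀ i, D.NF q (x i) (m i)) (e : I → E)
    (hsum : ∑ i ∈ S, H.L (θ (MonoidAlgebra.single 1 (e i))) * x i = 0) : ∀ i ∈ S, e i = 0 := by
  classical
  choose h hh w hw hxe hme using hx
  intro i0 hi0
  have h1 : ∑ i ∈ S, (single (w i) (θ (MonoidAlgebra.single ⟨h i, hh i⟩ (e i))) : H.V) = 0 := by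
    have h2 : (∑ i ∈ S, H.L (θ (MonoidAlgebra.single 1 (e i))) * x i) H.vac =
        ∑ i ∈ S, (single (w i) (θ (MonoidAlgebra.single ⟨h i, hh i⟩ (e i))) : H.V) := by
      have h3 : ∀ A : Finset I,
          (∑ i ∈ A, H.L (θ (MonoidAlgebra.single 1 (e i))) * x i) H.vac =
          ∑ i ∈ A, (single (w i) (θ (MonoidAlgebra.single ⟨h i, hh i⟩ (e i))) : H.V) := by
        intro A
        induction A using Finset.induction_on with
        | empty => rfl
        | insert i A hi ih =>
          rw [Finset.sum_insert hi, Finset.sum_insert hi, end_add, ih]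
          congr 1
          rw [hxe i, end_mul, end_mul]
          have h4 := op_vac H (w i)
          change H.L _ (H.L _ (H.op (w i).1 (single (Wd.nil H.o) 1))) = _
          rw [h4, L_apply, L_apply, smul_single, smul_single, smul_eq_mul, smul_eq_mul, mul_one]
          congr 1
          rw [← hu ⟨h i, hh i⟩, ← map_mul, MonoidAlgebra.single_mul_single, one_mul, mul_one]
      exact h3 S
    rw [← h2, hsum]
    rfl
  have h2 := congrArg (fun v : H.V => v (w i0)) h1
  simp only [Finsupp.finsetSum_apply, Finsupp.single_apply] at h2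
  rw [← Finset.sum_filter, ← map_sum] at h2
  have h3 : ∑ i ∈ S with w i = w i0, MonoidAlgebra.single (⟨h i, hh i⟩ : D.A q) (e i) = 0 := by
    apply hθ
    rw [map_zero]
    exact h2
  have h4 := congrArg (fun z => z.coeff ⟨h i0, hh i0⟩) h3
  simp only [MonoidAlgebra.coeff_sum, Finsupp.finsetSum_apply, MonoidAlgebra.coeff_single,
    Finsupp.single_apply, MonoidAlgebra.coeff_zero, Finsupp.coe_zero, Pi.zero_apply] at h4
  rw [Finset.sum_eq_single i0] at h4
  · simpa using h4
  · intro i hi hne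
    rw [Finset.mem_filter] at hi
    rw [if_neg]
    intro h5
    apply hne
    apply hm hi.1 hi0
    rw [hme i, hme i0, hi.2]
    congr 1
    exact congrArg Subtype.val h5
  · intro h5
    rw [Finset.mem_filter] at h5
    exact absurd ⟨hi0, rfl⟩ h5

end NF

end HNN

end Vale.Agent.P201
end
end

section

section

/-!
Distances in trees.
-/

namespace Vale.Agent.P201

section
variable {V : Type*} {T : SimpleGraph V} (hT : T.IsTree)
include hT

theorem exists_pred {a v : V} (h : T.dist a v ≠ 0) :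
    ∃ t, T.Adj t v ∧ T.dist a v = T.dist a t + 1 := by
  obtain ⟨p, hp⟩ := hT.connected.exists_walk_length_eq_dist v a
  cases p with
  | nil => simp at h
  | @cons _ t _ hvt q =>
    refine ⟨t, hvt.symm, ?_⟩
    rw [SimpleGraph.Walk.length_cons] at hp
    have h1 := SimpleGraph.dist_le q
    rcases hT.dist_eq_dist_add_one_of_adj a hvt with h2 | h2
    · exact h2
    · rw [SimpleGraph.dist_comm] at hp h1
      rw [SimpleGraph.dist_comm] at h1
      rw [SimpleGraph.dist_comm (u := t)] at h1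
      omega

theorem dist_unique {a z u u' : V} (h : T.dist a z = T.dist a u + T.dist u z)
    (h' : T.dist a z = T.dist a u' + T.dist u' z) (he : T.dist a u = T.dist a u') : u = u' := by
  obtain ⟨p1, hp1⟩ := hT.connected.exists_walk_length_eq_dist a u
  obtain ⟨p2, hp2⟩ := hT.connected.exists_walk_length_eq_dist u z
  obtain ⟨q1, hq1⟩ := hT.connected.exists_walk_length_eq_dist a u'
  obtain ⟨q2, hq2⟩ := hT.connected.exists_walk_length_eq_dist u' z
  have hP : (p1.append p2).IsPath := SimpleGraph.Walk.isPath_of_length_eq_dist _ (by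
    rw [SimpleGraph.Walk.length_append]; omega)
  have hQ : (q1.append q2).IsPath := SimpleGraph.Walk.isPath_of_length_eq_dist _ (by
    rw [SimpleGraph.Walk.length_append]; omega)
  have hPQ := congrArg Subtype.val ((hT.isAcyclic.subsingleton_path _ _).elim ⟨_, hP⟩ ⟨_, hQ⟩)
  simp only at hPQ
  have h1 : (p1.append p2).getVert p1.length = u := by
    rw [SimpleGraph.Walk.getVert_append]
    simp
  have h2 : (q1.append q2).getVert q1.length = u' := by
    rw [SimpleGraph.Walk.getVert_append]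
    simp
  rw [← h1, ← h2, hPQ, hp1, hq1, he]

end

end Vale.Agent.P201
end
end

section

section

/-!
A potential function on a tree with labelled edges.
-/

namespace Vale.Agent.P201

theorem tree_adj_dist {V : Type*} {T : SimpleGraph V} (hT : T.IsTree) (v0 x y : V)
    (h : T.Adj x y) : T.dist v0 y = T.dist v0 x + 1 ∨ T.dist v0 x = T.dist v0 y + 1 :=
  (hT.dist_eq_dist_add_one_of_adj v0 h).symm

theorem tree_parent_unique {V : Type*} {T : SimpleGraph V} (hT : T.IsTree) (v0 v x y : V)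
    (hx : T.Adj x v) (hy : T.Adj y v) (hdx : T.dist v0 v = T.dist v0 x + 1)
    (hdy : T.dist v0 v = T.dist v0 y + 1) : x = y := by
  have h1 : T.dist x v = 1 := SimpleGraph.dist_eq_one_iff_adj.2 hx
  have h2 : T.dist y v = 1 := SimpleGraph.dist_eq_one_iff_adj.2 hy
  exact dist_unique hT (a := v0) (z := v) (by omega) (by omega) (by omega)

theorem tree_parent_exists {V : Type*} {T : SimpleGraph V} (hT : T.IsTree) (v0 v : V)
    (h : v ≠ v0) : ∃ x, T.Adj x v ∧ T.dist v0 v = T.dist v0 x + 1 := by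
  refine exists_pred hT ?_
  intro h'
  rw [hT.connected.dist_eq_zero_iff] at h'
  exact h h'.symm

theorem exists_potential {V : Type*} {T : SimpleGraph V} (hT : T.IsTree) {H : Type*} [Group H]
    (lab : V → V → H) (hlab : ∀ x y, T.Adj x y → lab y x = (lab x y)⁻¹) (v0 : V) :
    ∃ L : V → H, L v0 = 1 ∧ ∀ x y, T.Adj x y → L y = L x * lab x y := by
  classical
  choose! par hpar1 hpar2 using fun v => tree_parent_exists hT v0 v
  let f : ℕ → V → H := fun n => Nat.rec (fun _ => 1)
    (fun _ F v => if v = v0 then 1 else F (par v) * lab (par v) v) n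
  have f0 : ∀ v, f 0 v = 1 := fun v => rfl
  have fs : ∀ n v, f (n + 1) v = if v = v0 then 1 else f n (par v) * lab (par v) v :=
    fun n v => rfl
  have hv0 : ∀ n, f n v0 = 1 := by
    intro n
    cases n with
    | zero => exact f0 v0
    | succ n => rw [fs, if_pos rfl]
  refine ⟨fun v => f (T.dist v0 v) v, hv0 _, ?_⟩
  have key : ∀ x y, T.Adj x y → T.dist v0 y = T.dist v0 x + 1 →
      f (T.dist v0 y) y = f (T.dist v0 x) x * lab x y := by
    intro x y hxy hd
    have hy : y ≠ v0 := by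
      rintro rfl
      rw [SimpleGraph.dist_self] at hd
      omega
    have hx : par y = x :=
      tree_parent_unique hT v0 y (par y) x (hpar1 y hy) hxy (hpar2 y hy) hd
    rw [hd, fs, if_neg hy, hx]
  intro x y hxy
  rcases tree_adj_dist hT v0 x y hxy with h | h
  · exact key x y hxy h
  · have h1 := key y x hxy.symm h
    simp only
    rw [h1, hlab y x hxy.symm]
    group

end Vale.Agent.P201
end
end

section

section

/-!
A group acting on a tree maps to the units of a ring with stable letters.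
-/

namespace Vale.Agent.P201

namespace HNN

open Finsupp

section Units

variable {G V : Type*} [Group G] {R : Type*} [Ring R] {Ed : Type*}
  {F : Ed → Type*} [∀ e, DivisionRing (F e)] {J : Ed → Bool → Type*} {H : HData R Ed F J}
  (D : GD G V H)

open Classical in
/-- units attached to group elements -/
noncomputable def GD.W (v : V) (g : G) : (AddMonoid.End H.V)ˣ :=
  if h : g ∈ D.A v then
    { val := H.L (D.u v g)
      inv := H.L (D.u v g⁻¹)
      val_inv := by
        rw [← map_mul, ← D.u_mul v g g⁻¹ h (inv_mem h), mul_inv_cancel, D.u_one, map_one]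
      inv_val := by
        rw [← map_mul, ← D.u_mul v g⁻¹ g (inv_mem h) h, inv_mul_cancel, D.u_one, map_one] }
  else 1

theorem W_val {v : V} {g : G} (h : g ∈ D.A v) : (D.W v g : AddMonoid.End H.V) = H.L (D.u v g) := by
  rw [GD.W, dif_pos h]

theorem W_mul {v : V} {g h : G} (hg : g ∈ D.A v) (hh : h ∈ D.A v) :
    D.W v (g * h) = D.W v g * D.W v h := by
  apply Units.ext
  rw [W_val D (mul_mem hg hh), Units.val_mul, W_val D hg, W_val D hh, D.u_mul v g h hg hh, map_mul]

theorem W_one (v : V) : D.W v 1 = 1 := by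
  apply Units.ext
  rw [W_val D (one_mem _), D.u_one, map_one, Units.val_one]

theorem W_inv {v : V} {g : G} (hg : g ∈ D.A v) : D.W v g⁻¹ = (D.W v g)⁻¹ := by
  rw [eq_inv_iff_mul_eq_one, ← W_mul D (inv_mem hg) hg, inv_mul_cancel, W_one]

/-- stable letters as units -/
noncomputable def HData.Tu (H : HData R Ed F J) (e : Ed) (s : Bool) : (AddMonoid.End H.V)ˣ where
  val := H.T e s
  inv := H.T e (!s)
  val_inv := end_ext fun v => T_T H e s v
  inv_val := end_ext fun v => T_T' H e s v

theorem Tu_inv (e : Ed) (s : Bool) : H.Tu e (!s) = (H.Tu e s)⁻¹ := Units.ext rfl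

end Units

section Tree

variable {G V : Type*} [Group G] [MulAction G V] {R : Type*} [Ring R] {Ed : Type*}
  {F : Ed → Type*} [∀ e, DivisionRing (F e)] {J : Ed → Bool → Type*} {H : HData R Ed F J}
  (D : GD G V H)

variable (rv : V → V) (γ : V → G) (hγ : ∀ v, γ v • rv v = v) (hrv : ∀ (g : G) v, rv (g • v) = rv v)
  (hA : ∀ v, D.A v = MulAction.stabilizer G v)
  (a : Ed → Bool → V) (hen : ∀ e s, D.en e s = rv (a e s))
  (hτ : ∀ e s, D.τ e s = (γ (a e s))⁻¹ * γ (a e (!s)))
  (hc : ∀ e s (c : G), c • a e s = a e s → c • a e (!s) = a e (!s) →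
    ∃ f : F e, H.σ e s f = D.u (rv (a e s)) ((γ (a e s))⁻¹ * c * γ (a e s)) ∧
      H.σ e (!s) f = D.u (rv (a e (!s))) ((γ (a e (!s)))⁻¹ * c * γ (a e (!s))))

include hγ hA in
theorem mem_A {x y : V} (hxy : rv x = rv y) {g : G} (hg : g • y = x) :
    (γ x)⁻¹ * g * γ y ∈ D.A (rv x) := by
  rw [hA, MulAction.mem_stabilizer_iff, mul_smul, mul_smul]
  conv_lhs => rw [hxy, hγ, hg]
  rw [inv_smul_eq_iff, hγ]

include hγ hA hc in
theorem Tu_W (e : Ed) (s : Bool) (c : G) (h1 : c • a e s = a e s)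
    (h2 : c • a e (!s) = a e (!s)) :
    H.Tu e s * D.W (rv (a e (!s))) ((γ (a e (!s)))⁻¹ * c * γ (a e (!s))) =
      D.W (rv (a e s)) ((γ (a e s))⁻¹ * c * γ (a e s)) * H.Tu e s := by
  obtain ⟨f, hf, hf'⟩ := hc e s c h1 h2
  apply Units.ext
  rw [Units.val_mul, Units.val_mul, W_val D (mem_A D rv γ hγ hA rfl h1),
    W_val D (mem_A D rv γ hγ hA rfl h2), ← hf, ← hf']
  exact T_mul_L H e s f

/-- label of an edge in terms of a representative -/
noncomputable def lam (e : Ed) (s : Bool) (g : G) (x y : V) : (AddMonoid.End H.V)ˣ :=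
  D.W (rv x) ((γ x)⁻¹ * g * γ (a e s)) * H.Tu e s *
    D.W (rv y) ((γ (a e (!s)))⁻¹ * g⁻¹ * γ y)

include hrv in
theorem rv_eq {g : G} {x y : V} (h : g • x = y) : rv y = rv x := by rw [← h, hrv]

include hγ hA in
theorem mem_A' {x y : V} (hxy : rv x = rv y) {g : G} (hg : g • y = x) :
    (γ y)⁻¹ * g⁻¹ * γ x ∈ D.A (rv x) := by
  have h := inv_mem (mem_A D rv γ hγ hA hxy hg)
  have h2 : ((γ x)⁻¹ * g * γ y)⁻¹ = (γ y)⁻¹ * g⁻¹ * γ x := by group
  rwa [h2] at h

variable (hun : ∀ e s e' s' (g : G), g • a e s = a e' s' → g • a e (!s) = a e' (!s') →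
    e = e' ∧ s = s')

include hγ hrv hA hc hun in
theorem lam_eq {e e' : Ed} {s s' : Bool} {g g' : G} {x y : V} (h1 : g • a e s = x)
    (h2 : g • a e (!s) = y) (h1' : g' • a e' s' = x) (h2' : g' • a e' (!s') = y) :
    lam D rv γ a e s g x y = lam D rv γ a e' s' g' x y := by
  obtain ⟨rfl, rfl⟩ := hun e s e' s' (g'⁻¹ * g) (by
    rw [mul_smul, h1, ← h1', inv_smul_smul]) (by
    rw [mul_smul, h2, ← h2', inv_smul_smul])
  have hc1 : (g⁻¹ * g') • a e s = a e s := by rw [mul_smul, h1', ← h1, inv_smul_smul]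
  have hc2 : (g⁻¹ * g') • a e (!s) = a e (!s) := by rw [mul_smul, h2', ← h2, inv_smul_smul]
  have hx : rv x = rv (a e s) := rv_eq rv hrv h1
  have hy : rv y = rv (a e (!s)) := rv_eq rv hrv h2
  have hk := Tu_W D rv γ hγ hA a hc e s (g⁻¹ * g') hc1 hc2
  have e1 : (γ x)⁻¹ * g' * γ (a e s) =
      ((γ x)⁻¹ * g * γ (a e s)) * ((γ (a e s))⁻¹ * (g⁻¹ * g') * γ (a e s)) := by group
  have e2 : (γ (a e (!s)))⁻¹ * g⁻¹ * γ y =
      ((γ (a e (!s)))⁻¹ * (g⁻¹ * g') * γ (a e (!s))) * ((γ (a e (!s)))⁻¹ * g'⁻¹ * γ y) := by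
    group
  have m1 := mem_A D rv γ hγ hA hx h1
  have m2 : (γ (a e s))⁻¹ * (g⁻¹ * g') * γ (a e s) ∈ D.A (rv x) := by
    rw [hx]; exact mem_A D rv γ hγ hA rfl hc1
  have m3 : (γ (a e (!s)))⁻¹ * (g⁻¹ * g') * γ (a e (!s)) ∈ D.A (rv y) := by
    rw [hy]; exact mem_A D rv γ hγ hA rfl hc2
  have m4 := mem_A' D rv γ hγ hA hy h2'
  unfold lam
  rw [e1, e2, W_mul D m1 m2, W_mul D m3 m4]
  rw [← hx, ← hy] at hk
  rw [mul_assoc (D.W (rv x) _) (D.W (rv x) _), ← hk]
  simp only [mul_assoc]

open Classical in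
/-- labels of edges -/
noncomputable def lab (x y : V) : (AddMonoid.End H.V)ˣ :=
  if h : ∃ p : Ed × Bool × G, p.2.2 • a p.1 p.2.1 = x ∧ p.2.2 • a p.1 (!p.2.1) = y then
    lam D rv γ a h.choose.1 h.choose.2.1 h.choose.2.2 x y
  else 1

include hγ hrv hA hc hun in
theorem lab_eq {e : Ed} {s : Bool} {g : G} {x y : V} (h1 : g • a e s = x)
    (h2 : g • a e (!s) = y) : lab D rv γ a x y = lam D rv γ a e s g x y := by
  have h : ∃ p : Ed × Bool × G, p.2.2 • a p.1 p.2.1 = x ∧ p.2.2 • a p.1 (!p.2.1) = y :=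
    ⟨(e, s, g), h1, h2⟩
  rw [lab, dif_pos h]
  exact lam_eq D rv γ hγ hrv hA a hc hun h.choose_spec.1 h.choose_spec.2 h1 h2

variable (T : SimpleGraph V) (hT : T.IsTree)
  (hadj : ∀ (g : G) v w, T.Adj v w → T.Adj (g • v) (g • w))
  (hex : ∀ x y, T.Adj x y → ∃ e s, ∃ g : G, g • a e s = x ∧ g • a e (!s) = y)

include hγ hrv hA hc hun hex in
theorem lab_symm {x y : V} (hxy : T.Adj x y) : lab D rv γ a y x = (lab D rv γ a x y)⁻¹ := by
  obtain ⟨e, s, g, h1, h2⟩ := hex x y hxy
  rw [lab_eq D rv γ hγ hrv hA a hc hun h1 h2,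
    lab_eq D rv γ hγ hrv hA a hc hun (e := e) (s := !s) (g := g) h2 (by rwa [Bool.not_not])]
  have hx : rv x = rv (a e s) := rv_eq rv hrv h1
  have hy : rv y = rv (a e (!s)) := rv_eq rv hrv h2
  have m1 := mem_A D rv γ hγ hA hx h1
  have m4 := mem_A' D rv γ hγ hA hy h2
  unfold lam
  rw [mul_inv_rev, mul_inv_rev, ← W_inv D m1, ← W_inv D m4, ← Tu_inv, Bool.not_not]
  rw [mul_assoc]
  congr 2
  · group
  · congr 1
    group

include hγ hrv hA hc hun hex in
theorem lab_smul (h : G) {x y : V} (hxy : T.Adj x y) :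
    lab D rv γ a (h • x) (h • y) = D.W (rv x) ((γ (h • x))⁻¹ * h * γ x) * lab D rv γ a x y *
      (D.W (rv y) ((γ (h • y))⁻¹ * h * γ y))⁻¹ := by
  obtain ⟨e, s, g, h1, h2⟩ := hex x y hxy
  rw [lab_eq D rv γ hγ hrv hA a hc hun h1 h2,
    lab_eq D rv γ hγ hrv hA a hc hun (e := e) (s := s) (g := h * g) (x := h • x) (y := h • y)
      (by rw [mul_smul, h1]) (by rw [mul_smul, h2])]
  have hx : rv x = rv (a e s) := rv_eq rv hrv h1
  have hy : rv y = rv (a e (!s)) := rv_eq rv hrv h2
  have m1 := mem_A D rv γ hγ hA hx h1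
  have m4 := mem_A' D rv γ hγ hA hy h2
  have k1 : (γ (h • x))⁻¹ * h * γ x ∈ D.A (rv x) := by
    have := mem_A D rv γ hγ hA (x := h • x) (y := x) (hrv h x) rfl
    rwa [hrv] at this
  have k2 : (γ (h • y))⁻¹ * h * γ y ∈ D.A (rv y) := by
    have := mem_A D rv γ hγ hA (x := h • y) (y := y) (hrv h y) rfl
    rwa [hrv] at this
  unfold lam
  rw [hrv, hrv, ← W_inv D k2]
  have e1 : (γ (h • x))⁻¹ * (h * g) * γ (a e s) =
      ((γ (h • x))⁻¹ * h * γ x) * ((γ x)⁻¹ * g * γ (a e s)) := by group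
  have e2 : (γ (a e (!s)))⁻¹ * (h * g)⁻¹ * γ (h • y) =
      ((γ (a e (!s)))⁻¹ * g⁻¹ * γ y) * ((γ (h • y))⁻¹ * h * γ y)⁻¹ := by group
  rw [e1, e2, W_mul D k1 m1, W_mul D m4 (inv_mem k2)]
  simp only [mul_assoc]

include hγ hrv hA hc hun hex hen hτ in
theorem NF_lab {x y : V} (hxy : T.Adj x y) {z : AddMonoid.End H.V} {k : G}
    (hz : D.NF (rv y) z k) :
    D.NF (rv x) ((lab D rv γ a x y : AddMonoid.End H.V) * z) ((γ x)⁻¹ * γ y * k) := by
  obtain ⟨e, s, g, h1, h2⟩ := hex x y hxy
  rw [lab_eq D rv γ hγ hrv hA a hc hun h1 h2]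
  have hx : rv x = rv (a e s) := rv_eq rv hrv h1
  have hy : rv y = rv (a e (!s)) := rv_eq rv hrv h2
  have m1 := mem_A D rv γ hγ hA hx h1
  have m4 := mem_A' D rv γ hγ hA hy h2
  unfold lam
  rw [Units.val_mul, Units.val_mul, W_val D m1, W_val D m4]
  have n1 := NF_u D m4 hz
  rw [hy, ← hen] at n1
  have n2 := NF_T D n1
  rw [hen, ← hx] at n2
  have n3 := NF_u D m1 n2
  have e1 : (γ x)⁻¹ * g * γ (a e s) * (D.τ e s * ((γ (a e (!s)))⁻¹ * g⁻¹ * γ y * k)) =
      (γ x)⁻¹ * γ y * k := by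
    rw [hτ]; group
  rw [e1] at n3
  have e2 : H.L (D.u (rv x) ((γ x)⁻¹ * g * γ (a e s))) * (H.Tu e s : AddMonoid.End H.V) *
      H.L (D.u (rv y) ((γ (a e (!s)))⁻¹ * g⁻¹ * γ y)) * z =
      H.L (D.u (rv x) ((γ x)⁻¹ * g * γ (a e s))) * (H.T e s *
        (H.L (D.u (D.en e (!s)) ((γ (a e (!s)))⁻¹ * g⁻¹ * γ y)) * z)) := by
    rw [hy, hen]
    simp only [mul_assoc]
    rfl
  rw [e2]
  exact n3

include hγ hrv hA hc hun hex hen hτ hT hadj in
/-- The group maps to the units of the ring, compatibly with normal forms. -/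
theorem exists_Phi (v0 : V) : ∃ Φ : G →* (AddMonoid.End H.V)ˣ,
    ∀ g, D.NF (rv v0) (Φ g) ((γ v0)⁻¹ * g * γ v0) := by
  obtain ⟨L, hL0, hL⟩ := exists_potential hT (lab D rv γ a)
    (fun x y hxy => lab_symm D rv γ hγ hrv hA a hc hun T hex hxy) v0
  have kmem : ∀ (g : G) (x : V), (γ (g • x))⁻¹ * g * γ x ∈ D.A (rv x) := by
    intro g x
    have := mem_A D rv γ hγ hA (x := g • x) (y := x) (hrv g x) rfl
    rwa [hrv] at this
  -- the key relation
  have hstep : ∀ (g : G) (x y : V), T.Adj x y →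
      L (g • x) * D.W (rv x) ((γ (g • x))⁻¹ * g * γ x) * (L x)⁻¹ =
        L (g • y) * D.W (rv y) ((γ (g • y))⁻¹ * g * γ y) * (L y)⁻¹ := by
    intro g x y hxy
    rw [hL _ _ (hadj g x y hxy), hL _ _ hxy,
      lab_smul D rv γ hγ hrv hA a hc hun T hex g hxy]
    group
  have hwalk : ∀ (g : G) (x y : V) (p : T.Walk x y),
      L (g • x) * D.W (rv x) ((γ (g • x))⁻¹ * g * γ x) * (L x)⁻¹ =
        L (g • y) * D.W (rv y) ((γ (g • y))⁻¹ * g * γ y) * (L y)⁻¹ := by
    intro g x y p
    induction p with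
    | nil => rfl
    | cons h p ih => rw [hstep g _ _ h, ih]
  have hkey : ∀ (g : G) (x : V), L (g • x) * D.W (rv x) ((γ (g • x))⁻¹ * g * γ x) =
      L (g • v0) * D.W (rv v0) ((γ (g • v0))⁻¹ * g * γ v0) * L x := by
    intro g x
    obtain ⟨p⟩ := hT.connected.preconnected v0 x
    have h1 := hwalk g v0 x p
    rw [hL0, inv_one, mul_one] at h1
    rw [h1, inv_mul_cancel_right]
  -- normal forms
  have hNF : ∀ (x y : V) (p : T.Walk x y),
      (∀ z k, D.NF (rv x) z k → D.NF (rv v0) ((L x : AddMonoid.End H.V) * z)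
        ((γ v0)⁻¹ * γ x * k)) →
      (∀ z k, D.NF (rv y) z k → D.NF (rv v0) ((L y : AddMonoid.End H.V) * z)
        ((γ v0)⁻¹ * γ y * k)) := by
    intro x y p
    induction p with
    | nil => exact id
    | @cons x y' w h p ih =>
      intro hx
      apply ih
      intro z k hz
      have h1 := hx _ _ (NF_lab D rv γ hγ hrv hA a hen hτ hc hun T hex h hz)
      rw [hL x y' h, Units.val_mul, mul_assoc]
      have e1 : (γ v0)⁻¹ * γ y' * k = (γ v0)⁻¹ * γ x * ((γ x)⁻¹ * γ y' * k) := by group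
      rw [e1]
      exact h1
  have hNF' : ∀ x z k, D.NF (rv x) z k → D.NF (rv v0) ((L x : AddMonoid.End H.V) * z)
        ((γ v0)⁻¹ * γ x * k) := by
    intro x
    obtain ⟨p⟩ := hT.connected.preconnected v0 x
    refine hNF v0 x p ?_
    intro z k hz
    rw [hL0, Units.val_one, one_mul, inv_mul_cancel, one_mul]
    exact hz
  refine ⟨{ toFun := fun g => L (g • v0) * D.W (rv v0) ((γ (g • v0))⁻¹ * g * γ v0)
            map_one' := ?_
            map_mul' := ?_ }, ?_⟩
  · rw [one_smul, mul_one, inv_mul_cancel, W_one, mul_one, hL0]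
  · intro g h
    have h1 := hkey g (h • v0)
    have h2 := kmem g (h • v0)
    rw [hrv] at h1 h2
    calc L ((g * h) • v0) * D.W (rv v0) ((γ ((g * h) • v0))⁻¹ * (g * h) * γ v0)
        = L (g • h • v0) * D.W (rv v0) (((γ (g • h • v0))⁻¹ * g * γ (h • v0)) *
            ((γ (h • v0))⁻¹ * h * γ v0)) := by
          rw [mul_smul]
          congr 2
          group
      _ = L (g • v0) * D.W (rv v0) ((γ (g • v0))⁻¹ * g * γ v0) *
            (L (h • v0) * D.W (rv v0) ((γ (h • v0))⁻¹ * h * γ v0)) := by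
          rw [W_mul D h2 (kmem h v0), ← mul_assoc, h1, mul_assoc]
  · intro g
    change D.NF (rv v0) ((L (g • v0) * D.W (rv v0) ((γ (g • v0))⁻¹ * g * γ v0) :
      (AddMonoid.End H.V)ˣ) : AddMonoid.End H.V) _
    rw [Units.val_mul, W_val D (kmem g v0)]
    have h1 := NF_u D (kmem g v0) (NF_one D (rv v0))
    rw [mul_one, mul_one] at h1
    rw [← hrv g v0] at h1
    have h2 := hNF' _ _ _ h1
    rw [hrv] at h2
    have e1 : (γ v0)⁻¹ * γ (g • v0) * ((γ (g • v0))⁻¹ * g * γ v0) = (γ v0)⁻¹ * g * γ v0 := by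
      group
    rw [e1] at h2
    exact h2

end Tree

end HNN

end Vale.Agent.P201
end
end

section

section

/-!
Preparations for the main theorem on groups acting on trees: bases and a common overring.
-/

namespace Vale.Agent.P201

universe u1 u2 u3

open Finsupp

/-- coordinates with respect to a basis extending a given independent family -/
theorem exists_rep {R : Type u1} {F : Type*} [Ring R] [DivisionRing F] (σ : F →+* R) {I : Type*}
    (t : I → R) (ht : ∀ f : I →₀ F, (f.sum fun i c => σ c * t i) = 0 → f = 0) :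
    ∃ (J : Type u1) (rep : R ≃+ (J →₀ F)) (jt : I → J), Function.Injective jt ∧
      (∀ f r, rep (σ f * r) = f • rep r) ∧ (∀ i, rep (t i) = single (jt i) 1) := by
  let _ : Module F R := Module.compHom R σ
  have hsm : ∀ (f : F) (r : R), f • r = σ f * r := fun _ _ => rfl
  have hli : LinearIndependent F t := by
    rw [linearIndependent_iff]
    intro f hf
    apply ht
    rw [Finsupp.linearCombination_apply] at hf
    exact hf
  let hs := hli.linearIndepOn_id
  let J := hs.extend (Set.subset_univ _)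
  let b : Module.Basis J F R := Module.Basis.extend hs
  have hsub : ∀ i, t i ∈ hs.extend (Set.subset_univ _) := fun i => hs.subset_extend _ ⟨i, rfl⟩
  refine ⟨J, b.repr.toAddEquiv, fun i => ⟨t i, hsub i⟩, ?_, ?_, ?_⟩
  · intro i j hij
    exact hli.injective (congrArg Subtype.val hij)
  · intro f r
    change b.repr (σ f * r) = f • b.repr r
    rw [← hsm, map_smul]
  · intro i
    have h1 : b ⟨t i, hsub i⟩ = t i := Module.Basis.extend_apply_self hs _
    change b.repr (t i) = _
    rw [← h1, Module.Basis.repr_self]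

/-- Division rings with a common division subring embed in a common domain. -/
theorem exists_common {E : Type u1} [DivisionRing E] {ι : Type u2} [Nonempty ι] {D : ι → Type u3}
    [∀ i, DivisionRing (D i)] (sc : ∀ i, E →+* D i) :
    ∃ (R : Type (max u1 u2 u3)) (_ : Ring R) (_ : NoZeroDivisors R) (_ : Nontrivial R)
      (f : ∀ i, D i →+* R), ∀ i j e, f i (sc i e) = f j (sc j e) := by
  let _ : ∀ i, Module E (D i) := fun i => Module.compHom (D i) (sc i)
  have hsm : ∀ i (e : E) (x : D i), e • x = sc i e * x := fun _ _ _ => rfl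
  have _ : ∀ i, IsScalarTower E (D i) (D i) := fun i => ⟨fun e x y => mul_assoc (sc i e) x y⟩
  have hs : ∀ i, LinearIndepOn E id ({1} : Set (D i)) := fun i =>
    LinearIndepOn.singleton one_ne_zero
  let J : ι → Type _ := fun i => (hs i).extend (Set.subset_univ _)
  let b : ∀ i, Module.Basis (J i) E (D i) := fun i => Module.Basis.extend (hs i)
  have hsub : ∀ i, (1 : D i) ∈ (hs i).extend (Set.subset_univ _) := fun i =>
    (hs i).subset_extend _ rfl
  let o : ∀ i, J i := fun i => ⟨1, hsub i⟩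
  have hb : ∀ i, b i (o i) = 1 := fun i => Module.Basis.extend_apply_self (hs i) (o i)
  refine ⟨Co o b, inferInstance, ?_, ?_, fun i =>
    (act o b i).codRestrict (Co o b) (fun x => act_mem o b i x), ?_⟩
  · refine ⟨fun {x y} hxy => ?_⟩
    rcases Co_dom b hb x.2 y.2 (congrArg Subtype.val hxy) with h | h
    · exact Or.inl (Subtype.ext h)
    · exact Or.inr (Subtype.ext h)
  · refine ⟨0, 1, fun h => ?_⟩
    have h1 : (0 : AddMonoid.End (Word o →₀ E)) = 1 := congrArg Subtype.val h
    have h2 : (0 : Word o →₀ E) = vac o := by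
      have := congrArg (fun T : AddMonoid.End (Word o →₀ E) => T (vac o)) h1
      exact this
    have h3 := congrArg (fun v : Word o →₀ E => v (Word.nil o)) h2
    simp [vac] at h3
  · intro i j e
    apply Subtype.ext
    change act o b i (sc i e) = act o b j (sc j e)
    have h1 : sc i e = e • (1 : D i) := by rw [hsm, mul_one]
    have h2 : sc j e = e • (1 : D j) := by rw [hsm, mul_one]
    rw [h1, h2, act_smul, act_smul, map_one, map_one]

/-- Linnell freeness passes to subgroups. -/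
theorem linnellFree_comp {G C E D : Type*} [Group G] [Group C] [DivisionRing E] [DivisionRing D]
    {ψ : MonoidAlgebra E G →+* D} (hψ : LinnellFree ψ) (φ : C →* G)
    (hφ : Function.Injective φ) :
    LinnellFree (ψ.comp (MonoidAlgebra.mapDomainRingHom E φ)) := by
  classical
  intro N s hs d hd hsum
  have hsingle : ∀ (c : C) (e : E),
      (ψ.comp (MonoidAlgebra.mapDomainRingHom E φ)) (MonoidAlgebra.single c e) =
        ψ (MonoidAlgebra.single (φ c) e) := by
    intro c e
    rw [RingHom.comp_apply, MonoidAlgebra.mapDomainRingHom_apply, MonoidAlgebra.mapDomain_single]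
  let d' : G → D := fun x => if h : ∃ c, φ c = x then d h.choose else 0
  have hd' : ∀ c, d' (φ c) = d c := by
    intro c
    have h : ∃ c', φ c' = φ c := ⟨c, rfl⟩
    simp only [d']
    rw [dif_pos h]
    congr 1
    exact hφ h.choose_spec
  have key := hψ (N.map φ) (s.image φ) (by
      intro x hx y hy hxy
      rw [Finset.mem_image] at hx hy
      obtain ⟨a, ha, rfl⟩ := hx
      obtain ⟨c, hc, rfl⟩ := hy
      obtain ⟨k, hk, hk'⟩ := hxy
      rw [← map_inv, ← map_mul] at hk'
      have h1 := hφ hk'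
      rw [h1] at hk
      rw [hs a ha c hc hk]) d' (by
      intro x hx
      rw [Finset.mem_image] at hx
      obtain ⟨a, ha, rfl⟩ := hx
      rw [hd']
      refine Subfield.closure_mono ?_ (hd a ha)
      rintro _ ⟨h, hh, e, rfl⟩
      exact ⟨φ h, ⟨h, hh, rfl⟩, e, hsingle h e⟩) (by
      rw [Finset.sum_image (fun a _ c _ h => hφ h), ← hsum]
      apply Finset.sum_congr rfl
      intro a _
      rw [hd']
      unfold gu
      rw [hsingle])
  intro a ha
  rw [← hd' a]
  exact key _ (Finset.mem_image.2 ⟨a, ha, rfl⟩)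

end Vale.Agent.P201
end
end

section

section

/-!
Edges, orbit representatives, edge division rings and transversals.
-/

namespace Vale.Agent.P201

universe u1 u2 u3 u4 u5

open Finsupp

/-- Orbit representatives. -/
theorem exists_reps (G : Type*) (V : Type*) [Group G] [MulAction G V] :
    ∃ (rv : V → V) (γ : V → G), (∀ v, γ v • rv v = v) ∧ ∀ (g : G) v, rv (g • v) = rv v := by
  let rv : V → V := fun v => (Quotient.mk (MulAction.orbitRel G V) v).out
  have h1 : ∀ v, ∃ g : G, g • rv v = v := by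
    intro v
    have h2 : (MulAction.orbitRel G V) (rv v) v := Quotient.mk_out v
    rw [MulAction.orbitRel_apply] at h2
    obtain ⟨g, hg⟩ := h2
    refine ⟨g⁻¹, ?_⟩
    rw [← hg]
    exact inv_smul_smul g v
  choose γ hγ using h1
  refine ⟨rv, γ, hγ, fun g v => ?_⟩
  have h3 : Quotient.mk (MulAction.orbitRel G V) (g • v) = Quotient.mk _ v :=
    Quotient.sound (MulAction.orbitRel_apply.2 (MulAction.mem_orbit v g))
  simp only [rv]
  rw [h3]

/-- Oriented orbit representatives of the edges. -/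
theorem exists_edges {G : Type*} {V : Type u1} [Group G] [MulAction G V] (T : SimpleGraph V)
    (hinv : ∀ (g : G) v w, T.Adj v w → g • v = w → g • w ≠ v) :
    ∃ (Ed : Type u1) (a : Ed → Bool → V), (∀ e s, T.Adj (a e s) (a e (!s))) ∧
      (∀ x y, T.Adj x y → ∃ e s, ∃ g : G, g • a e s = x ∧ g • a e (!s) = y) ∧
      (∀ e s e' s' (g : G), g • a e s = a e' s' → g • a e (!s) = a e' (!s') →
        e = e' ∧ s = s') := by
  let P := {p : V × V // T.Adj p.1 p.2}
  let r : P → P → Prop := fun p q => ∃ g : G, (g • p.1.1 = q.1.1 ∧ g • p.1.2 = q.1.2) ∨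
    (g • p.1.1 = q.1.2 ∧ g • p.1.2 = q.1.1)
  have hr : Equivalence r := by
    refine ⟨fun p => ⟨1, Or.inl ⟨one_smul _ _, one_smul _ _⟩⟩, ?_, ?_⟩
    · rintro p q ⟨g, ⟨h1, h2⟩ | ⟨h1, h2⟩⟩
      · exact ⟨g⁻¹, Or.inl ⟨by rw [← h1, inv_smul_smul], by rw [← h2, inv_smul_smul]⟩⟩
      · exact ⟨g⁻¹, Or.inr ⟨by rw [← h2, inv_smul_smul], by rw [← h1, inv_smul_smul]⟩⟩
    · rintro p q t ⟨g, ⟨h1, h2⟩ | ⟨h1, h2⟩⟩ ⟨g', ⟨h1', h2'⟩ | ⟨h1', h2'⟩⟩
      · exact ⟨g' * g, Or.inl ⟨by rw [mul_smul, h1, h1'], by rw [mul_smul, h2, h2']⟩⟩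
      · exact ⟨g' * g, Or.inr ⟨by rw [mul_smul, h1, h1'], by rw [mul_smul, h2, h2']⟩⟩
      · exact ⟨g' * g, Or.inr ⟨by rw [mul_smul, h1, h2'], by rw [mul_smul, h2, h1']⟩⟩
      · exact ⟨g' * g, Or.inl ⟨by rw [mul_smul, h1, h2'], by rw [mul_smul, h2, h1']⟩⟩
  let S : Setoid P := ⟨r, hr⟩
  let a : Quotient S → Bool → V := fun e s => if s then e.out.1.1 else e.out.1.2
  have hat : ∀ e, a e true = e.out.1.1 := fun e => rfl
  have haf : ∀ e, a e false = e.out.1.2 := fun e => rfl
  refine ⟨Quotient S, a, ?_, ?_, ?_⟩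
  · intro e s
    cases s
    · exact e.out.2.symm
    · exact e.out.2
  · intro x y hxy
    obtain ⟨g, ⟨h1, h2⟩ | ⟨h1, h2⟩⟩ := Quotient.mk_out (s := S) (⟨(x, y), hxy⟩ : P)
    · exact ⟨Quotient.mk S ⟨(x, y), hxy⟩, true, g, h1, h2⟩
    · exact ⟨Quotient.mk S ⟨(x, y), hxy⟩, false, g, h2, h1⟩
  · intro e s e' s' g h1 h2
    have hrel : r e.out e'.out := by
      refine ⟨g, ?_⟩
      cases s <;> cases s'
      · exact Or.inl ⟨h2, h1⟩
      · exact Or.inr ⟨h2, h1⟩
      · exact Or.inr ⟨h1, h2⟩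
      · exact Or.inl ⟨h1, h2⟩
    have hee : e = e' := by
      have h3 : Quotient.mk S e.out = Quotient.mk S e'.out := Quotient.sound hrel
      rwa [Quotient.out_eq, Quotient.out_eq] at h3
    subst hee
    refine ⟨rfl, ?_⟩
    have hadj1 : T.Adj (a e true) (a e false) := e.out.2
    cases s <;> cases s'
    · rfl
    · exact absurd h1 (hinv g _ _ hadj1 h2)
    · exact absurd h2 (hinv g _ _ hadj1 h1)
    · rfl

section EdgeRing

variable {A : Bool → Type u1} [∀ i, Group (A i)] {C : Type u2} [Group C]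
  (φ : ∀ i, C →* A i) {E : Type u4} [DivisionRing E] {D : Bool → Type u3}
  [∀ i, DivisionRing (D i)] (ψ : ∀ i, MonoidAlgebra E (A i) →+* D i)

/-- The division ring of an edge group. -/
theorem exists_edge_ring
    (hbal : ∀ z : D true × D false, RC {z | ∃ (g : C) (e : E),
      z = (ψ true (MonoidAlgebra.single (φ true g) e),
        ψ false (MonoidAlgebra.single (φ false g) e))} z → (z.1 = 0 ↔ z.2 = 0)) :
    ∃ (F : Type u3) (_ : DivisionRing F) (π : ∀ s, F →+* D s) (χ : MonoidAlgebra E C →+* F),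
      (∀ s c e, π s (χ (MonoidAlgebra.single c e)) =
        ψ s (MonoidAlgebra.single (φ s c) e)) ∧
      (∀ s f, π s f ∈ KK (ψ s) (φ s).range) := by
  have hdiag : ∀ i, ∀ z : D i × D i, RC {z | ∃ (g : C) (e : E),
      z = (ψ i (MonoidAlgebra.single (φ i g) e), ψ i (MonoidAlgebra.single (φ i g) e))} z →
        z.1 = z.2 := by
    intro i z hz
    induction hz with
    | base hx => obtain ⟨g, e, rfl⟩ := hx; rfl
    | zero => rfl
    | one => rfl
    | add _ _ h1 h2 => rw [Prod.fst_add, Prod.snd_add, h1, h2]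
    | mul _ _ h1 h2 => rw [Prod.fst_mul, Prod.snd_mul, h1, h2]
    | neg _ h1 => rw [Prod.fst_neg, Prod.snd_neg, h1]
    | inv _ h1 => rw [Prod.fst_inv, Prod.snd_inv, h1]
  have hall : ∀ i j, ∀ z : D i × D j, RC {z | ∃ (g : C) (e : E),
      z = (ψ i (MonoidAlgebra.single (φ i g) e), ψ j (MonoidAlgebra.single (φ j g) e))} z →
        (z.1 = 0 ↔ z.2 = 0) := by
    intro i j z hz
    cases i <;> cases j
    · rw [hdiag false z hz]
    · have h1 := hbal (z.2, z.1) (RC.map (RingHom.prod (RingHom.snd _ _) (RingHom.fst _ _))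
        (fun x => rfl) (by
          rintro _ ⟨g, e, rfl⟩
          exact ⟨g, e, rfl⟩) hz)
      exact h1.symm
    · exact hbal z hz
    · rw [hdiag true z hz]
  have hnt := nontrivial_dring φ ψ
  refine ⟨dring φ ψ, DivisionRing.ofIsUnitOrEqZero (dring_unit φ ψ hall),
    fun i => (Pi.evalRingHom D i).comp (dring φ ψ).subtype, dmap φ ψ, ?_, ?_⟩
  · intro s c e
    change (dmap φ ψ (MonoidAlgebra.single c e)).1 s = _
    rw [dmap_apply, MonoidAlgebra.mapDomain_single]
  · intro s f
    have h2 : RC (gens (ψ s) (φ s).range) (f.1 s) := by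
      refine RC.map (Pi.evalRingHom D s) (fun x => rfl) ?_ f.2
      rintro _ ⟨g, e, rfl⟩
      exact ⟨φ s g, ⟨g, rfl⟩, e, rfl⟩
    rw [rc_iff_mem_closure] at h2
    exact h2

end EdgeRing

/-- Coordinates adapted to a transversal. -/
theorem exists_trans {A : Type u1} [Group A] {E : Type u4} [DivisionRing E] {D : Type u3}
    [DivisionRing D] (ψ : MonoidAlgebra E A →+* D) (hψ : LinnellFree ψ) (N : Subgroup A)
    {F : Type u2} [DivisionRing F] (π : F →+* D) (hπ : ∀ f, π f ∈ KK ψ N)
    {R : Type u5} [Ring R] (ι : D →+* R) (hι : Function.Injective ι) :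
    ∃ (J : Type u5) (rep : R ≃+ (J →₀ F)) (o : J) (el : J → A) (good : Set J),
      (∀ f r, rep (ι (π f) * r) = f • rep r) ∧ rep 1 = single o 1 ∧ el o = 1 ∧
      (∀ j ∈ good, rep (ι (gu ψ (el j))) = single j 1) ∧
      (∀ h : A, ∃ c ∈ N, ∃ j ∈ good, h = c * el j) := by
  classical
  obtain ⟨S, hS, h1S⟩ := N.exists_isComplement_right 1
  obtain ⟨J, rep, jt, hinj, hrep, hjt⟩ := exists_rep (ι.comp π) (fun i : S => ι (gu ψ i.1)) (by
    intro f hf
    have h1 : ι (∑ i ∈ f.support, π (f i) * gu ψ (i : A)) = 0 := by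
      rw [map_sum, ← hf, Finsupp.sum]
      refine Finset.sum_congr rfl fun i _ => ?_
      rw [map_mul]
      rfl
    have h2 : ∑ i ∈ f.support, π (f i) * gu ψ (i : A) = 0 := hι (by rw [h1, map_zero])
    have h3 := hψ N (f.support.map (Function.Embedding.subtype _)) (by
      intro a ha c hc hac
      rw [Finset.mem_map] at ha hc
      obtain ⟨a, _, rfl⟩ := ha
      obtain ⟨c, _, rfl⟩ := hc
      have h2 := hS.1
      have h3 := @h2 (⟨(a : A) * (c : A)⁻¹, hac⟩, c) (⟨1, one_mem _⟩, a) (by simp)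
      exact (congrArg (fun p => ((p.2 : S) : A)) h3).symm)
      (fun a => if h : a ∈ S then π (f ⟨a, h⟩) else 0) (by
        intro a ha
        split_ifs
        · exact hπ _
        · exact zero_mem _) (by
        rw [Finset.sum_map, ← h2]
        apply Finset.sum_congr rfl
        intro i _
        simp)
    ext i
    by_contra hne
    have h4 := h3 i (by
      rw [Finset.mem_map]
      exact ⟨i, Finsupp.mem_support_iff.2 hne, rfl⟩)
    simp only [Subtype.coe_prop, dite_true, Subtype.coe_eta] at h4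
    exact hne ((map_eq_zero π).1 h4))
  refine ⟨J, rep, jt ⟨1, h1S⟩, fun j => if h : ∃ i, jt i = j then (h.choose : A) else 1,
    Set.range jt, hrep, ?_, ?_, ?_, ?_⟩
  · have h1 := hjt ⟨1, h1S⟩
    simp only at h1
    rwa [gu_one, map_one] at h1
  · have h : ∃ i, jt i = jt ⟨1, h1S⟩ := ⟨_, rfl⟩
    simp only
    rw [dif_pos h, hinj h.choose_spec]
  · rintro j ⟨i, rfl⟩
    have h : ∃ i', jt i' = jt i := ⟨_, rfl⟩
    simp only
    rw [dif_pos h, hinj h.choose_spec, hjt]
  · intro h
    obtain ⟨⟨c, i⟩, hci⟩ := hS.2 h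
    refine ⟨c, c.2, jt i, ⟨i, rfl⟩, ?_⟩
    have h : ∃ i', jt i' = jt i := ⟨_, rfl⟩
    simp only
    rw [dif_pos h, hinj h.choose_spec]
    exact hci.symm

end Vale.Agent.P201
end
end

section

section

/-!
Group rings of groups acting on trees.
-/

namespace Vale.Agent.P201

open Finsupp HNN MulAction

section Main

variable {G V : Type*} [Group G] [MulAction G V] (T : SimpleGraph V) (hT : T.IsTree)
    (hadj : ∀ (g : G) v w, T.Adj v w → T.Adj (g • v) (g • w))
    (hinv : ∀ (g : G) v w, T.Adj v w → g • v = w → g • w ≠ v)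
    {E : Type*} [DivisionRing E] {D : V → Type*} [∀ v, DivisionRing (D v)]
    (ψ : ∀ v, MonoidAlgebra E (stabilizer G v) →+* D v)
    (hψ : ∀ v, LinnellFree (ψ v))
    (hbal : ∀ v w, T.Adj v w → ∀ (v' w' : V)
      (ψ1 : MonoidAlgebra E (stabilizer G v) →+* D v')
      (ψ2 : MonoidAlgebra E (stabilizer G w) →+* D w'), LinnellFree ψ1 → LinnellFree ψ2 →
      ∀ z : D v' × D w', RC {z | ∃ (g : G) (hv : g ∈ stabilizer G v) (hw : g ∈ stabilizer G w)
        (e : E), z = (ψ1 (MonoidAlgebra.single ⟨g, hv⟩ e), ψ2 (MonoidAlgebra.single ⟨g, hw⟩ e))} z →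
          (z.1 = 0 ↔ z.2 = 0))

include hT hadj hinv hψ hbal in
/-- If the group rings of the vertex stabilizers have Linnell free embeddings in division rings,
compatible along edges, then the group ring of the group has no zero divisors. -/
theorem tree_dom : NoZeroDivisors (MonoidAlgebra E G) := by
  classical
  have hne : Nonempty V := hT.connected.nonempty
  obtain ⟨v0⟩ := id hne
  obtain ⟨rv, γ, hγ, hrv⟩ := exists_reps G V
  obtain ⟨Ed, a, ha, hex, hun⟩ := exists_edges T hinv
  obtain ⟨R, _, _, _, f, hf⟩ := exists_common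
    (fun v => (ψ v).comp (MonoidAlgebra.singleOneRingHom (R := E) (M := stabilizer G v)))
  have hstab : ∀ (v : V) (g : G), g • v = v → (γ v)⁻¹ * g * γ v ∈ stabilizer G (rv v) := by
    intro v g hg
    rw [mem_stabilizer_iff, mul_smul, mul_smul, hγ, hg, inv_smul_eq_iff, hγ]
  -- conjugation into the stabilizer of the representative
  let cj : ∀ v, stabilizer G v →* stabilizer G (rv v) := fun v =>
    { toFun := fun c => ⟨(γ v)⁻¹ * c * γ v, hstab v c c.2⟩
      map_one' := Subtype.ext (by simp)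
      map_mul' := fun c d => Subtype.ext (by simp [mul_assoc]) }
  have hcj : ∀ v, Function.Injective (cj v) := by
    intro v c d hcd
    have h1 : (γ v)⁻¹ * (c : G) * γ v = (γ v)⁻¹ * d * γ v := congrArg Subtype.val hcd
    exact Subtype.ext (mul_left_cancel (mul_right_cancel h1))
  -- edge groups
  let C : Ed → Subgroup G := fun e => stabilizer G (a e true) ⊓ stabilizer G (a e false)
  have hC : ∀ e s (c : G), c ∈ C e → c • a e s = a e s := by
    intro e s c hc
    cases s
    · exact hc.2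
    · exact hc.1
  let φ : ∀ e s, C e →* stabilizer G (rv (a e s)) := fun e s =>
    (cj (a e s)).comp (Subgroup.inclusion (fun c hc => hC e s c hc))
  have hφval : ∀ e s (c : C e), ((φ e s c : stabilizer G (rv (a e s))) : G) =
      (γ (a e s))⁻¹ * c * γ (a e s) := fun e s c => rfl
  have hedge := fun e => exists_edge_ring (A := fun s => stabilizer G (rv (a e s))) (φ e)
    (D := fun s => D (rv (a e s))) (fun s => ψ (rv (a e s))) (by
      intro z hz
      refine hbal (a e true) (a e false) (ha e true) (rv (a e true)) (rv (a e false))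
        ((ψ (rv (a e true))).comp (MonoidAlgebra.mapDomainRingHom E (cj (a e true))))
        ((ψ (rv (a e false))).comp (MonoidAlgebra.mapDomainRingHom E (cj (a e false))))
        (linnellFree_comp (hψ _) _ (hcj _)) (linnellFree_comp (hψ _) _ (hcj _)) z
        (RC.mono ?_ hz)
      rintro _ ⟨g, e', rfl⟩
      refine ⟨g, g.2.1, g.2.2, e', ?_⟩
      rw [RingHom.comp_apply, MonoidAlgebra.mapDomainRingHom_apply,
        MonoidAlgebra.mapDomain_single, RingHom.comp_apply, MonoidAlgebra.mapDomainRingHom_apply,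
        MonoidAlgebra.mapDomain_single]
      rfl)
  choose F instF π χ hπχ hπK using hedge
  have htr := fun e s => exists_trans (ψ (rv (a e (!s)))) (hψ _) ((φ e (!s)).range)
    (π e (!s)) (hπK e (!s)) (f (rv (a e (!s)))) (f (rv (a e (!s)))).injective
  choose J rep o el good hrep hrep1 helo hgood hdec using htr
  let H : HData R Ed F J :=
    { σ := fun e s => (f (rv (a e s))).comp (π e s)
      o := o
      rep := rep
      rep_mul := fun e s φ r => hrep e s φ r
      rep_one := hrep1 }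
  let u : V → G → R := fun v g => if h : g ∈ stabilizer G v then f v (gu (ψ v) ⟨g, h⟩) else 0
  have hu : ∀ v g (h : g ∈ stabilizer G v), u v g = f v (gu (ψ v) ⟨g, h⟩) :=
    fun v g h => dif_pos h
  have hσu : ∀ e s (c : C e), H.σ e s (χ e (MonoidAlgebra.single c 1)) =
      u (rv (a e s)) (φ e s c) := by
    intro e s c
    rw [hu _ _ (φ e s c).2]
    change f _ (π e s (χ e (MonoidAlgebra.single c 1))) = _
    rw [hπχ]
    rfl
  let GDat : GD G V H :=
    { A := fun v => stabilizer G v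
      en := fun e s => rv (a e s)
      τ := fun e s => (γ (a e s))⁻¹ * γ (a e (!s))
      τ_inv := fun e s => by
        rw [Bool.not_not]
        group
      u := u
      u_one := fun q => by
        rw [hu q 1 (one_mem _)]
        have h1 : (⟨1, one_mem _⟩ : stabilizer G q) = 1 := rfl
        rw [h1, gu_one, map_one]
      u_mul := fun q g h hg hh => by
        rw [hu q _ (mul_mem hg hh), hu q g hg, hu q h hh, ← map_mul, ← gu_mul]
        rfl
      el := fun e s j => (el e s j : G)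
      good := good
      el_o := fun e s => by
        change ((el e s (o e s) : stabilizer G _) : G) = 1
        rw [helo]
        rfl
      el_mem := fun e s j _ => (el e s j).2
      b_el := fun e s j hj => by
        rw [hu _ _ (el e s j).2]
        change (rep e s).symm (single j 1) = _
        rw [AddEquiv.symm_apply_eq]
        exact (hgood e s j hj).symm
      dec := fun e s h hh => by
        obtain ⟨c, ⟨k, rfl⟩, j, hj, hcj⟩ := hdec e s ⟨h, hh⟩
        refine ⟨φ e (!s) k, φ e s k, (φ e (!s) k).2, (φ e s k).2, ?_,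
          ⟨χ e (MonoidAlgebra.single k 1), hσu e (!s) k, hσu e s k⟩, j, hj,
          congrArg Subtype.val hcj⟩
        rw [hφval, hφval]
        group }
  obtain ⟨Φ, hΦ⟩ := exists_Phi GDat rv γ hγ hrv (fun v => rfl) a (fun e s => rfl)
    (fun e s => rfl) (by
      intro e s c h1 h2
      have hcC : c ∈ C e := by
        cases s
        · exact ⟨h2, h1⟩
        · exact ⟨h1, h2⟩
      exact ⟨χ e (MonoidAlgebra.single ⟨c, hcC⟩ 1), hσu e s ⟨c, hcC⟩, hσu e (!s) ⟨c, hcC⟩⟩)
    hun T hT hadj hex v0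
  let θ : MonoidAlgebra E (GDat.A (rv v0)) →+* R := (f (rv v0)).comp (ψ (rv v0))
  have hθ : Function.Injective θ := (f (rv v0)).injective.comp (hψ (rv v0)).injective
  let sc : E →+* R := θ.comp MonoidAlgebra.singleOneRingHom
  have hsc : ∀ q e', sc e' = f q (ψ q (MonoidAlgebra.single 1 e')) :=
    fun q e' => hf (rv v0) q e'
  have hcomm1 : ∀ e', ∀ q, ∀ b ∈ GDat.A q, Commute (sc e') (GDat.u q b) := by
    intro e' q b hb
    change Commute (sc e') (u q b)
    rw [hu q b hb, hsc q]
    have h2 : Commute (MonoidAlgebra.single (1 : stabilizer G q) e')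
        (MonoidAlgebra.single (⟨b, hb⟩ : stabilizer G q) (1 : E)) := by
      unfold Commute SemiconjBy
      rw [MonoidAlgebra.single_mul_single, MonoidAlgebra.single_mul_single, one_mul, mul_one,
        mul_one, one_mul]
    exact (h2.map (ψ q)).map (f q)
  have hcomm2 : ∀ e', ∀ e s, Commute (H.L (sc e')) (H.T e s) := by
    intro e' e s
    have h1 : ∀ s, H.σ e s (χ e (MonoidAlgebra.single 1 e')) = sc e' := by
      intro s
      change f _ (π e s (χ e (MonoidAlgebra.single 1 e'))) = _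
      rw [hπχ, map_one, hsc (rv (a e s))]
    have h2 := T_mul_L H e s (χ e (MonoidAlgebra.single 1 e'))
    rw [h1, h1] at h2
    exact h2.symm
  have hcomm : ∀ e' g, Commute (H.L (sc e')) ((Φ g : (AddMonoid.End H.V)ˣ) : AddMonoid.End H.V) :=
    fun e' g => NF_commute GDat (hcomm1 e') (hcomm2 e') (hΦ g)
  let Rep : MonoidAlgebra E G →+* AddMonoid.End H.V :=
    MonoidAlgebra.liftNCRingHom (H.L.comp sc) ((Units.coeHom _).comp Φ) hcomm
  have hRep : ∀ g e', Rep (MonoidAlgebra.single g e') = H.L (sc e') * Φ g := fun g e' =>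
    MonoidAlgebra.liftNCRingHom_single (H.L.comp sc) ((Units.coeHom _).comp Φ) hcomm g e'
  have hmem : ∀ x, Rep x ∈ H.S := by
    intro x
    induction x using MonoidAlgebra.induction_linear with
    | zero => rw [map_zero]; exact zero_mem _
    | add x y hx hy => rw [map_add]; exact add_mem hx hy
    | single g e =>
      rw [hRep]
      exact mul_mem (L_mem H _) (NF_mem GDat (hΦ g))
  have hinj : ∀ x, Rep x = 0 → x = 0 := by
    intro x hx
    have hxs : x = ∑ g ∈ x.coeff.support, MonoidAlgebra.single g (x.coeff g) := by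
      apply MonoidAlgebra.ext
      rw [MonoidAlgebra.coeff_sum]
      conv_lhs => rw [← Finsupp.sum_single x.coeff]
      rfl
    have h1 : ∑ g ∈ x.coeff.support, H.L (θ (MonoidAlgebra.single 1 (x.coeff g))) *
        ((Φ g : (AddMonoid.End H.V)ˣ) : AddMonoid.End H.V) = 0 := by
      rw [← hx]
      conv_rhs => rw [hxs]
      rw [map_sum]
      refine Finset.sum_congr rfl fun g _ => ?_
      rw [hRep]
      rfl
    have h2 := NF_indep GDat θ hθ (fun b => by
      change f _ (ψ _ (MonoidAlgebra.single b 1)) = u _ _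
      rw [hu _ _ b.2]
      rfl) x.coeff.support (fun g => ((Φ g : (AddMonoid.End H.V)ˣ) : AddMonoid.End H.V))
      (fun g => (γ v0)⁻¹ * g * γ v0) (fun g _ h _ hgh => by
        exact mul_left_cancel (mul_right_cancel hgh)) hΦ x.coeff h1
    apply MonoidAlgebra.ext
    ext g
    by_cases hg : g ∈ x.coeff.support
    · rw [h2 g hg]
      rfl
    · rw [Finsupp.notMem_support_iff.1 hg]
      rfl
  refine ⟨fun {x y} hxy => ?_⟩
  have h1 : Rep x * Rep y = 0 := by rw [← map_mul, hxy, map_zero]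
  rcases S_dom (hmem x) (hmem y) h1 with h | h
  · exact Or.inl (hinj x h)
  · exact Or.inr (hinj y h)

end Main

end Vale.Agent.P201
end
end

section

section

/-!
Linnell free embeddings for extensions with bi-orderable quotient.
-/

namespace Vale.Agent.P201

universe u v w

theorem LinnellFree.hughesFree {G E D : Type*} [Group G] [DivisionRing E] [DivisionRing D]
    {ψ : MonoidAlgebra E G →+* D} (hψ : LinnellFree ψ) : HughesFree ψ := by
  have h1 := hughesFree_comp hψ (MonoidHom.id G) Function.injective_id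
  have h2 : ψ.comp (MonoidAlgebra.mapDomainRingHom E (MonoidHom.id G)) = ψ := by
    apply MonoidAlgebra.ringHom_ext
    · intro r
      rw [RingHom.comp_apply, MonoidAlgebra.mapDomainRingHom_apply, MonoidAlgebra.mapDomain_single]
      rfl
    · intro g
      rw [RingHom.comp_apply, MonoidAlgebra.mapDomainRingHom_apply, MonoidAlgebra.mapDomain_single]
      rfl
  rwa [h2] at h1

theorem ext_linnellFree_ker {A : Type u} {Q : Type u} {E : Type v} {D : Type w} [Group A]
    [Group Q] [LinearOrder Q] [MulLeftMono Q] [MulRightMono Q] [DivisionRing E] [DivisionRing D]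
    (π : A →* Q) (ψ : MonoidAlgebra E π.ker →+* D) (hψ : LinnellFree ψ) (hLI : OLI E π.ker) :
    ∃ (D' : Type (max u w)) (_ : DivisionRing D') (ψ' : MonoidAlgebra E A →+* D'),
      LinnellFree ψ' := by
  have hψ2 := hψ.toKK
  have hgen := toKK_gen ψ
  obtain ⟨α, hα, hα2⟩ := exists_alpha π.ker (MonoidHom.normal_ker π) (toKK ψ) hgen (by
    intro a z hz
    let c : π.ker →* π.ker := (MulAut.conjNormal a).toMonoidHom
    have hc : Function.Injective c := (MulAut.conjNormal a).injective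
    refine ore_hughes_balanced (ψ1 := toKK ψ)
      (ψ2 := (toKK ψ).comp (MonoidAlgebra.mapDomainRingHom E c))
      hψ2.hughesFree (hughesFree_comp hψ2 c hc) hψ2.injective
      (linnellFree_comp hψ2 c hc).injective hLI ?_
    refine RC.mono ?_ hz
    rintro _ ⟨n, e, rfl⟩
    refine ⟨n, e, ?_⟩
    rw [RingHom.comp_apply, MonoidAlgebra.mapDomainRingHom_apply, MonoidAlgebra.mapDomain_single]
    congr 3)
  have hS := indEnd_nontrivial π (toKK ψ)
  exact ⟨_, inferInstance, _, extHom_linnellFree π (toKK ψ) α hα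
    (indSigma π (toKK ψ) α hα2) (indRho π (toKK ψ)) (indRho_sigma π (toKK ψ) α hα2)
    (indRho_ker π (toKK ψ) α hα2 hα) hψ2⟩

/-- Extensions with bi-orderable quotient of groups with a Linnell free embedding. -/
theorem ext_linnellFree {A : Type u} {E : Type v} {D : Type w} [Group A] [DivisionRing E]
    [DivisionRing D] (N : Subgroup A) [N.Normal] (ψ : MonoidAlgebra E N →+* D)
    (hψ : LinnellFree ψ) (hLI : OLI E N) (hQ : BiOrderable (A ⧸ N)) :
    ∃ (D' : Type (max u w)) (_ : DivisionRing D') (ψ' : MonoidAlgebra E A →+* D'),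
      LinnellFree ψ' := by
  obtain ⟨_, _, _⟩ := hQ
  have hle : (QuotientGroup.mk' N).ker ≤ N := by rw [QuotientGroup.ker_mk']
  exact ext_linnellFree_ker (QuotientGroup.mk' N)
    (ψ.comp (MonoidAlgebra.mapDomainRingHom E (Subgroup.inclusion hle)))
    (linnellFree_comp hψ _ (Subgroup.inclusion_injective hle))
    (hLI.comap (Subgroup.inclusion hle) (Subgroup.inclusion_injective hle))

end Vale.Agent.P201
end
end

section

section

/-!
Groups acting on trees with vertex stabilizers that are iterated extensions of Ore groups by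
bi-orderable groups.
-/

namespace Vale.Agent.P201

open MulAction

universe u v w

/-- The properties of the vertex groups that are used. -/
def LinGood (E : Type v) [DivisionRing E] (G : Type u) [Group G] : Prop :=
  OLI E G ∧ ∃ (D : Type (max u v)) (_ : DivisionRing D) (ψ : MonoidAlgebra E G →+* D),
    LinnellFree ψ

theorem LinGood.comap {E : Type v} [DivisionRing E] {G C : Type u} [Group G] [Group C]
    (h : LinGood E G) (φ : C →* G) (hφ : Function.Injective φ) : LinGood E C := by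
  obtain ⟨h1, D, _, ψ, hψ⟩ := h
  exact ⟨h1.comap φ hφ, D, inferInstance, _, linnellFree_comp hψ φ hφ⟩

theorem LinGood.of_ore {E : Type v} [DivisionRing E] {G : Type u} [Group G]
    (h1 : NoZeroDivisors (MonoidAlgebra E G)) (h2 : LeftOre (MonoidAlgebra E G)) :
    LinGood E G := ⟨OLI.of_ore h2, linnellFree_of_ore h2⟩

theorem LinGood.ext {E : Type v} [DivisionRing E] {G : Type u} [Group G] (N : Subgroup G)
    [N.Normal] (h : LinGood E N) (hQ : BiOrderable (G ⧸ N)) : LinGood E G := by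
  obtain ⟨h1, D, _, ψ, hψ⟩ := h
  exact ⟨OLI.ext N h1 hQ, ext_linnellFree N ψ hψ h1 hQ⟩

end Vale.Agent.P201
end
end

section

section

/-!
Hughes free embeddings of group rings of groups with the relative local indicability condition
are Linnell free.
-/

namespace Vale.Agent.P201

universe u v w

section Rank

variable {C : Type u} {E : Type v} {D : Type w} [Group C] [DivisionRing E] [DivisionRing D]

/-- Elements of the division closure of `E[H]` whose iterated Laurent expansions have rank at most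
`α`. -/
def Rk (ψ : MonoidAlgebra E C →+* D) (α : Ordinal.{u}) (H : Subgroup C) (x : D) : Prop :=
  x ∈ KK ψ H ∧ H.FG ∧ ∀ f : C → ℤ, IsHomOn H f → (∃ h ∈ H, f h ≠ 0) →
    ∃ c : Lau D, Gam ψ H f (x, c) ∧ ∀ n : ℤ, ∃ g ∈ H, ∃ N ≤ H, ∃ β, ∃ _ : β < α,
      Rk ψ β N (Lau.cf c n * gu ψ g)
termination_by α

theorem OGd.rank {ψ : MonoidAlgebra E C →+* D} {P : Subgroup C → Prop} {H : Subgroup C}
    {z : D × D} (h : OGd ψ ψ P H z) : ∃ α, Rk ψ α H z.1 := by
  classical
  refine OGd.induct (motive := fun H z => ∃ α, Rk ψ α H z.1) ?_ h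
  intro H z _ hfg hKK _ hexp
  have h1 : ∀ f : C → ℤ, ∃ (c : Lau D), IsHomOn H f → (∃ h ∈ H, f h ≠ 0) →
      Gam ψ H f (z.1, c) ∧ ∀ n : ℤ, ∃ g ∈ H, ∃ N ≤ H, ∃ β, Rk ψ β N (Lau.cf c n * gu ψ g) := by
    intro f
    by_cases hf : IsHomOn H f ∧ ∃ h ∈ H, f h ≠ 0
    · obtain ⟨c, hc, hn⟩ := hexp f hf.1 hf.2
      refine ⟨c.1, fun _ _ => ⟨hc.1, fun n => ?_⟩⟩
      obtain ⟨g, hg, N, hN, _, _, _, β, hβ⟩ := hn n
      exact ⟨g, hg, N, hN, β, hβ⟩
    · exact ⟨0, fun h1 h2 => absurd ⟨h1, h2⟩ hf⟩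
  choose c hc using h1
  have h2 : ∀ (f : C → ℤ) (n : ℤ), ∃ (g : C) (N : Subgroup C) (β : Ordinal.{u}),
      IsHomOn H f → (∃ h ∈ H, f h ≠ 0) → g ∈ H ∧ N ≤ H ∧
        Rk ψ β N (Lau.cf (c f) n * gu ψ g) := by
    intro f n
    by_cases hf : IsHomOn H f ∧ ∃ h ∈ H, f h ≠ 0
    · obtain ⟨g, hg, N, hN, β, hβ⟩ := (hc f hf.1 hf.2).2 n
      exact ⟨g, N, β, fun _ _ => ⟨hg, hN, hβ⟩⟩
    · exact ⟨1, ⊥, 0, fun h1 h2 => absurd ⟨h1, h2⟩ hf⟩
  choose g N β hβ using h2
  refine ⟨⨆ p : (C → ℤ) × ℤ, Order.succ (β p.1 p.2), ?_⟩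
  rw [Rk]
  refine ⟨hKK.1, hfg, fun f hf hf' => ⟨c f, (hc f hf hf').1, fun n => ?_⟩⟩
  refine ⟨g f n, (hβ f n hf hf').1, N f n, (hβ f n hf hf').2.1, β f n, ?_, (hβ f n hf hf').2.2⟩
  exact lt_of_lt_of_le (Order.lt_succ _)
    (Ordinal.le_iSup (fun p : (C → ℤ) × ℤ => Order.succ (β p.1 p.2)) (f, n))

theorem Rk.mem {ψ : MonoidAlgebra E C →+* D} {α : Ordinal.{u}} {H : Subgroup C} {x : D}
    (h : Rk ψ α H x) : x ∈ KK ψ H := by
  rw [Rk] at h
  exact h.1

theorem Rk.fg {ψ : MonoidAlgebra E C →+* D} {α : Ordinal.{u}} {H : Subgroup C} {x : D}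
    (h : Rk ψ α H x) : H.FG := by
  rw [Rk] at h
  exact h.2.1

theorem cf_sum {ι : Type*} (s : Finset ι) (c : ι → Lau D) (n : ℤ) :
    Lau.cf (∑ i ∈ s, c i) n = ∑ i ∈ s, Lau.cf (c i) n := by
  classical
  induction s using Finset.induction_on with
  | empty => rfl
  | insert a s ha ih => rw [Finset.sum_insert ha, Finset.sum_insert ha, Lau.cf_add, ih]

/-- The case of a left Ore group ring. -/
theorem indep_of_ore {ψ : MonoidAlgebra E C →+* D} (hinj : Function.Injective ψ)
    {H : Subgroup C} (hore : LeftOre (MonoidAlgebra E H)) {ι : Type*} (s : Finset ι)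
    (N0 : Subgroup C) (x : ι → D) (N : ι → Subgroup C) (g : ι → C) (hNH : ∀ i ∈ s, N i ≤ H)
    (hgH : ∀ i ∈ s, g i ∈ H) (hN : ∀ i ∈ s, N i ≤ N0) (hx : ∀ i ∈ s, x i ∈ KK ψ (N i))
    (hg : ∀ i ∈ s, ∀ j ∈ s, g i * (g j)⁻¹ ∈ N0 → i = j)
    (hsum : ∑ i ∈ s, x i * gu ψ (g i) = 0) : ∀ i ∈ s, x i = 0 := by
  classical
  have hmi : Function.Injective (MonoidAlgebra.mapDomainRingHom E H.subtype) := by
    intro x y hxy
    exact MonoidAlgebra.mapDomain_injective H.subtype_injective hxy
  let ψH : MonoidAlgebra E H →+* D := ψ.comp (MonoidAlgebra.mapDomainRingHom E H.subtype)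
  have hs : ∀ (a : H) (e : E), ψH (MonoidAlgebra.single a e) =
      ψ (MonoidAlgebra.single (a : C) e) := by
    intro a e
    change ψ (MonoidAlgebra.mapDomainRingHom E H.subtype _) = _
    rw [MonoidAlgebra.mapDomainRingHom_apply, MonoidAlgebra.mapDomain_single]
    rfl
  have hL : LinnellFree ψH := linnellFree_of_injective hore ψH (hinj.comp hmi)
  let n : ι → H := fun i => if hi : i ∈ s then ⟨g i, hgH i hi⟩ else 1
  have hn : ∀ i ∈ s, (n i : C) = g i := by
    intro i hi
    simp only [n]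
    rw [dif_pos hi]
  refine hL.indexed (N0.subgroupOf H) s n ?_ x ?_ ?_
  · intro i hi j hj hij
    rw [Subgroup.mem_subgroupOf, Subgroup.coe_mul, Subgroup.coe_inv, hn i hi, hn j hj] at hij
    exact hg i hi j hj hij
  · intro i hi
    refine Subfield.closure_mono ?_ (hx i hi)
    rintro _ ⟨a, ha, e, rfl⟩
    exact ⟨⟨a, hNH i hi ha⟩, hN i hi ha, e, (hs ⟨a, hNH i hi ha⟩ e).symm⟩
  · rw [← hsum]
    refine Finset.sum_congr rfl fun i hi => ?_
    unfold gu
    rw [hs, hn i hi]

/-- Independence over cosets of elements with a rank. -/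
theorem rk_indep {ψ : MonoidAlgebra E C →+* D} (hψ : HughesFree ψ)
    (hinj : Function.Injective ψ) (hLI : OLI E C) {ι : Type*} [Finite ι]
    (α : ι → Ordinal.{u}) : ∀ (s : Finset ι) (N0 : Subgroup C) (x : ι → D)
    (N : ι → Subgroup C) (g : ι → C), (∀ i ∈ s, N i ≤ N0) →
    (∀ i ∈ s, Rk ψ (α i) (N i) (x i)) → (∀ i ∈ s, ∀ j ∈ s, g i * (g j)⁻¹ ∈ N0 → i = j) →
    ∑ i ∈ s, x i * gu ψ (g i) = 0 → ∀ i ∈ s, x i = 0 := by
  classical
  induction α using WellFoundedLT.induction with
  | ind α ihα =>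
  intro s
  induction s using Finset.strongInduction with
  | H s ihs =>
  intro N0 x N g hN hx hg hsum
  rcases s.eq_empty_or_nonempty with rfl | ⟨i0, hi0⟩
  · intro i hi
    exact absurd hi (Finset.notMem_empty i)
  obtain ⟨g', hg'd⟩ : ∃ g' : ι → C, ∀ i, g' i = g i * (g i0)⁻¹ := ⟨_, fun _ => rfl⟩
  have hg' : ∀ i ∈ s, ∀ j ∈ s, g' i * (g' j)⁻¹ ∈ N0 → i = j := by
    intro i hi j hj h
    apply hg i hi j hj
    have h1 : g' i * (g' j)⁻¹ = g i * (g j)⁻¹ := by
      rw [hg'd, hg'd]
      group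
    rwa [h1] at h
  have hsum' : ∑ i ∈ s, x i * gu ψ (g' i) = 0 := by
    have h1 : ∀ i ∈ s, x i * gu ψ (g' i) = x i * gu ψ (g i) * gu ψ (g i0)⁻¹ := by
      intro i _
      rw [hg'd, gu_mul, mul_assoc]
    rw [Finset.sum_congr rfl h1, ← Finset.sum_mul, hsum, zero_mul]
  obtain ⟨H, hH⟩ : ∃ H : Subgroup C, H = ⨆ i ∈ s, (N i ⊔ Subgroup.zpowers (g' i)) := ⟨_, rfl⟩
  have hHfg : H.FG := by
    rw [hH]
    exact Subgroup.FG.biSup_finset s _ fun i hi => (hx i hi).fg.sup (fg_zpowers _)
  have hle : ∀ i ∈ s, N i ⊔ Subgroup.zpowers (g' i) ≤ H := by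
    intro i hi
    rw [hH]
    exact le_iSup₂_of_le i hi le_rfl
  have hNH : ∀ i ∈ s, N i ≤ H := fun i hi => le_sup_left.trans (hle i hi)
  have hgH : ∀ i ∈ s, g' i ∈ H := fun i hi =>
    hle i hi (le_sup_right (a := N i) (Subgroup.mem_zpowers (g' i)))
  rcases hLI H hHfg with hore | ⟨f, hf, hne⟩
  · exact indep_of_ore hinj hore s N0 x N g' hNH hgH hN (fun i hi => (hx i hi).mem) hg' hsum'
  have hexp : ∀ i, ∃ c : Lau D, i ∈ s → Gam ψ H f (x i, c) ∧ ∀ n, Lau.cf c n ≠ 0 →
      ∃ h ∈ N i, ∃ N' ≤ N i, ∃ β ≤ α i, Rk ψ β N' (Lau.cf c n * gu ψ h) ∧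
        (β < α i ∨ (n = 0 ∧ ∀ l ∈ N i, f l = 0)) := by
    intro i
    by_cases hi : i ∈ s
    · by_cases hfi : ∃ h ∈ N i, f h ≠ 0
      · have h1 := hx i hi
        rw [Rk] at h1
        obtain ⟨c, hc, hn⟩ := h1.2.2 f (hf.mono (hNH i hi)) hfi
        refine ⟨c, fun _ => ⟨Gam_mono ψ (hNH i hi) hc, fun n _ => ?_⟩⟩
        obtain ⟨h, hh, N', hN', β, hβ, hr⟩ := hn n
        exact ⟨h, hh, N', hN', β, hβ.le, hr, Or.inl hβ⟩
      · push Not at hfi
        refine ⟨Lau.mon (x i) 0, fun _ => ⟨Gam_const ψ (hNH i hi) hfi (hx i hi).mem,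
          fun n hn => ?_⟩⟩
        have hn0 : n = 0 := by
          by_contra hn0
          exact hn (by rw [Lau.cf_mon, if_neg hn0])
        subst hn0
        refine ⟨1, (N i).one_mem, N i, le_rfl, α i, le_rfl, ?_, Or.inr ⟨rfl, hfi⟩⟩
        rw [Lau.cf_mon_same, gu_one, mul_one]
        exact hx i hi
    · exact ⟨0, fun h => absurd h hi⟩
  choose c hc using hexp
  have hzero : ∑ i ∈ s, c i * Lau.mon (gu ψ (g' i)) (f (g' i)) = 0 := by
    have h1 : Gam ψ H f (∑ i ∈ s, ((x i, c i) : D × Lau D) *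
        (gu ψ (g' i), Lau.mon (gu ψ (g' i)) (f (g' i)))) :=
      RC.sum s _ fun i hi => RC.mul (hc i hi).1 (Gam_gu ψ (hgH i hi))
    have h2 := (gam_balanced ψ hψ hf hne h1).1 (by
      rw [Prod.fst_sum, ← hsum']
      rfl)
    rw [Prod.snd_sum] at h2
    exact h2
  have hk : ∀ k : ℤ, ∑ i ∈ s, Lau.cf (c i) (k - f (g' i)) * gu ψ (g' i) = 0 := by
    intro k
    have h1 := congrArg (fun z => Lau.cf z k) hzero
    rw [cf_sum] at h1
    have h2 : Lau.cf (0 : Lau D) k = 0 := rfl
    rw [h2] at h1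
    rw [← h1]
    exact Finset.sum_congr rfl fun i _ => (Lau.cf_mul_mon _ _ _ _).symm
  have claim : ∀ k : ℤ, ∀ i ∈ s, Lau.cf (c i) (k - f (g' i)) = 0 := by
    intro k
    obtain ⟨y, hy⟩ : ∃ y : ι → D, ∀ i, y i = Lau.cf (c i) (k - f (g' i)) := ⟨_, fun _ => rfl⟩
    by_contra hcon
    push Not at hcon
    obtain ⟨i1, hi1, hi1'⟩ := hcon
    obtain ⟨sk, hsk⟩ : ∃ sk, sk = s.filter fun i => y i ≠ 0 := ⟨_, rfl⟩
    have hsks : ∀ i ∈ sk, i ∈ s ∧ y i ≠ 0 := by
      intro i hi
      rwa [hsk, Finset.mem_filter] at hi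
    have hski : ∀ i ∈ s, y i ≠ 0 → i ∈ sk := by
      intro i hi hi'
      rw [hsk, Finset.mem_filter]
      exact ⟨hi, hi'⟩
    have hsum_k : ∑ i ∈ sk, y i * gu ψ (g' i) = 0 := by
      rw [← hk k]
      have h1 : ∀ i ∈ s, Lau.cf (c i) (k - f (g' i)) * gu ψ (g' i) = y i * gu ψ (g' i) :=
        fun i _ => by rw [hy]
      rw [Finset.sum_congr rfl h1]
      refine Finset.sum_subset (fun i hi => (hsks i hi).1) fun i hi hi' => ?_
      have h2 : y i = 0 := by
        by_contra h2
        exact hi' (hski i hi h2)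
      rw [h2, zero_mul]
    have hdata : ∀ i, ∃ (h : C) (N' : Subgroup C) (β : Ordinal.{u}), i ∈ sk →
        h ∈ N i ∧ N' ≤ N i ∧ β ≤ α i ∧ Rk ψ β N' (y i * gu ψ h) ∧
          (β < α i ∨ (k - f (g' i) = 0 ∧ ∀ l ∈ N i, f l = 0)) := by
      intro i
      by_cases hi : i ∈ sk
      · have h1 := (hc i (hsks i hi).1).2 (k - f (g' i)) (by rw [← hy]; exact (hsks i hi).2)
        obtain ⟨h, hh, N', hN', β, hβ, hr, hor⟩ := h1
        exact ⟨h, N', β, fun _ => ⟨hh, hN', hβ, by rw [hy]; exact hr, hor⟩⟩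
      · exact ⟨1, ⊥, 0, fun h => absurd h hi⟩
    choose h N' β hd using hdata
    have hall : ∀ i ∈ sk, y i * gu ψ (h i) = 0 := by
      have e1 : ∀ i ∈ sk, N' i ≤ N0 := fun i hi => (hd i hi).2.1.trans (hN i (hsks i hi).1)
      have e2 : ∀ i ∈ sk, ∀ j ∈ sk, (h i)⁻¹ * g' i * ((h j)⁻¹ * g' j)⁻¹ ∈ N0 → i = j := by
        intro i hi j hj hij
        apply hg' i (hsks i hi).1 j (hsks j hj).1
        have h1 := N0.mul_mem (N0.mul_mem (hN i (hsks i hi).1 (hd i hi).1) hij)
          (N0.inv_mem (hN j (hsks j hj).1 (hd j hj).1))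
        have h2 : h i * ((h i)⁻¹ * g' i * ((h j)⁻¹ * g' j)⁻¹) * (h j)⁻¹ = g' i * (g' j)⁻¹ := by
          group
        rwa [h2] at h1
      have e3 : ∑ i ∈ sk, y i * gu ψ (h i) * gu ψ ((h i)⁻¹ * g' i) = 0 := by
        rw [← hsum_k]
        refine Finset.sum_congr rfl fun i _ => ?_
        rw [mul_assoc, ← gu_mul, mul_inv_cancel_left]
      by_cases hlt : ∃ i ∈ sk, β i < α i
      · obtain ⟨i2, hi2, hi2'⟩ := hlt
        have hα' : (fun i => if i ∈ sk then β i else α i) < α := by
          rw [Pi.lt_def]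
          refine ⟨fun i => ?_, i2, ?_⟩
          · change (if i ∈ sk then β i else α i) ≤ α i
            split_ifs with hi
            · exact (hd i hi).2.2.1
            · exact le_rfl
          · rw [if_pos hi2]
            exact hi2'
        refine ihα _ hα' sk N0 (fun i => y i * gu ψ (h i)) N' (fun i => (h i)⁻¹ * g' i) e1 ?_
          e2 e3
        intro i hi
        rw [if_pos hi]
        exact (hd i hi).2.2.2.1
      · push Not at hlt
        have hsub : sk ⊂ s := by
          rw [Finset.ssubset_iff_subset_ne]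
          refine ⟨fun i hi => (hsks i hi).1, ?_⟩
          intro heq
          have h1 : ∀ i ∈ s, k - f (g' i) = 0 ∧ ∀ l ∈ N i, f l = 0 := by
            intro i hi
            have hi' : i ∈ sk := by rw [heq]; exact hi
            exact (hd i hi').2.2.2.2.resolve_left (not_lt.2 (hlt i hi'))
          have h2 : g' i0 = 1 := by rw [hg'd, mul_inv_cancel]
          have h3 := (h1 i0 hi0).1
          rw [h2, hf.map_one, sub_zero] at h3
          have h4 : H ≤ kerOn H f hf := by
            conv_lhs => rw [hH]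
            refine iSup₂_le fun i hi => sup_le ?_ ?_
            · intro l hl
              exact ⟨hNH i hi hl, (h1 i hi).2 l hl⟩
            · rw [Subgroup.zpowers_le]
              refine ⟨hgH i hi, ?_⟩
              have h5 := (h1 i hi).1
              omega
          obtain ⟨a, ha, ha'⟩ := hne
          exact ha' (h4 ha).2
        refine ihs sk hsub N0 (fun i => y i * gu ψ (h i)) N' (fun i => (h i)⁻¹ * g' i) e1 ?_
          e2 e3
        intro i hi
        have h1 : β i = α i := le_antisymm (hd i hi).2.2.1 (hlt i hi)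
        rw [← h1]
        exact (hd i hi).2.2.2.1
    have h1 := hall i1 (hski i1 hi1 (by rw [hy]; exact hi1'))
    apply hi1'
    rw [← hy]
    exact (mul_eq_zero.1 h1).resolve_right (gu_ne_zero ψ _)
  intro i hi
  refine (gam_balanced ψ hψ hf hne (hc i hi).1).2 ?_
  change c i = 0
  rw [Lau.eq_zero_iff]
  intro n
  have h1 := claim (n + f (g' i)) i hi
  rwa [add_sub_cancel_right] at h1

end Rank

section Main

variable {C : Type u} {E : Type v} {D : Type w} [Group C] [DivisionRing E] [DivisionRing D]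

theorem DR.diag {ψ : MonoidAlgebra E C →+* D} {H : Subgroup C} {z : D × D}
    (hz : DR ψ ψ H z) : z.1 = z.2 := by
  unfold DR at hz
  induction hz with
  | base hx =>
    obtain ⟨g, _, e, rfl⟩ := hx
    rfl
  | zero => rfl
  | one => rfl
  | add _ _ h1 h2 => rw [Prod.fst_add, Prod.snd_add, h1, h2]
  | mul _ _ h1 h2 => rw [Prod.fst_mul, Prod.snd_mul, h1, h2]
  | neg _ h1 => rw [Prod.fst_neg, Prod.snd_neg, h1]
  | inv _ h1 => rw [Prod.fst_inv, Prod.snd_inv, h1]

theorem exists_OGd_le {ψ : MonoidAlgebra E C →+* D} {P : Subgroup C → Prop}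
    (hPm : ∀ H L : Subgroup C, H ≤ L → P L → P H)
    (hPc : ∀ (u : C) (H : Subgroup C), P (cj u H) → P H)
    (hψ : HughesFree ψ)
    (hLI : ∀ H : Subgroup C, H.FG → ¬ P H → ∃ f : C → ℤ, IsHomOn H f ∧ ∃ h ∈ H, f h ≠ 0)
    {N : Subgroup C} {z : D × D} (hz : DR ψ ψ N z) : ∃ H ≤ N, OGd ψ ψ P H z := by
  have hPb : ∀ (H : Subgroup C) (z : D × D), P H → DR ψ ψ H z → (z.1 = 0 ↔ z.2 = 0) :=
    fun H z _ h => by rw [h.diag]
  unfold DR at hz
  induction hz with
  | base hx =>
    obtain ⟨g, hg, e, rfl⟩ := hx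
    refine ⟨Subgroup.zpowers g, Subgroup.zpowers_le.2 hg, ?_⟩
    have h3 := (OGd.scalar (ψ1 := ψ) (ψ2 := ψ) (P := P) e).trans hPm bot_le (fg_zpowers g)
      (Subgroup.mem_zpowers g)
    have h4 : sc2 ψ ψ e * gu2 ψ ψ g =
        (ψ (MonoidAlgebra.single g e), ψ (MonoidAlgebra.single g e)) := by
      unfold sc2 gu2 gu
      rw [Prod.mk_mul_mk, ← map_mul, MonoidAlgebra.single_mul_single, one_mul, mul_one]
    rwa [h4] at h3
  | zero => exact ⟨⊥, bot_le, OGd.zero⟩
  | one =>
    refine ⟨⊥, bot_le, ?_⟩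
    have h5 : sc2 ψ ψ (1 : E) = 1 := sc2_one
    rw [← h5]
    exact OGd.scalar 1
  | add _ _ ih1 ih2 =>
    obtain ⟨H, hHN, hH⟩ := ih1
    obtain ⟨H', hHN', hH'⟩ := ih2
    exact ⟨H ⊔ H', sup_le hHN hHN', hH.add hPm hH'⟩
  | mul _ _ ih1 ih2 =>
    obtain ⟨H, hHN, hH⟩ := ih1
    obtain ⟨H', hHN', hH'⟩ := ih2
    exact ⟨H ⊔ H', sup_le hHN hHN', hH.mul hPm hPc hH'⟩
  | neg _ ih =>
    obtain ⟨H, hHN, hH⟩ := ih
    exact ⟨H, hHN, hH.neg hPm hPc⟩
  | inv _ ih =>
    obtain ⟨H, hHN, hH⟩ := ih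
    exact ⟨H, hHN, hH.inv hPm hPc hPb hψ hψ hLI⟩

/-- Under the relative local indicability condition, injective Hughes free homomorphisms to
division rings are Linnell free. -/
theorem linnellFree_of_hughes {ψ : MonoidAlgebra E C →+* D} (hψ : HughesFree ψ)
    (hinj : Function.Injective ψ) (hLI : OLI E C) : LinnellFree ψ := by
  classical
  have hPm : ∀ H L : Subgroup C, H ≤ L → LeftOre (MonoidAlgebra E L) →
      LeftOre (MonoidAlgebra E H) := fun H L h hL =>
    leftOre_comap (Subgroup.inclusion h) (Subgroup.inclusion_injective h) hL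
  have hPc : ∀ (u : C) (H : Subgroup C), LeftOre (MonoidAlgebra E (cj u H)) →
      LeftOre (MonoidAlgebra E H) := by
    intro u H h
    refine leftOre_comap ((MulAut.conj u).toMonoidHom.subgroupMap H) ?_ h
    intro x y hxy
    apply Subtype.ext
    have h3 : u * x * u⁻¹ = u * y * u⁻¹ := congrArg Subtype.val hxy
    exact mul_left_cancel (mul_right_cancel h3)
  have hLI' : ∀ H : Subgroup C, H.FG → ¬ LeftOre (MonoidAlgebra E H) →
      ∃ f : C → ℤ, IsHomOn H f ∧ ∃ h ∈ H, f h ≠ 0 := fun H hfg hn => (hLI H hfg).resolve_left hn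
  intro N s hs d hd hsum
  have hrk : ∀ a : s, ∃ (H : Subgroup C) (α : Ordinal.{u}), H ≤ N ∧ Rk ψ α H (d a) := by
    intro a
    have h1 := hd a a.2
    unfold KK at h1
    rw [← rc_iff_mem_closure] at h1
    have h2 : DR ψ ψ N (d a, d a) := by
      refine RC.map (RingHom.prod (RingHom.id D) (RingHom.id D)) (fun _ => rfl) ?_ h1
      rintro _ ⟨g, hg, e, rfl⟩
      exact ⟨g, hg, e, rfl⟩
    obtain ⟨H, hH, hO⟩ := exists_OGd_le (P := fun H : Subgroup C => LeftOre (MonoidAlgebra E H))
      hPm hPc hψ hLI' h2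
    obtain ⟨α, hα⟩ := hO.rank
    exact ⟨H, α, hH, hα⟩
  choose H α hH hα using hrk
  have key := rk_indep hψ hinj hLI α Finset.univ N (fun a : s => d a) H (fun a : s => (a : C))
    (fun a _ => hH a) (fun a _ => hα a)
    (fun a _ b _ hab => Subtype.ext (hs a a.2 b b.2 hab)) (by
      rw [← hsum, ← Finset.sum_coe_sort s (fun a => d a * gu ψ a)])
  intro a ha
  exact key ⟨a, ha⟩ (Finset.mem_univ _)

end Main

theorem LinGood.of_hughes {E : Type v} [DivisionRing E] {G : Type u} [Group G] (hLI : OLI E G)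
    {D : Type (max u v)} [DivisionRing D] (ψ : MonoidAlgebra E G →+* D)
    (hinj : Function.Injective ψ) (hψ : HughesFree ψ) : LinGood E G :=
  ⟨hLI, D, inferInstance, ψ, linnellFree_of_hughes hψ hinj hLI⟩

end Vale.Agent.P201
end
end

section

section

/-!
Group rings of groups acting on trees: the general statement.
-/

namespace Vale.Agent.P201

open MulAction

universe u v w

section Std

variable {C : Type u} {E : Type v} {D : Type w} [Group C] [DivisionRing E] [DivisionRing D]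

theorem exists_fg_KK {ψ : MonoidAlgebra E C →+* D} {N : Subgroup C} {x : D} (hx : x ∈ KK ψ N) :
    ∃ L ≤ N, L.FG ∧ x ∈ KK ψ L := by
  unfold KK at hx
  induction hx using Subfield.closure_induction with
  | mem x hx =>
    obtain ⟨a, ha, e, rfl⟩ := hx
    exact ⟨Subgroup.zpowers a, Subgroup.zpowers_le.2 ha, fg_zpowers a,
      single_mem_KK ψ (Subgroup.mem_zpowers a) e⟩
  | one => exact ⟨⊥, bot_le, Subgroup.FG.bot, one_mem _⟩
  | add x y _ _ h1 h2 =>
    obtain ⟨L, hL, hfg, hx⟩ := h1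
    obtain ⟨L', hL', hfg', hy⟩ := h2
    exact ⟨L ⊔ L', sup_le hL hL', hfg.sup hfg',
      add_mem (KK_mono ψ le_sup_left hx) (KK_mono ψ le_sup_right hy)⟩
  | neg x _ h1 =>
    obtain ⟨L, hL, hfg, hx⟩ := h1
    exact ⟨L, hL, hfg, neg_mem hx⟩
  | inv x _ h1 =>
    obtain ⟨L, hL, hfg, hx⟩ := h1
    exact ⟨L, hL, hfg, inv_mem hx⟩
  | mul x y _ _ h1 h2 =>
    obtain ⟨L, hL, hfg, hx⟩ := h1
    obtain ⟨L', hL', hfg', hy⟩ := h2
    exact ⟨L ⊔ L', sup_le hL hL', hfg.sup hfg',
      mul_mem (KK_mono ψ le_sup_left hx) (KK_mono ψ le_sup_right hy)⟩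

/-- The usual form of Hughes freeness implies the one for arbitrary subgroups. -/
theorem hughesFree_of_std {ψ : MonoidAlgebra E C →+* D}
    (h : ∀ H : Subgroup C, H.FG → ∀ (f : H →* Multiplicative ℤ) (t : H),
      f t = Multiplicative.ofAdd 1 → ∀ (s : Finset ℤ) (d : ℤ → D),
      (∀ n ∈ s, d n ∈ divClosure ψ {x | ∃ h : H, f h = 1 ∧ (h : C) = x}) →
      ∑ n ∈ s, d n * ψ (MonoidAlgebra.single ((t : C) ^ n) 1) = 0 → ∀ n ∈ s, d n = 0) :
    HughesFree ψ := by
  classical
  intro H f hf t ht hft s a ha hsum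
  have h1 : ∀ m : ℤ, ∃ L : Subgroup C, m ∈ s → L ≤ kerOn H f hf ∧ L.FG ∧ a m ∈ KK ψ L := by
    intro m
    by_cases hm : m ∈ s
    · obtain ⟨L, hL, hfg, hx⟩ := exists_fg_KK (ha m hm)
      exact ⟨L, fun _ => ⟨hL, hfg, hx⟩⟩
    · exact ⟨⊥, fun h => absurd h hm⟩
  choose L hL using h1
  obtain ⟨H0, hH0⟩ : ∃ H0 : Subgroup C, H0 = (⨆ m ∈ s, L m) ⊔ Subgroup.zpowers t := ⟨_, rfl⟩
  have hfg : H0.FG := by
    rw [hH0]
    exact (Subgroup.FG.biSup_finset s _ fun m hm => (hL m hm).2.1).sup (fg_zpowers t)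
  let Q : Subgroup C :=
    { carrier := {x | x ∈ H ∧ f t ∣ f x}
      one_mem' := ⟨H.one_mem, by rw [hf.map_one]; exact dvd_zero _⟩
      mul_mem' := by
        rintro x y ⟨hx, hx'⟩ ⟨hy, hy'⟩
        exact ⟨H.mul_mem hx hy, by rw [hf x hx y hy]; exact dvd_add hx' hy'⟩
      inv_mem' := by
        rintro x ⟨hx, hx'⟩
        exact ⟨H.inv_mem hx, by rw [hf.map_inv hx]; exact (dvd_neg).2 hx'⟩ }
  have hLH0 : ∀ m ∈ s, L m ≤ H0 := by
    intro m hm
    rw [hH0]
    exact le_sup_of_le_left (le_iSup₂_of_le m hm le_rfl)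
  have ht0 : t ∈ H0 := by
    rw [hH0]
    exact le_sup_right (a := ⨆ m ∈ s, L m) (Subgroup.mem_zpowers t)
  have hQ : H0 ≤ Q := by
    rw [hH0]
    refine sup_le (iSup₂_le fun m hm => ?_) ?_
    · intro x hx
      have h2 := (hL m hm).1 hx
      exact ⟨h2.1, by rw [h2.2]; exact dvd_zero _⟩
    · rw [Subgroup.zpowers_le]
      exact ⟨ht, dvd_rfl⟩
  let f0 : H0 →* Multiplicative ℤ :=
    { toFun := fun x => Multiplicative.ofAdd (f x / f t)
      map_one' := by
        rw [Subgroup.coe_one, hf.map_one, Int.zero_ediv]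
        rfl
      map_mul' := fun x y => by
        rw [Subgroup.coe_mul, hf x (hQ x.2).1 y (hQ y.2).1, Int.add_ediv_of_dvd_left (hQ x.2).2,
          ofAdd_add] }
  refine h H0 hfg f0 ⟨t, ht0⟩ ?_ s a ?_ hsum
  · change Multiplicative.ofAdd (f t / f t) = _
    rw [Int.ediv_self hft]
  · intro n hn
    refine Subfield.closure_mono ?_ (hL n hn).2.2
    rintro _ ⟨x, hx, e, rfl⟩
    refine ⟨x, ⟨⟨x, hLH0 n hn hx⟩, ?_, rfl⟩, e, rfl⟩
    change Multiplicative.ofAdd (f x / f t) = 1
    rw [((hL n hn).1 hx).2, Int.zero_ediv]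
    rfl

theorem OreIndicable.oli (h : OreIndicable E C) : OLI E C := by
  classical
  intro H hfg
  rcases h H hfg with h1 | ⟨f, hf⟩
  · exact Or.inl h1
  · right
    obtain ⟨x, hx⟩ : ∃ x, f x ≠ 1 := by
      by_contra hcon
      push Not at hcon
      exact hf (MonoidHom.ext hcon)
    refine ⟨fun c => if hc : c ∈ H then Multiplicative.toAdd (f ⟨c, hc⟩) else 0, ?_, x, x.2, ?_⟩
    · intro a ha b hb
      simp only
      rw [dif_pos (H.mul_mem ha hb), dif_pos ha, dif_pos hb, ← toAdd_mul, ← map_mul]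
      rfl
    · simp only
      rw [dif_pos x.2]
      intro h0
      exact hx (Multiplicative.toAdd.injective h0)

end Std

theorem Tower.linGood {E : Type v} [DivisionRing E] {G : Type u} [Group G] (h : Tower E G) :
    LinGood E G := by
  obtain ⟨k, N, htop, h0, hstep⟩ := h
  have key : ∀ i ≤ k, LinGood E (N i) := by
    intro i
    induction i with
    | zero =>
      intro _
      rcases h0 with ⟨h1, h2⟩ | ⟨h1, D, _, ψ, hinj, hψ⟩
      · exact LinGood.of_ore h1 h2
      · exact LinGood.of_hughes h1.oli ψ hinj (hughesFree_of_std hψ)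
    | succ i ih =>
      intro hi
      obtain ⟨hle, hn, hQ⟩ := hstep i (by omega)
      refine LinGood.ext ((N i).subgroupOf (N (i + 1))) ?_ hQ
      exact (ih (by omega)).comap (Subgroup.subgroupOfEquivOfLe hle).toMonoidHom
        (Subgroup.subgroupOfEquivOfLe hle).injective
  have h1 := key k le_rfl
  rw [htop] at h1
  exact h1.comap (Subgroup.topEquiv (G := G)).symm.toMonoidHom
    (Subgroup.topEquiv (G := G)).symm.injective

/-- Group rings of groups acting on trees whose vertex stabilizers have Linnell free embeddings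
and whose edge stabilizers satisfy the relative local indicability condition. -/
theorem tree_linnell {G : Type u} {V : Type w} [Group G] [MulAction G V] (T : SimpleGraph V)
    (hT : T.IsTree) (hadj : ∀ (g : G) v w, T.Adj v w → T.Adj (g • v) (g • w))
    (hinv : ∀ (g : G) v w, T.Adj v w → g • v = w → g • w ≠ v)
    (E : Type v) [DivisionRing E]
    (hstab : ∀ v : V, ∃ (D : Type (max u v)) (_ : DivisionRing D)
      (ψ : MonoidAlgebra E (stabilizer G v) →+* D), LinnellFree ψ)
    (hedge : ∀ v w : V, T.Adj v w → OLI E (stabilizer G v ⊓ stabilizer G w : Subgroup G)) :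
    NoZeroDivisors (MonoidAlgebra E G) := by
  choose D hD ψ hψ using hstab
  refine tree_dom T hT hadj hinv ψ hψ ?_
  intro v w hvw v' w' ψ1 ψ2 hψ1 hψ2 z hz
  have hi1 := Subgroup.inclusion_injective
    (inf_le_left : stabilizer G v ⊓ stabilizer G w ≤ stabilizer G v)
  have hi2 := Subgroup.inclusion_injective
    (inf_le_right : stabilizer G v ⊓ stabilizer G w ≤ stabilizer G w)
  refine ore_hughes_balanced (C := (stabilizer G v ⊓ stabilizer G w : Subgroup G))
    (hughesFree_comp hψ1 (Subgroup.inclusion inf_le_left) hi1)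
    (hughesFree_comp hψ2 (Subgroup.inclusion inf_le_right) hi2)
    (linnellFree_comp hψ1 (Subgroup.inclusion inf_le_left) hi1).injective
    (linnellFree_comp hψ2 (Subgroup.inclusion inf_le_right) hi2).injective
    (hedge v w hvw) (RC.mono ?_ hz)
  rintro _ ⟨g, hv, hw, e, rfl⟩
  refine ⟨⟨g, hv, hw⟩, e, ?_⟩
  rw [RingHom.comp_apply, MonoidAlgebra.mapDomainRingHom_apply, MonoidAlgebra.mapDomain_single,
    RingHom.comp_apply, MonoidAlgebra.mapDomainRingHom_apply, MonoidAlgebra.mapDomain_single]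
  rfl

/-- The general statement. -/
theorem tree_general {G : Type u} {V : Type w} [Group G] [MulAction G V] (T : SimpleGraph V)
    (hT : T.IsTree) (hadj : ∀ (g : G) v w, T.Adj v w → T.Adj (g • v) (g • w))
    (hinv : ∀ (g : G) v w, T.Adj v w → g • v = w → g • w ≠ v)
    (E : Type v) [DivisionRing E]
    (hstab : ∀ v : V, Tower E (stabilizer G v) ∨ (HasLinnellFree E (stabilizer G v) ∧
      ∀ w : V, T.Adj v w → OreIndicable E (stabilizer G v ⊓ stabilizer G w : Subgroup G))) :
    NoZeroDivisors (MonoidAlgebra E G) := by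
  refine tree_linnell T hT hadj hinv E ?_ ?_
  · intro v
    rcases hstab v with h | ⟨h, _⟩
    · exact h.linGood.2
    · exact h
  · intro v w hvw
    rcases hstab v with h | ⟨_, h⟩
    · exact h.linGood.1.comap (Subgroup.inclusion inf_le_left)
        (Subgroup.inclusion_injective inf_le_left)
    · exact (h w hvw).oli

end Vale.Agent.P201
end
end

section

section

/-!
Group rings of extensions with a unique product quotient.
-/

namespace Vale.Agent.P201

open Finset

theorem up_ext {G E : Type*} [Group G] [DivisionRing E] (N : Subgroup G) [N.Normal]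
    (hQ : UniqueProds (G ⧸ N)) (hN : NoZeroDivisors (MonoidAlgebra E N)) :
    NoZeroDivisors (MonoidAlgebra E G) := by
  classical
  refine ⟨fun {α β} hαβ => ?_⟩
  by_contra hcon
  push Not at hcon
  obtain ⟨hα, hβ⟩ := hcon
  have hα' : α.coeff.support.Nonempty := by
    rw [Finsupp.support_nonempty_iff]
    intro h
    exact hα (MonoidAlgebra.ext h)
  have hβ' : β.coeff.support.Nonempty := by
    rw [Finsupp.support_nonempty_iff]
    intro h
    exact hβ (MonoidAlgebra.ext h)
  obtain ⟨a0, ha0, b0, hb0, huniq⟩ := UniqueProds.uniqueMul_of_nonempty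
    (hα'.image (QuotientGroup.mk' N)) (hβ'.image (QuotientGroup.mk' N))
  rw [mem_image] at ha0 hb0
  obtain ⟨ga, hga, hga'⟩ := ha0
  obtain ⟨gb, hgb, hgb'⟩ := hb0
  let α' : MonoidAlgebra E N := MonoidAlgebra.ofCoeff
    (Finsupp.comapDomain (fun n : N => ga * n) α.coeff
      (fun _ _ _ _ h => Subtype.ext (mul_left_cancel h)))
  let β' : MonoidAlgebra E N := MonoidAlgebra.ofCoeff
    (Finsupp.comapDomain (fun n : N => n * gb) β.coeff
      (fun _ _ _ _ h => Subtype.ext (mul_right_cancel h)))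
  have hα1 : ∀ n : N, α'.coeff n = α.coeff (ga * n) := fun n => rfl
  have hβ1 : ∀ n : N, β'.coeff n = β.coeff (n * gb) := fun n => rfl
  have hα0 : α' ≠ 0 := by
    intro h
    have h1 := hα1 1
    rw [h, Subgroup.coe_one, mul_one] at h1
    exact (Finsupp.mem_support_iff.1 hga) h1.symm
  have hβ0 : β' ≠ 0 := by
    intro h
    have h1 := hβ1 1
    rw [h, Subgroup.coe_one, one_mul] at h1
    exact (Finsupp.mem_support_iff.1 hgb) h1.symm
  refine (mul_ne_zero hα0 hβ0) ?_
  apply MonoidAlgebra.ext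
  ext n
  have h0 : (α * β).coeff (ga * n * gb) = 0 := by rw [hαβ]; rfl
  change (α' * β').coeff n = 0
  rw [← h0, MonoidAlgebra.coeff_mul_apply_left, MonoidAlgebra.coeff_mul_apply_left,
    Finsupp.sum, Finsupp.sum]
  have h1 : ∀ m ∈ α'.coeff.support, α'.coeff m * β'.coeff (m⁻¹ * n) =
      α.coeff (ga * m) * β.coeff ((ga * m)⁻¹ * (ga * n * gb)) := by
    intro m _
    rw [hα1, hβ1]
    congr 2
    rw [Subgroup.coe_mul, Subgroup.coe_inv]
    simp only [mul_inv_rev, mul_assoc, inv_mul_cancel_left]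
  rw [sum_congr rfl h1, ← sum_image (f := fun y => α.coeff y * β.coeff (y⁻¹ * (ga * n * gb)))
    (g := fun m : N => ga * (m : G)) (s := α'.coeff.support)
    (fun x _ y _ h => Subtype.ext (mul_left_cancel h))]
  refine sum_subset ?_ ?_
  · intro y hy
    rw [mem_image] at hy
    obtain ⟨m, hm, rfl⟩ := hy
    rw [Finsupp.mem_support_iff] at hm ⊢
    exact hm
  · intro y hy hy'
    by_contra hne
    apply hy'
    have h2 : y⁻¹ * (ga * n * gb) ∈ β.coeff.support := by
      rw [Finsupp.mem_support_iff]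
      intro h
      exact hne (by rw [h, mul_zero])
    have hn1 : QuotientGroup.mk' N (n : G) = 1 := (QuotientGroup.eq_one_iff _).2 n.2
    have h3 := huniq (mem_image_of_mem _ hy) (mem_image_of_mem _ h2) (by
      rw [← map_mul, mul_inv_cancel_left, map_mul, map_mul, hn1, mul_one, hga', hgb'])
    have h4 : ga⁻¹ * y ∈ N := by
      rw [← QuotientGroup.eq]
      change QuotientGroup.mk' N ga = QuotientGroup.mk' N y
      rw [hga', h3.1]
    rw [mem_image]
    refine ⟨⟨ga⁻¹ * y, h4⟩, ?_, ?_⟩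
    · rw [Finsupp.mem_support_iff, hα1, Subgroup.coe_mk, mul_inv_cancel_left]
      exact Finsupp.mem_support_iff.1 hy
    · simp only
      rw [mul_inv_cancel_left]

end Vale.Agent.P201
end
end
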